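import Vale.Agent.P184.Rep

/-!
P184 [helper1]: induction and Brauer's criterion.
-/

namespace Vale.P184

open Matrix

variable {E F : Type*} [Group E] [Group F]

section Ind

variable [Fintype E] [Fintype F] [DecidableEq F]

omit [Fintype F] [DecidableEq F] in
lemma exists_bij (ψ : E →* F) (hψ : Function.Injective ψ) :
    Function.Bijective fun q : (F ⧸ ψ.range) × E => q.1.out * ψ q.2 := by
  constructor
  · rintro ⟨a, y⟩ ⟨b, z⟩ h
    simp only at h
    have hab : a = b := by
      rw [← QuotientGroup.out_eq' a, ← QuotientGroup.out_eq' b]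
      exact QuotientGroup.eq.2 ⟨y * z⁻¹, by
        rw [map_mul, map_inv, eq_inv_mul_iff_mul_eq, ← mul_assoc, h, mul_inv_cancel_right]⟩
    subst hab
    exact Prod.ext rfl (hψ (mul_left_cancel h))
  · intro h
    obtain ⟨y, hy⟩ : (h : F ⧸ ψ.range).out⁻¹ * h ∈ ψ.range :=
      QuotientGroup.eq.1 (QuotientGroup.out_eq' _)
    exact ⟨(h, y), by simp [hy]⟩

/-- The induced class function of a representation trace is a representation trace. -/
lemma isRepTrace_indFun (ψ : E →* F) (hψ : Function.Injective ψ) {f : E → ℂ} (hf : IsRepTrace f) :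
    IsRepTrace (indFun ψ f) := by
  classical
  obtain ⟨m, ρ, P, hP, hc, hf⟩ := hf
  let Q := F ⧸ ψ.range
  have hmem : ∀ (x : F) (b : Q), ∃ y, ψ y = (x • b).out⁻¹ * (x * b.out) := by
    intro x b
    have : (x • b).out⁻¹ * (x * b.out) ∈ ψ.range := QuotientGroup.eq.1 (by
      rw [QuotientGroup.out_eq']
      conv_lhs => rw [← QuotientGroup.out_eq' b]
      rfl)
    exact this
  choose r hr using hmem
  have rmul : ∀ x y b, r (x * y) b = r x (y • b) * r y b := fun x y b => hψ (by
    rw [map_mul, hr, hr, hr, mul_smul]; simp [mul_assoc])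
  have r1 : ∀ b, r 1 b = 1 := fun b => hψ (by rw [hr, map_one, one_smul, one_mul, inv_mul_cancel])
  let M : F → Matrix (Q × Fin m) (Q × Fin m) ℂ := fun x =>
    Matrix.of fun u v => if x • v.1 = u.1 then ρ (r x v.1) u.2 v.2 else 0
  have hM1 : M 1 = 1 := by
    ext ⟨a, i⟩ ⟨b, j⟩
    simp only [M, Matrix.of_apply, one_smul, r1, map_one, Matrix.one_apply, Prod.mk.injEq]
    by_cases h : b = a
    · simp [h]
    · simp [h, Ne.symm h]
  have hMmul : ∀ x y, M (x * y) = M x * M y := by
    intro x y
    ext ⟨a, i⟩ ⟨b, j⟩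
    rw [Matrix.mul_apply, Fintype.sum_prod_type]
    simp only [M, Matrix.of_apply]
    rw [Finset.sum_eq_single (y • b) (fun c _ hc' => Finset.sum_eq_zero fun k _ => by
      rw [if_neg (Ne.symm hc'), mul_zero]) (fun h => absurd (Finset.mem_univ _) h)]
    simp only [if_true, rmul, map_mul, Matrix.mul_apply, mul_smul]
    by_cases h : x • y • b = a <;> simp [h]
  let P' : Matrix (Q × Fin m) (Q × Fin m) ℂ :=
    Matrix.of fun u v => if u.1 = v.1 then P u.2 v.2 else 0
  have hMP : ∀ x, M x * P' = Matrix.of fun u v =>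
      if x • v.1 = u.1 then (ρ (r x v.1) * P) u.2 v.2 else 0 := by
    intro x
    ext ⟨a, i⟩ ⟨b, j⟩
    rw [Matrix.mul_apply, Fintype.sum_prod_type]
    simp only [M, P', Matrix.of_apply]
    rw [Finset.sum_eq_single b (fun c _ hc' => Finset.sum_eq_zero fun k _ => by
      rw [if_neg hc', mul_zero]) (fun h => absurd (Finset.mem_univ _) h)]
    by_cases h : x • b = a <;> simp [h, Matrix.mul_apply]
  have hPM : ∀ x, P' * M x = Matrix.of fun u v =>
      if x • v.1 = u.1 then (P * ρ (r x v.1)) u.2 v.2 else 0 := by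
    intro x
    ext ⟨a, i⟩ ⟨b, j⟩
    rw [Matrix.mul_apply, Fintype.sum_prod_type]
    simp only [M, P', Matrix.of_apply]
    rw [Finset.sum_eq_single a (fun c _ hc' => Finset.sum_eq_zero fun k _ => by
      rw [if_neg (Ne.symm hc'), zero_mul]) (fun h => absurd (Finset.mem_univ _) h)]
    by_cases h : x • b = a <;> simp [h, Matrix.mul_apply]
  have hP' : P' * P' = P' := by
    ext ⟨a, i⟩ ⟨b, j⟩
    rw [Matrix.mul_apply, Fintype.sum_prod_type]
    simp only [P', Matrix.of_apply]
    rw [Finset.sum_eq_single a (fun c _ hc' => Finset.sum_eq_zero fun k _ => by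
      rw [if_neg (Ne.symm hc'), zero_mul]) (fun h => absurd (Finset.mem_univ _) h)]
    by_cases h : a = b
    · subst h
      simp only [if_true]
      rw [← Matrix.mul_apply, hP]
    · simp [h]
  have h := IsRepTrace.of_fintype ⟨⟨M, hM1⟩, hMmul⟩ P' hP' fun x => by
    show M x * P' = P' * M x
    rw [hMP, hPM]
    simp only [(hc _).eq]
  refine Eq.mp (congrArg IsRepTrace (funext fun x => ?_)) h
  show (M x * P').trace = _
  have hcl : ∀ u w, f (u * w * u⁻¹) = f w := by
    intro u w
    rw [hf, hf, map_mul, map_mul, mul_assoc, mul_assoc, Matrix.trace_mul_comm,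
      mul_assoc, mul_assoc, ← (hc u).eq, ← mul_assoc (ρ u⁻¹), ← map_mul, inv_mul_cancel, map_one,
      one_mul]
  have key : ∀ b : Q, (∑ y : E, ∑ w : E,
      if ψ w = (b.out * ψ y)⁻¹ * x * (b.out * ψ y) then f w else 0)
        = Fintype.card E * (if x • b = b then f (r x b) else 0) := by
    intro b
    by_cases h : x • b = b
    · have hval : ∀ y, (b.out * ψ y)⁻¹ * x * (b.out * ψ y) = ψ (y⁻¹ * r x b * y) := fun y => by
        rw [map_mul, map_mul, map_inv, hr, h]
        simp [mul_assoc]
      have hin : ∀ y, (∑ w : E, if ψ w = ψ (y⁻¹ * r x b * y) then f w else 0) = f (r x b) := by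
        intro y
        rw [Finset.sum_eq_single (y⁻¹ * r x b * y) (fun w _ hw => if_neg fun e => hw (hψ e))
          (fun hn => absurd (Finset.mem_univ _) hn), if_pos rfl]
        simpa using hcl y⁻¹ (r x b)
      simp only [hval, hin, if_pos h, Finset.sum_const, Finset.card_univ, nsmul_eq_mul]
    · rw [if_neg h, mul_zero]
      refine Finset.sum_eq_zero fun y _ => Finset.sum_eq_zero fun w _ => if_neg fun e => h ?_
      conv_rhs => rw [← QuotientGroup.out_eq' b]
      conv_lhs => rw [← QuotientGroup.out_eq' b]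
      show ((x * b.out : F) : Q) = _
      refine (QuotientGroup.eq.2 (MonoidHom.mem_range.2 ⟨y * w * y⁻¹, ?_⟩)).symm
      rw [map_mul, map_mul, map_inv, e]
      simp [mul_assoc]
  rw [hMP, Matrix.trace, Fintype.sum_prod_type]
  simp only [Matrix.diag, Matrix.of_apply, indFun]
  rw [← Fintype.sum_bijective _ (exists_bij ψ hψ) _ _ (fun _ => rfl), Fintype.sum_prod_type]
  simp only [key, ← Finset.mul_sum]
  rw [inv_mul_cancel_left₀ (Nat.cast_ne_zero.2 Fintype.card_pos.ne')]
  refine Finset.sum_congr rfl fun b _ => ?_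
  by_cases h : x • b = b
  · simp only [if_pos h, hf]
    rfl
  · simp [h]

lemma indFun_mem_VA' (ψ : E →* F) (hψ : Function.Injective ψ) {f : E → ℂ} (hf : f ∈ VA E) :
    indFun ψ f ∈ VA F := by
  refine Submodule.span_induction ?_ ?_ ?_ ?_ hf
  · exact fun f hf => (isRepTrace_indFun ψ hψ hf).mem_VA
  · convert (VA F).zero_mem
    funext x
    simp [indFun]
  · intro f g _ _ h1 h2
    convert (VA F).add_mem h1 h2 using 1
    funext x
    simp only [indFun, Pi.add_apply, ← mul_add, ← Finset.sum_add_distrib]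
    refine congrArg _ (Finset.sum_congr rfl fun a _ => Finset.sum_congr rfl fun b _ => ?_)
    split_ifs <;> simp
  · intro a f _ h
    convert (VA F).smul_mem a h using 1
    funext x
    simp only [indFun, Pi.smul_apply, Subalgebra.smul_def, smul_eq_mul, Finset.mul_sum]
    refine Finset.sum_congr rfl fun u _ => Finset.sum_congr rfl fun v _ => ?_
    split_ifs <;> ring

/-- `VA` is stable under induction along injective homomorphisms. -/
theorem indFun_mem_VA (ψ : E →* F) (hψ : Function.Injective ψ) {f : E → ℂ} (hf : f ∈ VA E)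
    (_hclass : ∀ g y, f (g * y * g⁻¹) = f y) :
    indFun ψ f ∈ VA F :=
  indFun_mem_VA' ψ hψ hf

/-- Induction commutes with multiplication by a class function. -/
lemma indFun_mul (ψ : E →* F) (η : E → ℂ) {φ : F → ℂ} (hφ : ∀ g x, φ (g * x * g⁻¹) = φ x) :
    indFun ψ (fun y => η y * φ (ψ y)) = fun x => indFun ψ η x * φ x := by
  funext x
  simp only [indFun, Finset.mul_sum, Finset.sum_mul]
  refine Finset.sum_congr rfl fun h _ => Finset.sum_congr rfl fun y _ => ?_
  split_ifs with e
  · have h2 : φ (ψ y) = φ x := by rw [e]; simpa using hφ h⁻¹ x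
    rw [h2]; ring
  · simp

end Ind

section Criterion

variable [Fintype F] [DecidableEq F]

open Classical in
/-- On a cyclic group, `d` times the indicator of a generator is in `VA`. -/
lemma gen_ind_mem (x : F) :
    (fun y : Subgroup.zpowers x => if (y : F) = x then (orderOf x : ℂ) else 0)
      ∈ VA (Subgroup.zpowers x) := by
  set d := orderOf x
  have hd : 0 < d := orderOf_pos x
  let ζ : ℂˣ := ((Complex.isPrimitiveRoot_exp d hd.ne').isUnit hd.ne').unit
  have hζ : IsPrimitiveRoot ζ d :=
    IsPrimitiveRoot.coe_units_iff.1 (Complex.isPrimitiveRoot_exp d hd.ne')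
  have hg : ∀ y : Subgroup.zpowers x, y ∈ Subgroup.zpowers (⟨x, Subgroup.mem_zpowers x⟩ : Subgroup.zpowers x) := by
    rintro ⟨y, k, rfl⟩
    exact ⟨k, Subtype.ext (by simp)⟩
  have hgo : orderOf ζ ∣ orderOf (⟨x, Subgroup.mem_zpowers x⟩ : Subgroup.zpowers x) := by
    rw [← hζ.eq_orderOf]; simp [d]
  let χ : Subgroup.zpowers x →* ℂˣ := monoidHomOfForallMemZpowers hg hgo
  have hχ : ∀ k : ℤ, χ (⟨x, Subgroup.mem_zpowers x⟩ ^ k) = ζ ^ k := fun k => by
    rw [map_zpow, monoidHomOfForallMemZpowers_apply_gen]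
  let χj : ℕ → Subgroup.zpowers x →* Matrix Unit Unit ℂ := fun j =>
    { toFun := fun y => Matrix.scalar Unit (((χ y : ℂˣ) : ℂ) ^ j)
      map_one' := by simp
      map_mul' := fun a b => by simp only [map_mul, Units.val_mul, mul_pow] }
  have hint : ∀ j : ℕ, IsIntegral ℤ ((((ζ⁻¹ : ℂˣ) : ℂ)) ^ j) := fun j =>
    (IsIntegral.of_pow hd (by
      rw [← Units.val_pow_eq_pow_val, inv_pow, hζ.pow_eq_one, inv_one, Units.val_one]
      exact isIntegral_one)).pow j
  have hsum := (VA (Subgroup.zpowers x)).sum_mem (t := Finset.range d) fun j _ =>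
    VA.smul_mem' (IsRepTrace.of_hom (χj j)).mem_VA (hint j)
  convert hsum using 1
  funext y
  rw [Finset.sum_apply]
  have e : ∀ j, (((ζ⁻¹ : ℂˣ) : ℂ)) ^ j * (χj j y).trace = ((ζ⁻¹ * χ y : ℂˣ) : ℂ) ^ j := fun j => by
    simp [χj, Matrix.trace, mul_pow]
  simp only [e]
  obtain ⟨k, rfl⟩ := Subgroup.mem_zpowers_iff.1 (hg y)
  have hiff : ((⟨x, Subgroup.mem_zpowers x⟩ ^ k : Subgroup.zpowers x) : F) = x
      ↔ ζ⁻¹ * χ (⟨x, Subgroup.mem_zpowers x⟩ ^ k) = 1 := by
    rw [hχ, ← _root_.zpow_neg_one, ← _root_.zpow_add, hζ.zpow_eq_one_iff_dvd, orderOf_dvd_iff_zpow_eq_one,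
      _root_.zpow_add, _root_.zpow_neg_one, inv_mul_eq_one]
    exact ⟨fun h => by simpa using h.symm, fun h => by simpa using h.symm⟩
  by_cases h : ((⟨x, Subgroup.mem_zpowers x⟩ ^ k : Subgroup.zpowers x) : F) = x
  · rw [if_pos h, hiff.1 h]; simp
  · rw [if_neg h, geom_sum_eq (fun h' => h (hiff.2 (Units.ext h')))]
    have : ((ζ⁻¹ * χ (⟨x, Subgroup.mem_zpowers x⟩ ^ k) : ℂˣ) : ℂ) ^ d = 1 := by
      rw [← Units.val_pow_eq_pow_val, hχ, mul_pow, inv_pow, hζ.pow_eq_one, inv_one, one_mul,
        ← zpow_natCast, ← _root_.zpow_mul, mul_comm k, _root_.zpow_mul, zpow_natCast, hζ.pow_eq_one,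
        _root_.one_zpow, Units.val_one]
    rw [this, sub_self, zero_div]

variable {φ : F → ℂ}

open Classical in
/-- `|F|` times an integer class function times `φ` is in `VA`. -/
lemma card_smul_mem (hclass : ∀ g x, φ (g * x * g⁻¹) = φ x) (hint : ∀ x, IsIntegral ℤ (φ x))
    (k : F → ℤ) (hk : ∀ g x, k (g * x * g⁻¹) = k x) :
    (fun z => (Fintype.card F : ℂ) * k z * φ z) ∈ VA F := by
  have hx : ∀ x : F, (fun z => ((Finset.univ.filter fun h : F => h⁻¹ * z * h = x).card : ℂ)
      * (k x * φ x)) ∈ VA F := by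
    intro x
    have h1 := indFun_mem_VA' (Subgroup.zpowers x).subtype Subtype.val_injective
      (VA.smul_mem' (gen_ind_mem x) (IsIntegral.mul (isIntegral_algebraMap (x := k x)) (hint x)))
    convert h1 using 1
    funext z
    simp only [indFun, Subgroup.coe_subtype, algebraMap_int_eq, eq_intCast]
    have hinner : ∀ h : F, (∑ y : Subgroup.zpowers x,
        if (y : F) = h⁻¹ * z * h then (k x * φ x) * (if (y : F) = x then (orderOf x : ℂ) else 0) else 0)
        = (orderOf x : ℂ) * ((if h⁻¹ * z * h = x then 1 else 0) * (k x * φ x)) := by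
      intro h
      rw [Finset.sum_eq_single (⟨x, Subgroup.mem_zpowers x⟩ : Subgroup.zpowers x)
        (fun y _ hy => by
          rw [if_neg (fun e : (y : F) = x => hy (Subtype.ext e)), mul_zero, ite_self])
        (fun hn => absurd (Finset.mem_univ _) hn)]
      simp only [if_true, eq_comm (a := x)]
      split_ifs <;> simp [mul_comm]
    rw [Finset.sum_congr rfl fun h _ => hinner h, ← Finset.mul_sum, Fintype.card_zpowers,
      inv_mul_cancel_left₀ (Nat.cast_ne_zero.2 (orderOf_pos x).ne'), ← Finset.sum_mul,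
      Finset.sum_boole]
  convert (VA F).sum_mem (t := Finset.univ) fun x _ => hx x using 1
  funext z
  rw [Finset.sum_apply]
  have : ∀ x, ((Finset.univ.filter fun h : F => h⁻¹ * z * h = x).card : ℂ) * (k x * φ x)
      = ∑ h ∈ Finset.univ.filter (fun h : F => h⁻¹ * z * h = x), (k z : ℂ) * φ z := by
    intro x
    rw [← nsmul_eq_mul, ← Finset.sum_const]
    refine Finset.sum_congr rfl fun h hh => ?_
    have e : h⁻¹ * z * h = x := (Finset.mem_filter.1 hh).2
    have e1 := hk h⁻¹ z
    have e2 := hclass h⁻¹ z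
    rw [inv_inv, e] at e1 e2
    rw [e1, e2]
  simp only [this]
  rw [Finset.sum_fiberwise]
  simp [mul_assoc]

omit [Fintype F] [DecidableEq F] in
/-- Elements commuting with `c` whose orders are prime to that of `c` determine `c`. -/
lemma part_eq {ℓ a : ℕ} {c c' u u' : F} (hℓ : ℓ.Prime) (hc : ¬ ℓ ∣ orderOf c)
    (hu : orderOf u ∣ ℓ ^ a) (hu' : orderOf u' ∣ ℓ ^ a) (hcu : Commute c u) (hcu' : Commute c' u')
    (hoc : orderOf c' = orderOf c) (he : c' * u' = c * u) : c' = c := by
  have hcop : (ℓ ^ a).Coprime (orderOf c) := (Nat.Coprime.pow_left a ((hℓ.coprime_iff_not_dvd).2 hc))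
  obtain ⟨e, he1, he2⟩ := Nat.chineseRemainder hcop 0 1
  have hue : ∀ v : F, orderOf v ∣ ℓ ^ a → v ^ e = 1 := fun v hv =>
    orderOf_dvd_iff_pow_eq_one.1 (hv.trans (Nat.modEq_zero_iff_dvd.1 he1))
  have hce : ∀ v : F, orderOf v = orderOf c → v ^ e = v := fun v hv => by
    conv_rhs => rw [← pow_one v]
    exact pow_eq_pow_iff_modEq.2 (hv ▸ he2)
  have := congrArg (· ^ e) he
  simp only [hcu'.mul_pow, hcu.mul_pow, hue u hu, hue u' hu', mul_one, hce c rfl, hce c' hoc] at this
  exact this

end Criterion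

/-- Brauer's criterion: a class function with algebraic-integer values whose restriction
to every elementary subgroup `⟨c⟩ × P` is in `VA` is in `VA`. -/
theorem mem_VA_of_elementary {F : Type*} [Group F] [Fintype F] (φ : F → ℂ)
    (hclass : ∀ g x, φ (g * x * g⁻¹) = φ x) (hint : ∀ x, IsIntegral ℤ (φ x))
    (hE : ∀ (ℓ : ℕ), ℓ.Prime → ∀ (c : F) (P : Subgroup F), ¬ ℓ ∣ orderOf c → IsPGroup ℓ P →
      (∀ u ∈ P, Commute c u) →
      (fun y : Subgroup.zpowers c × P => φ ((y.1 : F) * (y.2 : F))) ∈ VA (Subgroup.zpowers c × P)) :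
    φ ∈ VA F := by
  classical
  let I : AddSubgroup ℤ :=
    { carrier := {m | (fun z => (m : ℂ) * φ z) ∈ VA F}
      zero_mem' := by simp only [Set.mem_ofPred_eq, Int.cast_zero, zero_mul]; exact (VA F).zero_mem
      add_mem' := fun {a b} ha hb => by
        simp only [Set.mem_ofPred_eq, Int.cast_add, add_mul]; exact (VA F).add_mem ha hb
      neg_mem' := fun {a} ha => by
        simp only [Set.mem_ofPred_eq, Int.cast_neg, neg_mul]; exact (VA F).neg_mem ha }
  have hkey : ∀ ℓ : ℕ, ℓ.Prime → ∃ m : ℕ, ¬ ℓ ∣ m ∧ (m : ℤ) ∈ I := by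
    intro ℓ hℓ
    have : Fact ℓ.Prime := ⟨hℓ⟩
    obtain ⟨a, m, hm, hcard⟩ := Nat.exists_eq_pow_mul_and_not_dvd (Fintype.card_ne_zero (α := F)) ℓ hℓ.ne_one
    refine ⟨m, hm, ?_⟩
    let S : Finset F := Finset.univ.filter fun c => ¬ ℓ ∣ orderOf c
    have hc : ∀ c ∈ S, ∃ fc : F → ℕ, (∀ g z, fc (g * z * g⁻¹) = fc z) ∧
        (fun z => (fc z : ℂ)) ∈ VA F ∧
        (∀ k : ℕ, (fun z => (fc z : ℂ) ^ (k + 1) * φ z) ∈ VA F) ∧
        ∀ u, Commute c u → orderOf u ∣ ℓ ^ a → ¬ ℓ ∣ fc (c * u) := by
      intro c hcS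
      have hcℓ : ¬ ℓ ∣ orderOf c := (Finset.mem_filter.1 hcS).2
      let Cc : Subgroup F := Subgroup.centralizer {c}
      let T : Sylow ℓ Cc := default
      let P : Subgroup F := (T : Subgroup Cc).map Cc.subtype
      have hPC : ∀ u ∈ P, Commute c u := by
        rintro u ⟨v, -, rfl⟩
        exact (Subgroup.mem_centralizer_singleton_iff.1 v.2).symm
      have hP : IsPGroup ℓ P := T.isPGroup'.map _
      let ψ : Subgroup.zpowers c × P →* F :=
        MonoidHom.noncommCoprod (Subgroup.zpowers c).subtype P.subtype fun y u => by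
          obtain ⟨j, hj⟩ := Subgroup.mem_zpowers_iff.1 y.2
          show Commute (y : F) (u : F)
          rw [← hj]
          exact (hPC u u.2).zpow_left j
      have hψ : Function.Injective ψ := by
        refine (injective_iff_map_eq_one ψ).2 fun y hy => ?_
        have h1 : (y.1 : F) = (y.2 : F)⁻¹ := eq_inv_of_mul_eq_one_left hy
        obtain ⟨j, hj⟩ := (IsPGroup.iff_orderOf.1 hP y.2)
        have h2 : orderOf (y.1 : F) ∣ ℓ ^ j := by rw [h1, orderOf_inv, Subgroup.orderOf_coe, hj]
        have h3 : orderOf (y.1 : F) ∣ orderOf c := orderOf_dvd_of_mem_zpowers y.1.2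
        have h4 : (y.1 : F) = 1 := orderOf_eq_one_iff.1 (Nat.eq_one_of_dvd_coprimes
          ((Nat.Coprime.pow_left j (hℓ.coprime_iff_not_dvd.2 hcℓ))) h2 h3)
        refine Prod.ext (Subtype.ext h4) (Subtype.ext ?_)
        rw [h4, eq_comm, inv_eq_one] at h1
        exact h1
      let η : Subgroup.zpowers c × P → ℂ :=
        fun y => if (y.1 : F) = c then (orderOf c : ℂ) else 0
      have hη : η ∈ VA (Subgroup.zpowers c × P) := by
        convert VA.comp_mem (gen_ind_mem c) (MonoidHom.fst (Subgroup.zpowers c) P) using 1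
        rfl
      let A : F → Set F := fun z => {h | c⁻¹ * (h⁻¹ * z * h) ∈ P}
      let fc : F → ℕ := fun z => Nat.card {q : F ⧸ P // c⁻¹ * (q.out⁻¹ * z * q.out) ∈ P}
      have hfc : ∀ z, Nat.card (A z) = Nat.card P * fc z := by
        intro z
        have e : A z = QuotientGroup.mk ⁻¹' {q : F ⧸ P | c⁻¹ * (q.out⁻¹ * z * q.out) ∈ P} := by
          ext h
          obtain ⟨v, hv⟩ := QuotientGroup.mk_out_eq_mul P h
          simp only [A, Set.mem_preimage, Set.mem_ofPred_eq, hv]
          have e2 : c⁻¹ * ((h * v)⁻¹ * z * (h * v)) = (v : F)⁻¹ * (c⁻¹ * (h⁻¹ * z * h)) * v := by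
            rw [← mul_assoc (v : F)⁻¹, ← ((hPC v v.2).inv_left.inv_right).eq]
            simp [mul_assoc]
          rw [e2, Subgroup.mul_mem_cancel_right _ v.2, Subgroup.mul_mem_cancel_left _ (inv_mem v.2)]
        rw [e, Nat.card_congr (QuotientGroup.preimageMkEquivSubgroupProdSet P _), Nat.card_prod]
        rfl
      have hind : indFun ψ η = fun z => (fc z : ℂ) := by
        funext z
        have hin : ∀ h : F, (∑ y, if ψ y = h⁻¹ * z * h then η y else 0)
            = (orderOf c : ℂ) * if h ∈ A z then 1 else 0 := by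
          intro h
          by_cases hh : h ∈ A z
          · rw [if_pos hh, mul_one, Finset.sum_eq_single
              ((⟨c, Subgroup.mem_zpowers c⟩, ⟨_, hh⟩) : Subgroup.zpowers c × P)
              (fun y _ hy => by
                rw [ite_eq_right_iff]
                intro e
                refine if_neg fun e1 => hy (Prod.ext (Subtype.ext e1) (Subtype.ext ?_))
                show (y.2 : F) = c⁻¹ * (h⁻¹ * z * h)
                rw [eq_inv_mul_iff_mul_eq, ← e]
                show c * (y.2 : F) = (y.1 : F) * (y.2 : F)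
                rw [e1])
              (fun hn => absurd (Finset.mem_univ _) hn)]
            simp [η, ψ]
          · rw [if_neg hh, mul_zero]
            refine Finset.sum_eq_zero fun y _ => ?_
            rw [ite_eq_right_iff]
            intro e
            refine if_neg fun e1 => hh ?_
            show c⁻¹ * (h⁻¹ * z * h) ∈ P
            rw [← e, show ψ y = (y.1 : F) * (y.2 : F) from rfl, e1, inv_mul_cancel_left]
            exact y.2.2
        simp only [indFun]
        rw [Finset.sum_congr rfl fun h _ => hin h, ← Finset.mul_sum, Finset.sum_boole,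
          Fintype.card_prod, Fintype.card_zpowers, ← Fintype.card_subtype]
        have hA : (Fintype.card {h : F // h ∈ A z} : ℂ) = (Fintype.card P : ℂ) * fc z := by
          rw [← Nat.card_eq_fintype_card, ← Nat.card_eq_fintype_card]
          exact_mod_cast hfc z
        rw [hA]
        have h1 : (orderOf c : ℂ) ≠ 0 := Nat.cast_ne_zero.2 (orderOf_pos c).ne'
        have h2 : (Fintype.card P : ℂ) ≠ 0 := Nat.cast_ne_zero.2 Fintype.card_pos.ne'
        push_cast
        field_simp
      have hcl : ∀ g z, fc (g * z * g⁻¹) = fc z := by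
        intro g z
        have h1 : Nat.card P * fc (g * z * g⁻¹) = Nat.card P * fc z := by
          rw [← hfc, ← hfc]
          refine Nat.card_congr ((Equiv.mulLeft g⁻¹).subtypeEquiv fun h => ?_)
          simp [A, mul_assoc]
        exact Nat.eq_of_mul_eq_mul_left Nat.card_pos h1
      have hmem : (fun z => (fc z : ℂ)) ∈ VA F := hind ▸ indFun_mem_VA' ψ hψ hη
      refine ⟨fc, hcl, hmem, fun k => ?_, fun u hcu hu => ?_⟩
      · have hrest : (fun y => η y * ((fc (ψ y) : ℂ) ^ k * φ (ψ y))) ∈ VA (Subgroup.zpowers c × P) :=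
          VA.mul_mem hη (VA.mul_mem (VA.comp_mem (VA.pow_mem hmem k) ψ)
            (hE ℓ hℓ c P hcℓ hP hPC))
        have := indFun_mem_VA' ψ hψ hrest
        rw [indFun_mul ψ η (φ := fun z => (fc z : ℂ) ^ k * φ z)
          (fun g z => by simp only [hcl, hclass])] at this
        convert this using 1
        funext z
        rw [hind, pow_succ]
        ring
      · let u' : Cc := ⟨u, Subgroup.mem_centralizer_singleton_iff.2 hcu.eq.symm⟩
        have hu' : orderOf u' ∣ ℓ ^ a := by rw [← Subgroup.orderOf_coe]; exact hu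
        have hup : IsPGroup ℓ (Subgroup.zpowers u') := by
          obtain ⟨j, -, hj⟩ := (Nat.dvd_prime_pow hℓ).1 hu'
          exact IsPGroup.of_card (by rw [Nat.card_zpowers, hj])
        have hmod := hup.card_modEq_card_fixedPoints (Cc ⧸ (T : Subgroup Cc))
        let B : Set Cc := {h | h⁻¹ * u' * h ∈ (T : Subgroup Cc)}
        have hPh : ∀ h : Cc, (h : F) ∈ P ↔ h ∈ (T : Subgroup Cc) :=
          fun h => Subgroup.mem_map_iff_mem Subtype.val_injective
        have eA : A (c * u) = Subtype.val '' B := by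
          ext h
          constructor
          · intro hh
            change c⁻¹ * (h⁻¹ * (c * u) * h) ∈ P at hh
            set w := c⁻¹ * (h⁻¹ * (c * u) * h) with hw
            obtain ⟨j, hj⟩ := IsPGroup.iff_orderOf.1 hP ⟨w, hh⟩
            rw [Subgroup.orderOf_mk] at hj
            have hhc : h * c * h⁻¹ = c := by
              refine part_eq (a := max a j) hℓ hcℓ (hu.trans (pow_dvd_pow _ (le_max_left _ _)))
                (u' := h * w * h⁻¹) ?_ hcu ?_ ?_ ?_
              · rw [orderOf_eq_of_pow_and_pow_div_prime (n := orderOf w) (orderOf_pos w) (by simp [pow_orderOf_eq_one])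
                  (fun q hq hqd e => ?_)]
                · exact hj ▸ pow_dvd_pow _ (le_max_right _ _)
                · simp only [conj_pow, conj_eq_one_iff] at e
                  exact pow_ne_one_of_lt_orderOf (Nat.div_pos (Nat.le_of_dvd (orderOf_pos w) hqd) hq.pos).ne'
                    (Nat.div_lt_self (orderOf_pos w) hq.one_lt) e
              · exact (hPC w hh).map (MulAut.conj h).toMonoidHom
              · exact (MulAut.conj h).orderOf_eq c
              · simp [hw, mul_assoc]
            have hC : h ∈ Cc := Subgroup.mem_centralizer_singleton_iff.2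
              (mul_inv_eq_iff_eq_mul.1 hhc)
            refine ⟨⟨h, hC⟩, (hPh _).1 ?_, rfl⟩
            have e : h * c = c * h := Subgroup.mem_centralizer_singleton_iff.1 hC
            show h⁻¹ * u * h ∈ P
            convert hh using 1
            calc h⁻¹ * u * h = c⁻¹ * (c * h⁻¹) * u * h := by simp [mul_assoc]
              _ = c⁻¹ * (h⁻¹ * c) * u * h := by
                rw [(show Commute c h⁻¹ from (show Commute c h from e.symm).inv_right).eq]
              _ = w := by simp [hw, mul_assoc]
          · rintro ⟨h, hh, rfl⟩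
            have e : (h : F) * c = c * h := Subgroup.mem_centralizer_singleton_iff.1 h.2
            show c⁻¹ * ((h : F)⁻¹ * (c * u) * h) ∈ P
            convert (hPh _).2 hh using 1
            show _ = (h : F)⁻¹ * u * h
            rw [← mul_assoc (h : F)⁻¹ c,
              ← (show Commute c (h : F)⁻¹ from (show Commute c (h : F) from e.symm).inv_right).eq]
            simp [mul_assoc]
        have eB : B = QuotientGroup.mk ⁻¹' MulAction.fixedPoints (Subgroup.zpowers u') (Cc ⧸ (T : Subgroup Cc)) := by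
          ext h
          simp only [B, Set.mem_preimage, Set.mem_ofPred_eq, MulAction.mem_fixedPoints]
          constructor
          · intro hh v
            have hh' : u' • (h : Cc ⧸ (T : Subgroup Cc)) = h := (QuotientGroup.eq.2 (by
              simp only [smul_eq_mul]
              rw [← mul_assoc]; exact hh)).symm
            obtain ⟨j, hj⟩ := Subgroup.mem_zpowers_iff.1 v.2
            show (v : Cc) • (h : Cc ⧸ (T : Subgroup Cc)) = h
            rw [← hj]
            exact MulAction.mem_stabilizer_iff.1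
              (Subgroup.zpow_mem (MulAction.stabilizer Cc (h : Cc ⧸ (T : Subgroup Cc))) hh' j)
          · intro hh
            have := QuotientGroup.eq.1 (hh ⟨u', Subgroup.mem_zpowers u'⟩).symm
            simp only [smul_eq_mul, Subgroup.coe_subtype] at this
            rwa [← mul_assoc] at this
        have hcardB : Nat.card (A (c * u)) = Nat.card (T : Subgroup Cc)
            * Nat.card (MulAction.fixedPoints (Subgroup.zpowers u') (Cc ⧸ (T : Subgroup Cc))) := by
          rw [eA, Nat.card_image_of_injective Subtype.val_injective, eB,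
            Nat.card_congr (QuotientGroup.preimageMkEquivSubgroupProdSet _ _), Nat.card_prod]
        have hPT : Nat.card P = Nat.card (T : Subgroup Cc) :=
          Subgroup.card_map_of_injective Subtype.val_injective
        rw [hfc, hPT] at hcardB
        rw [Nat.eq_of_mul_eq_mul_left Nat.card_pos hcardB]
        intro hdvd
        refine T.not_dvd_index ?_
        rw [Subgroup.index, Nat.ModEq.dvd_iff hmod (dvd_refl ℓ)]
        exact hdvd
    choose! fc hcl hfVA hfφ hnd using hc
    set N := Nat.totient (ℓ ^ a) with hN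
    obtain ⟨N', hN'⟩ : ∃ N', N = N' + 1 :=
      Nat.exists_eq_add_one.2 (Nat.totient_pos.2 (pow_pos hℓ.pos a))
    let Q : F → ℤ := fun z => ∏ c ∈ S, (1 - (fc c z : ℤ) ^ N)
    have hQdiv : ∀ z, (ℓ : ℤ) ^ a ∣ Q z := by
      intro z
      set d := orderOf z
      obtain ⟨i, r, hr, hd⟩ := Nat.exists_eq_pow_mul_and_not_dvd (orderOf_pos z).ne' ℓ hℓ.ne_one
      have hia : ℓ ^ i ∣ ℓ ^ a := by
        have h1 : ℓ ^ i ∣ ℓ ^ a * m := hcard ▸ ((dvd_mul_right _ r).trans (hd.symm ▸ orderOf_dvd_card))
        exact (Nat.Coprime.pow_left i (hℓ.coprime_iff_not_dvd.2 hm)).dvd_of_dvd_mul_right h1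
      obtain ⟨e, he1, he2⟩ := Nat.chineseRemainder (Nat.Coprime.pow_left i (hℓ.coprime_iff_not_dvd.2 hr)) 0 1
      set c := z ^ e
      set u := z * c⁻¹
      have hzc : Commute c z := (Commute.refl z).pow_left e
      have hcord : orderOf c ∣ r := by
        refine orderOf_dvd_of_pow_eq_one ?_
        rw [← pow_mul, ← orderOf_dvd_iff_pow_eq_one, hd]
        exact mul_dvd_mul_right (Nat.modEq_zero_iff_dvd.1 he1) r
      have huord : orderOf u ∣ ℓ ^ i := by
        refine orderOf_dvd_of_pow_eq_one ?_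
        rw [hzc.symm.inv_right.mul_pow, inv_pow, mul_inv_eq_one, ← pow_mul]
        refine pow_eq_pow_iff_modEq.2 ?_
        rw [hd]
        simpa [mul_comm e] using (he2.symm.mul_left' (ℓ ^ i))
      have hcS : c ∈ S := Finset.mem_filter.2 ⟨Finset.mem_univ _, fun h => hr (h.trans hcord)⟩
      have hz : c * u = z := by simp [u, ← mul_assoc, hzc.eq]
      have hn := hnd c hcS u ((hzc.mul_right ((Commute.refl c).inv_right))) (huord.trans hia)
      rw [hz] at hn
      refine (dvd_trans ?_ (Finset.dvd_prod_of_mem _ hcS))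
      have h1 := Nat.ModEq.pow_totient ((hℓ.coprime_iff_not_dvd.2 hn).symm.pow_right a)
      have h2 := Nat.modEq_iff_dvd.1 h1
      push_cast at h2
      exact h2
    have hQcl : ∀ g z, Q (g * z * g⁻¹) = Q z := fun g z =>
      Finset.prod_congr rfl fun c hcS => by rw [hcl c hcS]
    have hQmem : (fun z => ((Q z : ℂ) - 1) * φ z) ∈ VA F := by
      simp only [Q, Int.cast_prod, Int.cast_sub, Int.cast_one, Int.cast_pow, Int.cast_natCast]
      suffices ∀ S' ⊆ S, (fun z => (∏ c ∈ S', (1 - (fc c z : ℂ) ^ N) - 1) * φ z) ∈ VA F ∧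
          (fun z => ∏ c ∈ S', (1 - (fc c z : ℂ) ^ N)) ∈ VA F from (this S subset_rfl).1
      intro S'
      induction S' using Finset.induction_on with
      | empty =>
        intro _
        simp only [Finset.prod_empty, sub_self, zero_mul]
        exact ⟨(VA F).zero_mem, isRepTrace_one.mem_VA⟩
      | insert c s hcs ih =>
        intro hsub
        obtain ⟨hsub1, hsub2⟩ := Finset.insert_subset_iff.1 hsub
        obtain ⟨h1, h2⟩ := ih hsub2
        simp only [Finset.prod_insert hcs]
        refine ⟨?_, VA.mul_mem ((VA F).sub_mem isRepTrace_one.mem_VA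
          (VA.pow_mem (hfVA c hsub1) N)) h2⟩
        convert (VA F).sub_mem h1 (VA.mul_mem h2 (hfφ c hsub1 N')) using 1
        funext z
        simp only [Pi.sub_apply, hN']
        ring
    choose k hk using hQdiv
    have hkcl : ∀ g z, k (g * z * g⁻¹) = k z := fun g z =>
      mul_left_cancel₀ (pow_ne_zero a (Int.natCast_ne_zero.2 hℓ.ne_zero))
        ((hk _).symm.trans ((hQcl g z).trans (hk z)))
    have h1 := card_smul_mem hclass hint k hkcl
    have h2 := VA.smul_mem' hQmem (isIntegral_algebraMap (R := ℤ) (A := ℂ) (x := (m : ℤ)))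
    show (fun z => ((m : ℤ) : ℂ) * φ z) ∈ VA F
    convert (VA F).sub_mem h1 h2 using 1
    funext z
    simp only [Pi.sub_apply, algebraMap_int_eq, eq_intCast, hk, Int.cast_mul, Int.cast_pow,
      Int.cast_natCast]
    rw [hcard]
    push_cast
    ring
  obtain ⟨d, hd⟩ := Int.subgroup_cyclic I
  rw [← AddSubgroup.zmultiples_eq_closure] at hd
  have h1 : d.natAbs = 1 := by
    by_contra hne
    obtain ⟨ℓ, hℓ, hℓd⟩ := Nat.exists_prime_and_dvd hne
    obtain ⟨m, hm, hmI⟩ := hkey ℓ hℓ
    rw [hd, Int.mem_zmultiples_iff] at hmI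
    exact hm (hℓd.trans (by simpa using Int.natAbs_dvd_natAbs.2 hmI))
  have hI : (1 : ℤ) ∈ I := by
    rw [hd, Int.mem_zmultiples_iff]
    exact Int.natAbs_dvd_natAbs.1 (by simp [h1])
  have hI' : (fun z => ((1 : ℤ) : ℂ) * φ z) ∈ VA F := hI
  simpa using hI'

end Vale.P184
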