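import Mathlib

/-!
P184: characters `u ↦ ω(u)^e` approximate any character which respects the small relations
(positive-kernel counting).
-/

namespace Vale.P184

open Filter Topology Finset

theorem norm_one_add_sq {z : ℂ} (hz : ‖z‖ = 1) : ‖1 + z‖ ^ 2 = 4 - ‖1 - z‖ ^ 2 := by
  have h1 : Complex.normSq z = 1 := by rw [Complex.normSq_eq_norm_sq, hz, one_pow]
  rw [← Complex.normSq_eq_norm_sq, ← Complex.normSq_eq_norm_sq, Complex.normSq_add,
    Complex.normSq_sub]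
  simp [h1]
  ring

theorem norm_one_add_pow {z : ℂ} (hz : ‖z‖ = 1) (M : ℕ) :
    ((‖1 + z‖ ^ (2 * M) : ℝ) : ℂ) =
      ∑ a ∈ range (2 * M + 1), ((2 * M).choose a : ℂ) * z ^ ((a : ℤ) - M) := by
  have hz0 : z ≠ 0 := by
    intro h
    simp [h] at hz
  have hconj : (starRingEnd ℂ) z = z⁻¹ := by
    rw [Complex.inv_def, Complex.normSq_eq_norm_sq, hz]
    simp
  have h2 : ((‖1 + z‖ ^ 2 : ℝ) : ℂ) = (1 + z) ^ 2 * z⁻¹ := by
    rw [← Complex.normSq_eq_norm_sq, Complex.normSq_eq_conj_mul_self, map_add, map_one, hconj]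
    field_simp
    ring
  rw [pow_mul, Complex.ofReal_pow, h2, mul_pow, ← pow_mul, add_comm (1 : ℂ) z, add_pow,
    Finset.sum_mul]
  refine Finset.sum_congr rfl fun a _ => ?_
  rw [one_pow, mul_one, zpow_sub₀ hz0, zpow_natCast, zpow_natCast, inv_pow]
  field_simp

/-- If `θ` respects all multiplicative relations of exponent at most `M` among the roots of
unity `v i` of order dividing `Q`, then some power map `e` brings every `v i` close to `θ i`,
provided `M` is large. -/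
theorem exists_pow_near {r : ℕ} {ε : ℝ} (hε : 0 < ε) :
    ∃ M : ℕ, ∀ (v θ : Fin r → ℂ) (Q : ℕ), 0 < Q → (∀ i, v i ^ Q = 1) → (∀ i, ‖θ i‖ = 1) →
      (∀ c : Fin r → ℤ, (∀ i, |c i| ≤ M) → ∏ i, v i ^ c i = 1 → ∏ i, θ i ^ c i = 1) →
      ∃ e : ℕ, ∀ i, ‖v i ^ e - θ i‖ < ε := by
  classical
  obtain ⟨ρ, hρ0, hρ1, hρ⟩ : ∃ ρ : ℝ, 0 ≤ ρ ∧ ρ < 1 ∧ 1 - ε ^ 2 / 4 ≤ ρ := by
    refine ⟨max (1 - ε ^ 2 / 4) 0, le_max_right _ _, max_lt (by nlinarith) one_pos, le_max_left _ _⟩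
  obtain ⟨M, hM⟩ : ∃ M : ℕ, (2 * M + 1 : ℝ) ^ r * ρ ^ M < 1 := by
    have h := (tendsto_pow_const_mul_const_pow_of_lt_one r hρ0 hρ1).const_mul ((3 : ℝ) ^ r)
    rw [mul_zero] at h
    obtain ⟨M, hM⟩ := ((h.eventually (eventually_lt_nhds zero_lt_one)).and
      (eventually_ge_atTop 1)).exists
    refine ⟨M, lt_of_le_of_lt ?_ hM.1⟩
    rw [← mul_assoc, ← mul_pow]
    refine mul_le_mul_of_nonneg_right (pow_le_pow_left₀ (by positivity) ?_ r) (by positivity)
    have : (1 : ℝ) ≤ M := by exact_mod_cast hM.2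
    linarith
  refine ⟨M, fun v θ Q hQ hv hθ hrel => ?_⟩
  have hv1 : ∀ i, ‖v i‖ = 1 := fun i => Complex.norm_eq_one_of_pow_eq_one (hv i) hQ.ne'
  have hθ0 : ∀ i, θ i ≠ 0 := fun i h => by simpa [h] using hθ i
  have hv0 : ∀ i, v i ≠ 0 := fun i h => by simpa [h] using hv1 i
  let z : ℕ → Fin r → ℂ := fun e i => v i ^ e * (θ i)⁻¹
  have hz : ∀ e i, ‖z e i‖ = 1 := fun e i => by simp [z, hv1, hθ]
  let T : Finset (Fin r → ℕ) := Fintype.piFinset fun _ => range (2 * M + 1)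
  let w : (Fin r → ℕ) → ℕ := fun a => ∏ i, (2 * M).choose (a i)
  let W : (Fin r → ℕ) → ℂ := fun a => ∏ i, v i ^ ((a i : ℤ) - M)
  -- expansion of the kernel
  have hexp : ∀ e, ((∏ i, ‖1 + z e i‖ ^ (2 * M) : ℝ) : ℂ) =
      ∑ a ∈ T, (w a : ℂ) * (W a ^ e * (∏ i, θ i ^ ((a i : ℤ) - M))⁻¹) := by
    intro e
    rw [Complex.ofReal_prod]
    simp only [norm_one_add_pow (hz e _)]
    rw [Finset.prod_univ_sum]
    refine Finset.sum_congr rfl fun a _ => ?_
    rw [Finset.prod_mul_distrib]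
    simp only [w, W, Nat.cast_prod]
    congr 1
    rw [← Finset.prod_inv_distrib, ← Finset.prod_pow, ← Finset.prod_mul_distrib]
    refine Finset.prod_congr rfl fun i _ => ?_
    simp only [z, mul_zpow, inv_zpow]
    rw [← zpow_natCast, ← zpow_natCast, ← zpow_mul, ← zpow_mul, mul_comm (e : ℤ)]
  -- averaging
  have havg : ((∑ e ∈ range Q, ∏ i, ‖1 + z e i‖ ^ (2 * M) : ℝ) : ℂ) =
      ((Q * ∑ a ∈ T with W a = 1, (w a : ℝ) : ℝ) : ℂ) := by
    rw [Complex.ofReal_sum]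
    simp only [hexp]
    rw [Finset.sum_comm, Complex.ofReal_mul, Complex.ofReal_natCast, Complex.ofReal_sum,
      Finset.mul_sum, Finset.sum_filter]
    refine Finset.sum_congr rfl fun a ha => ?_
    rw [← Finset.mul_sum, ← Finset.sum_mul]
    by_cases hW : W a = 1
    · have h1 : ∏ i, θ i ^ ((a i : ℤ) - M) = 1 := by
        refine hrel _ (fun i => ?_) hW
        have := Fintype.mem_piFinset.1 ha i
        rw [Finset.mem_range] at this
        rw [abs_le]
        omega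
      simp [hW, h1, mul_comm]
    · have hWQ : W a ^ Q = 1 := by
        simp only [W, ← Finset.prod_pow]
        refine Finset.prod_eq_one fun i _ => ?_
        rw [← zpow_natCast, ← zpow_mul, mul_comm, zpow_mul, zpow_natCast, hv, one_zpow]
      have hg : ∑ e ∈ range Q, W a ^ e = 0 := by
        rw [geom_sum_eq hW, hWQ, sub_self, zero_div]
      simp [hW, hg]
  have havg' : ∑ e ∈ range Q, ∏ i, ‖1 + z e i‖ ^ (2 * M) =
      Q * ∑ a ∈ T with W a = 1, (w a : ℝ) := Complex.ofReal_injective havg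
  have hdiag : ((2 * M).choose M : ℝ) ^ r ≤ ∑ a ∈ T with W a = 1, (w a : ℝ) := by
    have hmem : (fun _ : Fin r => M) ∈ T.filter (fun a => W a = 1) := by
      rw [Finset.mem_filter]
      refine ⟨Fintype.mem_piFinset.2 fun _ => Finset.mem_range.2 (by omega), ?_⟩
      simp [W]
    refine le_trans (le_of_eq ?_) (Finset.single_le_sum (fun a _ => Nat.cast_nonneg (w a)) hmem)
    simp [w]
  -- some `e` has a large kernel value
  obtain ⟨e, -, he⟩ : ∃ e ∈ range Q,
      ((2 * M).choose M : ℝ) ^ r ≤ ∏ i, ‖1 + z e i‖ ^ (2 * M) := by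
    refine Finset.exists_le_of_sum_le (Finset.nonempty_range_iff.2 hQ.ne') ?_
    rw [Finset.sum_const, Finset.card_range, nsmul_eq_mul, havg']
    exact mul_le_mul_of_nonneg_left hdiag (Nat.cast_nonneg Q)
  refine ⟨e, fun i => ?_⟩
  by_contra hcon
  rw [not_lt] at hcon
  have hfar : ‖1 + z e i‖ ^ 2 ≤ 4 * ρ := by
    have h1 : ε ≤ ‖1 - z e i‖ := by
      refine hcon.trans (le_of_eq ?_)
      have : v i ^ e - θ i = -((1 - z e i) * θ i) := by
        simp only [z, sub_mul, one_mul, inv_mul_cancel_right₀ (hθ0 i)]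
        ring
      rw [this, norm_neg, norm_mul, hθ, mul_one]
    rw [norm_one_add_sq (hz e i)]
    nlinarith
  have hle4 : ∀ j, ‖1 + z e j‖ ^ 2 ≤ 4 := fun j => by
    rw [norm_one_add_sq (hz e j)]
    nlinarith [norm_nonneg (1 - z e j)]
  have hup : ∏ j, ‖1 + z e j‖ ^ (2 * M) ≤ (4 : ℝ) ^ (M * r) * ρ ^ M := by
    rw [← Finset.mul_prod_erase Finset.univ _ (Finset.mem_univ i)]
    calc ‖1 + z e i‖ ^ (2 * M) * ∏ j ∈ Finset.univ.erase i, ‖1 + z e j‖ ^ (2 * M)
        ≤ (4 * ρ) ^ M * ∏ _j ∈ Finset.univ.erase i, (4 : ℝ) ^ M := by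
          refine mul_le_mul ?_ ?_ (by positivity) (by positivity)
          · rw [pow_mul]
            exact pow_le_pow_left₀ (by positivity) hfar M
          · refine Finset.prod_le_prod (fun j _ => by positivity) fun j _ => ?_
            rw [pow_mul]
            exact pow_le_pow_left₀ (by positivity) (hle4 j) M
      _ = (4 : ℝ) ^ (M * r) * ρ ^ M := by
          rw [Finset.prod_const, Finset.card_erase_of_mem (Finset.mem_univ i), Finset.card_univ,
            Fintype.card_fin, mul_pow, mul_right_comm, ← pow_mul, ← pow_add]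
          congr 2
          obtain ⟨s, rfl⟩ := Nat.exists_eq_succ_of_ne_zero (Nat.ne_of_gt (Fin.pos i))
          rw [Nat.succ_sub_one, Nat.mul_succ]
          ring
  have hcentral : (4 : ℝ) ^ M ≤ (2 * M + 1) * (2 * M).choose M := by
    exact_mod_cast Nat.four_pow_le_two_mul_add_one_mul_central_binom M
  have : (4 : ℝ) ^ (M * r) ≤ (2 * M + 1 : ℝ) ^ r * ((4 : ℝ) ^ (M * r) * ρ ^ M) := by
    calc (4 : ℝ) ^ (M * r) = ((4 : ℝ) ^ M) ^ r := pow_mul _ _ _
      _ ≤ ((2 * M + 1) * ((2 * M).choose M : ℝ)) ^ r := pow_le_pow_left₀ (by positivity) hcentral r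
      _ = (2 * M + 1 : ℝ) ^ r * ((2 * M).choose M : ℝ) ^ r := mul_pow _ _ _
      _ ≤ _ := mul_le_mul_of_nonneg_left (he.trans hup) (by positivity)
  have h4 : (0 : ℝ) < (4 : ℝ) ^ (M * r) := by positivity
  nlinarith [mul_lt_mul_of_pos_left hM h4]

end Vale.P184
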