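import Vale.Agent.P184.Main

/-!
P184: consequences of the main theorem.
-/

namespace Vale.P184

open Matrix Polynomial

variable {G : Type*} [Group G] {K : Type*} [Field K] {n : ℕ}

/-- Two matrices over a field with the same eigenvalues in the algebraic closure have the same
characteristic polynomial. -/
theorem charpoly_eq_of_aroots_eq {A B : Matrix (Fin n) (Fin n) K}
    (h : A.charpoly.aroots (AlgebraicClosure K) = B.charpoly.aroots (AlgebraicClosure K)) :
    A.charpoly = B.charpoly := by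
  apply Polynomial.map_injective (algebraMap K (AlgebraicClosure K)) (algebraMap K _).injective
  simp only [aroots_def] at h
  rw [(IsAlgClosed.splits (A.charpoly.map (algebraMap K (AlgebraicClosure K)))).eq_prod_roots_of_monic
      ((charpoly_monic _).map _),
    (IsAlgClosed.splits (B.charpoly.map (algebraMap K (AlgebraicClosure K)))).eq_prod_roots_of_monic
      ((charpoly_monic _).map _), h]

/-- If all eigenvalues are roots of unity some positive power is unipotent. -/
theorem exists_pow_charpoly_eq_one (A : Matrix (Fin n) (Fin n) K)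
    (h : ∀ r ∈ A.charpoly.aroots (AlgebraicClosure K), IsOfFinOrder r) :
    ∃ k : ℕ, 0 < k ∧ ∀ j : ℕ, (A ^ (k * j)).charpoly = (1 : Matrix (Fin n) (Fin n) K).charpoly := by
  classical
  set L := AlgebraicClosure K
  refine ⟨∏ r ∈ (A.charpoly.aroots L).toFinset, orderOf r,
    Finset.prod_pos fun r hr => (h r (Multiset.mem_toFinset.1 hr)).orderOf_pos, fun j => ?_⟩
  apply charpoly_eq_of_aroots_eq
  have key : ∀ M : Matrix (Fin n) (Fin n) K,
      M.charpoly.aroots L = (M.map (algebraMap K L)).charpoly.roots := fun M => by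
    rw [Matrix.charpoly_map, aroots_def]
  show (A ^ ((∏ r ∈ (A.charpoly.aroots L).toFinset, orderOf r) * j)).charpoly.aroots L =
    (1 : Matrix (Fin n) (Fin n) K).charpoly.aroots L
  rw [key (A ^ _), key 1]
  have e1 : (A ^ ((∏ r ∈ (A.charpoly.aroots L).toFinset, orderOf r) * j)).map (algebraMap K L) =
      (A.map (algebraMap K L)) ^ ((∏ r ∈ (A.charpoly.aroots L).toFinset, orderOf r) * j) :=
    map_pow (algebraMap K L).mapMatrix A _
  have e2 : (1 : Matrix (Fin n) (Fin n) K).map (algebraMap K L) = (A.map (algebraMap K L)) ^ 0 := by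
    rw [pow_zero]; exact map_one (algebraMap K L).mapMatrix
  rw [e1, e2, roots_charpoly_pow, roots_charpoly_pow, ← key A]
  refine Multiset.map_congr rfl fun r hr => ?_
  rw [pow_zero, pow_mul]
  have h1 : r ^ (∏ r ∈ (A.charpoly.aroots L).toFinset, orderOf r) = 1 :=
    orderOf_dvd_iff_pow_eq_one.1 (Finset.dvd_prod_of_mem _ (Multiset.mem_toFinset.2 hr))
  rw [h1, one_pow]

/-- In positive characteristic, eigenvalues of finite order force finite order. -/
theorem isOfFinOrder_of_charP {p : ℕ} [CharP K p] (hp : p ≠ 0) (A : GL (Fin n) K)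
    (h : ∀ r ∈ (A : Matrix (Fin n) (Fin n) K).charpoly.aroots (AlgebraicClosure K),
      IsOfFinOrder r) : IsOfFinOrder A := by
  obtain ⟨k, hk, hk1⟩ := exists_pow_charpoly_eq_one _ h
  haveI : Fact p.Prime := ⟨(CharP.char_is_prime_or_zero K p).resolve_right hp⟩
  have hc := Matrix.aeval_self_charpoly ((A : Matrix (Fin n) (Fin n) K) ^ (k * 1))
  rw [hk1 1, charpoly_one, Fintype.card_fin, map_pow, map_sub, aeval_X, map_one] at hc
  refine isOfFinOrder_iff_pow_eq_one.2 ⟨k * p ^ n, Nat.mul_pos hk (pow_pos (Fact.out : p.Prime).pos n), ?_⟩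
  apply Units.ext
  rw [Units.val_pow_eq_pow_val, Units.val_one, pow_mul]
  have hle : n ≤ p ^ n := (Nat.lt_pow_self (Fact.out : p.Prime).one_lt).le
  rw [mul_one] at hc
  rcases eq_or_ne n 0 with hn | hn
  · subst hn
    exact Subsingleton.elim _ _
  haveI : Nonempty (Fin n) := ⟨⟨0, Nat.pos_of_ne_zero hn⟩⟩
  haveI : CharP (Matrix (Fin n) (Fin n) K) p := inferInstance
  have h0 : ((A : Matrix (Fin n) (Fin n) K) ^ k - 1) ^ (p ^ n) = 0 := pow_eq_zero_of_le hle hc
  rw [sub_pow_char_pow_of_commute p n (Commute.one_right _), one_pow, sub_eq_zero] at h0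
  exact h0

theorem hsCoeff_mono_eq {q : ℕ} (e : Fin q → Fin q → G → ℂ) {s t : Set G} (h : s = t) :
    hsCoeff e s = hsCoeff e t := by rw [h]

/-- **Criterion for the full ℓ¹-Bass property.** -/
theorem l1Bass_of_separating {Q : Type*} [Group Q] [Finite Q] (ρ : G →* GL (Fin n) K) (π : G →* Q)
    (hsep : ∀ g h, (ρ g : Matrix (Fin n) (Fin n) K).charpoly = (ρ h : Matrix (Fin n) (Fin n) K).charpoly →
      IsConj (π g) (π h) → IsConj g h) : L1Bass G := by
  classical
  intro q e he
  obtain ⟨S, hSfin, hS⟩ := main ρ π e he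
  haveI : Fintype Q := Fintype.ofFinite Q
  let key : ConjClasses G → K[X] × ConjClasses Q := fun C =>
    ((ρ (Quotient.out C) : Matrix (Fin n) (Fin n) K).charpoly, ConjClasses.mk (π (Quotient.out C)))
  have hout : ∀ C : ConjClasses G, ConjClasses.mk (Quotient.out C) = C := fun C => Quotient.out_eq C
  have hinj : Function.Injective key := by
    intro C D hCD
    simp only [key, Prod.mk.injEq, ConjClasses.mk_eq_mk_iff_isConj] at hCD
    rw [← hout C, ← hout D, ConjClasses.mk_eq_mk_iff_isConj]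
    exact hsep _ _ hCD.1 hCD.2
  have hconst : ∀ g h : G, IsConj g h →
      (ρ g : Matrix (Fin n) (Fin n) K).charpoly = (ρ h : Matrix (Fin n) (Fin n) K).charpoly := by
    intro g h hgh
    obtain ⟨c, rfl⟩ := isConj_iff.1 hgh
    rw [map_mul, map_mul, Units.val_mul, Units.val_mul, Matrix.charpoly_mul_comm, ← mul_assoc,
      ← Units.val_mul, map_inv, inv_mul_cancel, Units.val_one, one_mul]
  let T : Set (ConjClasses G) := key ⁻¹' ((S : Set K[X]) ×ˢ Set.univ)
  have hTfin : T.Finite :=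
    (S.finite_toSet.prod Set.finite_univ).preimage hinj.injOn
  refine ⟨hTfin.toFinset, fun C hC => ?_⟩
  set g₀ := Quotient.out C with hg₀
  have hCeq : C.carrier = {g | (ρ g : Matrix (Fin n) (Fin n) K).charpoly =
      (ρ g₀ : Matrix (Fin n) (Fin n) K).charpoly ∧ IsConj (π g) (π g₀)} := by
    ext g
    rw [ConjClasses.mem_carrier_iff_mk_eq, ← hout C, ConjClasses.mk_eq_mk_iff_isConj]
    exact ⟨fun h => ⟨hconst _ _ h, π.map_isConj h⟩, fun h => hsep _ _ h.1 h.2⟩
  have hmem := hS _ (π g₀) (by rw [← hCeq]; exact hC)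
  refine ⟨hTfin.mem_toFinset.2 ⟨hmem, Set.mem_univ _⟩, fun g hg => ?_⟩
  rw [hCeq] at hg
  obtain ⟨k, hk, hk1⟩ := exists_pow_charpoly_eq_one (ρ g : Matrix (Fin n) (Fin n) K)
    (hg.1 ▸ hSfin _ hmem)
  refine isOfFinOrder_iff_pow_eq_one.2 ⟨k * Fintype.card Q, Nat.mul_pos hk Fintype.card_pos, ?_⟩
  have h1 : IsConj (g ^ (k * Fintype.card Q)) 1 := by
    refine hsep _ _ ?_ ?_
    · rw [map_pow, Units.val_pow_eq_pow_val, hk1, map_one, Units.val_one]
    · rw [map_pow, map_one, pow_mul, pow_card_eq_one]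
  exact isConj_one_right.1 h1.symm

/-- A coefficient at a class separated by finite quotients vanishes when some eigenvalue is
not a root of unity. -/
theorem hsCoeff_class_eq_zero (ρ : G →* GL (Fin n) K) {q : ℕ} {e : Fin q → Fin q → G → ℂ}
    (he : IsL1Idempotent e) (g₀ : G)
    (hroot : ∃ r ∈ (ρ g₀ : Matrix (Fin n) (Fin n) K).charpoly.aroots (AlgebraicClosure K),
      ¬ IsOfFinOrder r)
    (hsep : ∀ h, (ρ h : Matrix (Fin n) (Fin n) K).charpoly =
        (ρ g₀ : Matrix (Fin n) (Fin n) K).charpoly → ¬ IsConj h g₀ →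
      ∃ N : Subgroup G, ∃ _ : N.Normal, N.FiniteIndex ∧ ¬ IsConj (h : G ⧸ N) (g₀ : G ⧸ N)) :
    hsCoeff e (ConjClasses.mk g₀).carrier = 0 := by
  classical
  have hN : Summable (entryNorm e) := summable_sum fun i _ => summable_sum fun j _ => he.1 i j
  have htr : Summable fun g => ∑ i, e i i g :=
    Summable.of_norm_bounded hN fun g => norm_trace_le e g
  refine norm_le_zero_iff.1 (le_of_forall_pos_le_add fun ε hε => ?_)
  rw [zero_add]
  obtain ⟨W, hW⟩ := hN.vanishing (Metric.ball_mem_nhds (0 : ℝ) hε)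
  let bad := W.filter fun h => (ρ h : Matrix (Fin n) (Fin n) K).charpoly =
    (ρ g₀ : Matrix (Fin n) (Fin n) K).charpoly ∧ ¬ IsConj h g₀
  have hbad : ∀ h : bad, ∃ N : Subgroup G, ∃ _ : N.Normal,
      N.FiniteIndex ∧ ¬ IsConj ((h : G) : G ⧸ N) (g₀ : G ⧸ N) := fun h =>
    hsep h (Finset.mem_filter.1 h.2).2.1 (Finset.mem_filter.1 h.2).2.2
  choose N hNn hNf hNsep using hbad
  let M : Subgroup G := ⨅ h, N h
  haveI : M.Normal := Subgroup.normal_iInf_normal hNn
  haveI : M.FiniteIndex := Subgroup.finiteIndex_iInf hNf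
  obtain ⟨S, hSfin, hS⟩ := main ρ (QuotientGroup.mk' M) e he
  set s : Set G := {g | (ρ g : Matrix (Fin n) (Fin n) K).charpoly =
    (ρ g₀ : Matrix (Fin n) (Fin n) K).charpoly ∧
      IsConj (QuotientGroup.mk' M g) (QuotientGroup.mk' M g₀)} with hs
  have h0 : hsCoeff e s = 0 := by
    by_contra h
    obtain ⟨r, hr, hrf⟩ := hroot
    exact hrf (hSfin _ (hS _ _ h) r hr)
  set c := (ConjClasses.mk g₀).carrier with hc
  have hsub : c ⊆ s := by
    intro g hg
    rw [hc, ConjClasses.mem_carrier_iff_mk_eq, ConjClasses.mk_eq_mk_iff_isConj] at hg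
    refine ⟨?_, (QuotientGroup.mk' M).map_isConj hg⟩
    obtain ⟨a, rfl⟩ := isConj_iff.1 hg
    conv_rhs => rw [map_mul, map_mul, Units.val_mul, Units.val_mul, Matrix.charpoly_mul_comm,
      ← mul_assoc, ← Units.val_mul, map_inv, inv_mul_cancel, Units.val_one, one_mul]
  have hdiff : hsCoeff e s - hsCoeff e c = ∑' g, (s \ c).indicator (fun g => ∑ i, e i i g) g := by
    rw [hsCoeff, hsCoeff, tsum_subtype s fun g => ∑ i, e i i g,
      tsum_subtype c fun g => ∑ i, e i i g, ← (htr.indicator s).tsum_sub (htr.indicator c)]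
    refine tsum_congr fun g => ?_
    by_cases hgc : g ∈ c
    · simp [hgc, hsub hgc]
    · by_cases hgs : g ∈ s <;> simp [hgc, hgs]
  rw [h0, zero_sub] at hdiff
  rw [← norm_neg, hdiff]
  refine (norm_tsum_le_tsum_norm (htr.indicator _).norm).trans
    ((htr.indicator _).norm.tsum_le_of_sum_le fun T => ?_)
  have hdisj : Disjoint (T.filter fun g => g ∈ s \ c) W := by
    rw [Finset.disjoint_left]
    intro g hg hgW
    obtain ⟨-, hgs, hgc⟩ := Finset.mem_filter.1 hg
    have hnc : ¬ IsConj g g₀ := fun h => hgc (by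
      rw [hc, ConjClasses.mem_carrier_iff_mk_eq, ConjClasses.mk_eq_mk_iff_isConj]; exact h)
    have hmem : g ∈ bad := Finset.mem_filter.2 ⟨hgW, hgs.1, hnc⟩
    haveI := hNn ⟨g, hmem⟩
    exact hNsep ⟨g, hmem⟩
      ((QuotientGroup.map M (N ⟨g, hmem⟩) (MonoidHom.id G) (iInf_le N ⟨g, hmem⟩)).map_isConj hgs.2)
  have := hW _ hdisj
  rw [Metric.mem_ball, dist_zero_right, Real.norm_eq_abs] at this
  refine le_trans ?_ ((le_abs_self _).trans this.le)
  rw [Finset.sum_filter]
  refine Finset.sum_le_sum fun g _ => ?_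
  by_cases hg : g ∈ s \ c
  · rw [Set.indicator_of_mem hg, if_pos hg]; exact norm_trace_le e g
  · rw [Set.indicator_of_notMem hg, if_neg hg, norm_zero]

end Vale.P184
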