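import Mathlib

/-!
P184: basic notions for the finite-group part.

* `IsRepTrace f`: `f x = tr (ρ x * P)` for a matrix representation `ρ` and a commuting
  idempotent `P` (the character of the subrepresentation cut out by `P`).
* `VA F`: combinations of such functions with algebraic-integer coefficients.
* `indFun ψ f`: induced class function along a hom `ψ : E →* F` (used for injective `ψ`).
-/

namespace Vale.P184

open Matrix

/-- `f` is the trace of a matrix representation twisted by a commuting idempotent. -/
def IsRepTrace {F : Type*} [Group F] (f : F → ℂ) : Prop :=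
  ∃ (m : ℕ) (ρ : F →* Matrix (Fin m) (Fin m) ℂ) (P : Matrix (Fin m) (Fin m) ℂ),
    P * P = P ∧ (∀ x, Commute (ρ x) P) ∧ ∀ x, f x = (ρ x * P).trace

/-- Algebraic-integer combinations of representation traces. -/
def VA (F : Type*) [Group F] : Submodule (integralClosure ℤ ℂ) (F → ℂ) :=
  Submodule.span (integralClosure ℤ ℂ) {f | IsRepTrace f}

/-- Induced class function along `ψ`. -/
noncomputable def indFun {E F : Type*} [Group E] [Group F] [Fintype E] [Fintype F]
    [DecidableEq F] (ψ : E →* F) (f : E → ℂ) : F → ℂ :=
  fun x => (Fintype.card E : ℂ)⁻¹ *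
    ∑ h : F, ∑ y : E, if ψ y = h⁻¹ * x * h then f y else 0

end Vale.P184
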