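import Vale.Agent.P184.Spectrum

/-!
P184: from multiplicity coefficients to single eigenvalue multisets.
-/

namespace Vale.P184

open Finset

variable {Λ : Type*} [CommGroup Λ] [DecidableEq Λ] {G : Type*} {n : ℕ}

/-- Product of multiplicities along `K` and shifted multiplicities along `F`. -/
noncomputable def multMono (R : G → Multiset Λ) (K : List Λ) (F : List (Λ × ℕ)) (g : G) : ℂ :=
  (K.map fun u => ((R g).count u : ℂ)).prod *
    (F.map fun p => ((R g).count p.1 : ℂ) - p.2).prod

theorem norm_multMono_le (R : G → Multiset Λ) (hR : ∀ g, Multiset.card (R g) ≤ n) (K : List Λ)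
    (F : List (Λ × ℕ)) :
    ∃ U : ℝ, ∀ g, ‖multMono R K F g‖ ≤ U := by
  refine ⟨((n : ℝ) + 1) ^ K.length * (F.map fun p => (n : ℝ) + p.2).prod, fun g => ?_⟩
  have hc : ∀ u, ((R g).count u : ℝ) ≤ n := fun u => by
    exact_mod_cast (Multiset.count_le_card u _).trans (hR g)
  rw [multMono, norm_mul]
  refine mul_le_mul ?_ ?_ (norm_nonneg _) (by positivity)
  · induction K with
    | nil => simp
    | cons u K ih =>
      simp only [List.map_cons, List.prod_cons, List.length_cons, pow_succ']
      rw [norm_mul, Complex.norm_natCast]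
      exact mul_le_mul (by linarith [hc u]) ih (norm_nonneg _) (by positivity)
  · induction F with
    | nil => simp
    | cons p F ih =>
      simp only [List.map_cons, List.prod_cons]
      rw [norm_mul]
      refine mul_le_mul ((norm_sub_le _ _).trans ?_) ih (norm_nonneg _) (by positivity)
      simp only [Complex.norm_natCast]
      linarith [hc p.1]

theorem tsum_multMono_eq_zero {b : G → ℂ} (hb : Summable fun g => ‖b g‖) (R : G → Multiset Λ)
    (hR : ∀ g, Multiset.card (R g) ≤ n) (M0 : ℕ) (u₀ : Λ)
    (hvan : ∀ (m : ℕ) (μ : Fin m → Λ), m ≤ M0 → (∃ a, μ a = u₀) →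
      ∑' g, b g * mulCoef R μ g = 0) :
    ∀ (F : List (Λ × ℕ)) (K : List Λ), u₀ ∈ K → K.length + F.length ≤ M0 →
      ∑' g, b g * multMono R K F g = 0 := by
  intro F
  induction F with
  | nil =>
    intro K hK hlen
    have h := hvan K.length K.get (by simpa using hlen)
      (List.mem_iff_get.1 hK)
    rw [← h]
    refine tsum_congr fun g => ?_
    congr 1
    simp only [multMono, mulCoef, List.map_nil, List.prod_nil, mul_one]
    rw [← List.prod_ofFn]
    congr 1
    conv_lhs => rw [← List.ofFn_get K, List.map_ofFn]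
    rfl
  | cons p F ih =>
    intro K hK hlen
    simp only [List.length_cons] at hlen
    have h1 := ih (p.1 :: K) (List.mem_cons_of_mem _ hK) (by simp only [List.length_cons]; omega)
    have h2 := ih K hK (by omega)
    have e : ∀ g, b g * multMono R K (p :: F) g =
        b g * multMono R (p.1 :: K) F g - (p.2 : ℂ) * (b g * multMono R K F g) := by
      intro g
      simp only [multMono, List.map_cons, List.prod_cons]
      ring
    obtain ⟨U₁, hU₁⟩ := norm_multMono_le R hR (p.1 :: K) F
    obtain ⟨U₂, hU₂⟩ := norm_multMono_le R hR K F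
    rw [tsum_congr e, (summable_mul_bounded hb _ hU₁).tsum_sub
      ((summable_mul_bounded hb _ hU₂).mul_left _), tsum_mul_left, h1, h2, mul_zero, sub_zero]

/-- If all character sums are integers, the aggregate of `b` over each eigenvalue multiset
vanishes unless the multiset consists of elements of one fixed finite set of torsion elements. -/
theorem exists_finite_support {b : G → ℂ} (hb : Summable fun g => ‖b g‖) (R : G → Multiset Λ)
    (hR : ∀ g, Multiset.card (R g) = n)
    (hint : ∀ (m : ℕ) (θ : Fin m → Λ →* Circle), ∃ z : ℤ, ∑' g, b g * charSum R θ g = z) :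
    ∃ U : Finset Λ, (∀ u ∈ U, IsOfFinOrder u) ∧
      ∀ R₀ : Multiset Λ, (∑' g, if R g = R₀ then b g else 0) ≠ 0 → ∀ u ∈ R₀, u ∈ U := by
  classical
  have hR' : ∀ g, Multiset.card (R g) ≤ n := fun g => (hR g).le
  rcases isEmpty_or_nonempty G with hG | hG
  · exact ⟨∅, by simp, fun R₀ h => absurd (by simp) h⟩
  choose D hD using fun m => exists_spectrum_bound hb R hR' m (hint m)
  set M0 := n * (n + 1) + 1 with hM0
  have hfin : ∀ m, {u : Λ | IsOfFinOrder u ∧ u ∈ Subgroup.closure (D m : Set Λ)}.Finite := by
    intro m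
    let H : Subgroup Λ := Subgroup.closure (D m : Set Λ)
    haveI : Group.FG H := Group.fg_iff_subgroup_fg H |>.2 ⟨D m, rfl⟩
    have hfg : Module.Finite ℤ (Additive H) := Module.Finite.iff_addGroup_fg.2 inferInstance
    let T : AddSubgroup (Additive H) := AddCommGroup.torsion (Additive H)
    have hTfg : (T.toIntSubmodule).FG := IsNoetherian.noetherian _
    haveI : Finite T := by
      haveI : Module.Finite ℤ T.toIntSubmodule := Module.Finite.iff_fg.2 hTfg
      haveI : AddGroup.FG T.toIntSubmodule := Module.Finite.iff_addGroup_fg.1 inferInstance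
      have : Finite T.toIntSubmodule := by
        refine AddCommGroup.finite_of_fg_isAddTorsion _ ?_
        rintro ⟨x, hx⟩
        have h1 : IsOfFinAddOrder x := hx
        obtain ⟨k, hk, hk0⟩ := isOfFinAddOrder_iff_nsmul_eq_zero.1 h1
        exact isOfFinAddOrder_iff_nsmul_eq_zero.2 ⟨k, hk, Subtype.ext hk0⟩
      exact this
    refine Set.Finite.subset (Set.finite_range fun x : T => ((Additive.toMul (x : Additive H) : H) : Λ)) ?_
    rintro u ⟨hu, huH⟩
    refine ⟨⟨Additive.ofMul ⟨u, huH⟩, ?_⟩, rfl⟩
    show IsOfFinAddOrder (Additive.ofMul (⟨u, huH⟩ : H))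
    rw [isOfFinAddOrder_ofMul_iff, ← Submonoid.isOfFinOrder_coe]
    exact hu
  let U : Finset Λ := (range (M0 + 1)).biUnion fun m => (hfin m).toFinset
  refine ⟨U, fun u hu => ?_, fun R₀ hR₀ u₀ hu₀ => ?_⟩
  · obtain ⟨m, -, hm⟩ := Finset.mem_biUnion.1 hu
    exact ((hfin m).mem_toFinset.1 hm).1
  by_contra hcon
  apply hR₀
  by_cases hex : ∃ g, R g = R₀
  swap
  · push_neg at hex
    simp [hex]
  obtain ⟨g₀, hg₀⟩ := hex
  have hcard : Multiset.card R₀ = n := hg₀ ▸ hR g₀
  have hvan : ∀ (m : ℕ) (μ : Fin m → Λ), m ≤ M0 → (∃ a, μ a = u₀) →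
      ∑' g, b g * mulCoef R μ g = 0 := by
    rintro m μ hm ⟨a, ha⟩
    by_contra hne
    have := hD m μ hne a
    rw [ha] at this
    exact hcon (Finset.mem_biUnion.2 ⟨m, Finset.mem_range.2 (by omega), (hfin m).mem_toFinset.2 this⟩)
  -- the interpolation list
  let S₀ : Finset (Λ × ℕ) := ((R₀.toFinset ×ˢ range (n + 1)).filter fun p =>
    p.2 ≠ R₀.count p.1).erase (u₀, 0)
  let c : ℂ := (R₀.count u₀ : ℂ) * ∏ p ∈ S₀, ((R₀.count p.1 : ℂ) - p.2)
  have hc : c ≠ 0 := by
    refine mul_ne_zero ?_ (Finset.prod_ne_zero_iff.2 fun p hp => ?_)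
    · exact_mod_cast (Multiset.count_pos.2 hu₀).ne'
    · rw [sub_ne_zero]
      exact_mod_cast (Finset.mem_filter.1 (Finset.mem_of_mem_erase hp)).2.symm
  have hind : ∀ g, multMono R [u₀] S₀.toList g = if R g = R₀ then c else 0 := by
    intro g
    simp only [multMono, List.map_cons, List.map_nil, List.prod_cons, List.prod_nil, mul_one,
      Finset.prod_map_toList]
    by_cases h : R g = R₀
    · rw [if_pos h, h]
    · rw [if_neg h]
      have : ∃ u ∈ R₀, (R g).count u ≠ R₀.count u := by
        by_contra hall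
        push_neg at hall
        apply h
        symm
        refine Multiset.eq_of_le_of_card_le (Multiset.le_iff_count.2 fun u => ?_) (by rw [hR g, hcard])
        by_cases hu : u ∈ R₀
        · rw [hall u hu]
        · rw [Multiset.count_eq_zero.2 hu]; exact Nat.zero_le _
      obtain ⟨u, hu, hne⟩ := this
      by_cases h0 : u = u₀ ∧ (R g).count u = 0
      · rw [← h0.1, h0.2, Nat.cast_zero, zero_mul]
      · refine mul_eq_zero_of_right _ (Finset.prod_eq_zero (i := (u, (R g).count u)) ?_ (sub_self _))
        refine Finset.mem_erase.2 ⟨fun he => h0 ⟨congrArg Prod.fst he, congrArg Prod.snd he⟩, ?_⟩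
        refine Finset.mem_filter.2 ⟨Finset.mem_product.2 ⟨Multiset.mem_toFinset.2 hu, ?_⟩, hne⟩
        rw [Finset.mem_range]
        have := (Multiset.count_le_card u (R g)).trans (hR' g)
        omega
  have hlen : [u₀].length + S₀.toList.length ≤ M0 := by
    rw [List.length_singleton, Finset.length_toList]
    have h1 : S₀.card ≤ R₀.toFinset.card * (n + 1) := by
      refine (Finset.card_erase_le.trans (Finset.card_filter_le _ _)).trans ?_
      rw [Finset.card_product, Finset.card_range]
    have h2 : R₀.toFinset.card ≤ n := hcard ▸ Multiset.toFinset_card_le R₀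
    have h3 := Nat.mul_le_mul_right (n + 1) h2
    omega
  have h := tsum_multMono_eq_zero hb R hR' M0 u₀ hvan S₀.toList [u₀]
    (List.mem_singleton.2 rfl) hlen
  simp only [hind, mul_ite, mul_zero] at h
  have e : (fun g => if R g = R₀ then b g * c else 0) = fun g => (if R g = R₀ then b g else 0) * c := by
    funext g
    split_ifs <;> simp
  rw [e, tsum_mul_right] at h
  exact (mul_eq_zero.1 h).resolve_right hc

end Vale.P184
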