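import Mathlib

/-!
P184: characteristic roots of powers of a matrix, and traces of idempotents.
-/

namespace Vale.P184

open Matrix Polynomial

variable {K : Type*} [Field K] [IsAlgClosed K] {n : Type*} [Fintype n] [DecidableEq n]

theorem det_aeval_eq_prod (M : Matrix n n K) (g : K[X]) (hn : g ≠ 0) :
    (aeval M g).det = (M.charpoly.roots.map fun r => g.eval r).prod := by
  have hs := IsAlgClosed.splits g
  have key : ∀ a : K, (aeval M (X - C a)).det = (M.charpoly.roots.map fun r => (X - C a).eval r).prod := by
    intro a
    have hχ := (IsAlgClosed.splits M.charpoly).eq_prod_roots_of_monic M.charpoly_monic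
    have h1 : M.charpoly.eval a = (M.charpoly.roots.map fun r => a - r).prod := by
      conv_lhs => rw [hχ]
      rw [eval_multiset_prod, Multiset.map_map]
      simp
    have h2 : (aeval M (X - C a)).det = (-1 : K) ^ Fintype.card n * M.charpoly.eval a := by
      rw [eval_charpoly, ← det_neg]
      simp [Algebra.algebraMap_eq_smul_one, Matrix.smul_one_eq_diagonal]
    have hcard : Multiset.card M.charpoly.roots = Fintype.card n := by
      rw [← (IsAlgClosed.splits M.charpoly).natDegree_eq_card_roots, charpoly_natDegree_eq_dim]
    rw [h2, h1, ← hcard, ← Multiset.prod_replicate, ← Multiset.map_const',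
      ← Multiset.prod_map_mul]
    simp
  conv_lhs => rw [hs.eq_prod_roots]
  conv_rhs => arg 1; arg 1; ext r; rw [hs.eq_prod_roots]
  rw [map_mul, det_mul, aeval_C, Algebra.algebraMap_eq_smul_one, det_smul, det_one, mul_one]
  simp only [eval_mul, eval_C, Multiset.prod_map_mul, Multiset.map_const', Multiset.prod_replicate]
  congr 1
  · rw [← (IsAlgClosed.splits M.charpoly).natDegree_eq_card_roots, charpoly_natDegree_eq_dim]
  induction g.roots using Multiset.induction with
  | empty => simp
  | cons a s ih =>
    simp only [Multiset.map_cons, Multiset.prod_cons, map_mul, det_mul, eval_mul,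
      Multiset.prod_map_mul, ih, key]

/-- The roots of the characteristic polynomial of `M ^ k` are the `k`-th powers of those
of `M`. -/
theorem roots_charpoly_pow (M : Matrix n n K) (k : ℕ) :
    (M ^ k).charpoly.roots = M.charpoly.roots.map (fun r => r ^ k) := by
  suffices h : (M ^ k).charpoly = ((M.charpoly.roots.map fun r => r ^ k).map fun a => X - C a).prod by
    rw [h, roots_multiset_prod_X_sub_C]
  refine Polynomial.funext fun y => ?_
  rw [eval_charpoly, eval_multiset_prod, Multiset.map_map, Multiset.map_map]
  have hcard : Multiset.card M.charpoly.roots = Fintype.card n := by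
    rw [← (IsAlgClosed.splits M.charpoly).natDegree_eq_card_roots, charpoly_natDegree_eq_dim]
  rcases isEmpty_or_nonempty n with h | h
  · have : M.charpoly.roots = 0 := by
      rw [← Multiset.card_eq_zero, hcard, Fintype.card_eq_zero]
    simp [this]
  by_cases hg : (C y - X ^ k : K[X]) = 0
  · have hc := congrArg natDegree hg
    rw [natDegree_sub, natDegree_sub_C, natDegree_X_pow, natDegree_zero] at hc
    subst hc
    have hy : y = 1 := by
      have := congrArg (eval 0) hg
      simpa [sub_eq_zero] using this
    subst hy
    have hne : Multiset.card M.charpoly.roots ≠ 0 := by rw [hcard]; exact Fintype.card_ne_zero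
    simp [hne, det_eq_zero_of_row_eq_zero (Classical.arbitrary n) (A := (0 : Matrix n n K))]
  have h1 := det_aeval_eq_prod M (C y - X ^ k) hg
  simp only [map_sub, aeval_C, map_pow, aeval_X, eval_sub, eval_C, eval_pow, eval_X] at h1
  rw [Matrix.scalar_apply]
  simpa [Algebra.algebraMap_eq_smul_one, Matrix.smul_one_eq_diagonal, Function.comp_def] using h1

/-- The trace of an idempotent matrix is a natural number. -/
theorem exists_nat_trace_eq {m : Type*} [Fintype m] [DecidableEq m] (P : Matrix m m ℂ)
    (hP : P * P = P) : ∃ k : ℕ, P.trace = k := by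
  have h : IsIdempotentElem (Matrix.toLin' P) := by
    show Matrix.toLin' P ∘ₗ Matrix.toLin' P = Matrix.toLin' P
    rw [← Matrix.toLin'_mul, hP]
  refine ⟨Module.finrank ℂ (LinearMap.range (Matrix.toLin' P)), ?_⟩
  rw [← (LinearMap.IsIdempotentElem.isProj_range _ h).trace, Matrix.trace_toLin'_eq]

end Vale.P184
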