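import Vale.Agent.P184.Rep
import Vale.Agent.P184.RootsPow

/-!
P184: integrality of the pairing between an idempotent over `ℂ[F]` and a class function in `VA`
whose values are Galois-equivariant.

An element of `M_q(ℂ[F])` is encoded as a matrix `A` on `Fin q × F` invariant under right
translations.
-/

namespace Vale.P184

open Matrix Polynomial

variable {F : Type*} [Group F] {q : ℕ}

/-- `A` is invariant under right translations, i.e. comes from `M_q(ℂ[F])`. -/
def IsEquiv (A : Matrix (Fin q × F) (Fin q × F) ℂ) : Prop :=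
  ∀ g i w j u, A (i, w * g) (j, u * g) = A (i, w) (j, u)

/-- Pairing of the trace of `A` with a function on `F`. -/
noncomputable def pairT [Fintype F] (A : Matrix (Fin q × F) (Fin q × F) ℂ) (f : F → ℂ) : ℂ :=
  ∑ i, ∑ x, A (i, x) (i, 1) * f x

/-- A primitive root of unity of order `N`. -/
noncomputable def zeta (N : ℕ) : ℂ :=
  Complex.exp (2 * Real.pi * Complex.I / N)

theorem zeta_primitive {N : ℕ} (hN : N ≠ 0) : IsPrimitiveRoot (zeta N) N :=
  Complex.isPrimitiveRoot_exp N hN

/-- The values of `f` on powers prime to `N` are Galois conjugate. -/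
def IsCyc (N : ℕ) (f : F → ℂ) : Prop :=
  ∀ x, ∃ p : ℤ[X], ∀ t : ℕ, t.Coprime N → f (x ^ t) = aeval (zeta N ^ t) p

theorem IsCyc.mul {N : ℕ} {f g : F → ℂ} (hf : IsCyc N f) (hg : IsCyc N g) :
    IsCyc N fun x => f x * g x := by
  intro x
  obtain ⟨p, hp⟩ := hf x
  obtain ⟨p', hp'⟩ := hg x
  exact ⟨p * p', fun t ht => by simp [map_mul, ← hp t ht, ← hp' t ht]⟩

theorem IsCyc.prod {N : ℕ} {ι : Type*} (s : Finset ι) (f : ι → F → ℂ)
    (hf : ∀ i ∈ s, IsCyc N (f i)) : IsCyc N fun x => ∏ i ∈ s, f i x := by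
  classical
  induction s using Finset.induction_on with
  | empty => exact fun x => ⟨1, fun t _ => by simp⟩
  | insert a s ha ih =>
    simp only [Finset.prod_insert ha]
    exact (hf a (Finset.mem_insert_self a s)).mul (ih fun i hi => hf i (Finset.mem_insert_of_mem hi))

/-- A sum over a multiset of roots of unity (or zeros) is cyclotomic. -/
theorem isCyc_of_roots {N : ℕ} (hN2 : 2 ≤ N) (f : F → ℂ) (R : F → Multiset ℂ)
    (hR : ∀ x, ∀ r ∈ R x, r = 0 ∨ r ^ N = 1)
    (hf : ∀ x, ∀ t : ℕ, t.Coprime N → f (x ^ t) = ((R x).map fun r => r ^ t).sum) :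
    IsCyc N f := by
  intro x
  have hN : N ≠ 0 := by omega
  haveI : NeZero N := ⟨hN⟩
  suffices h : ∀ s : Multiset ℂ, (∀ r ∈ s, r = 0 ∨ r ^ N = 1) →
      ∃ p : ℤ[X], ∀ t : ℕ, t.Coprime N →
        (s.map fun r => r ^ t).sum = aeval (zeta N ^ t) p by
    obtain ⟨p, hp⟩ := h (R x) (hR x)
    exact ⟨p, fun t ht => (hf x t ht).trans (hp t ht)⟩
  intro s
  induction s using Multiset.induction with
  | empty => exact fun _ => ⟨0, fun t _ => by simp⟩
  | cons a s ih =>
    intro hs
    obtain ⟨p, hp⟩ := ih fun r hr => hs r (Multiset.mem_cons_of_mem hr)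
    rcases hs a (Multiset.mem_cons_self a s) with ha | ha
    · refine ⟨p, fun t ht => ?_⟩
      have htp : t ≠ 0 := by
        rintro rfl
        have h1 : N = 1 := by simpa [Nat.coprime_zero_left] using ht
        omega
      simp [ha, htp, hp t ht]
    · obtain ⟨i, -, rfl⟩ := (zeta_primitive hN).eq_pow_of_pow_eq_one ha
      refine ⟨X ^ i + p, fun t ht => ?_⟩
      simp [← hp t ht, ← pow_mul, mul_comm i t]

theorem IsRepTrace.isCyc [Fintype F] {f : F → ℂ} (hf : IsRepTrace f)
    (hN : 2 ≤ Fintype.card F) : IsCyc (Fintype.card F) f := by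
  obtain ⟨m, ρ, P, hP, hc, hf⟩ := hf
  set N := Fintype.card F
  refine isCyc_of_roots hN f (fun x => (ρ x * P).charpoly.roots) ?_ ?_
  · intro x r hr
    have hN1 : (ρ x * P) ^ (N + 1) = ρ x * P := by
      rw [(hc x).mul_pow, IsIdempotentElem.pow_succ_eq N (show IsIdempotentElem P from hP),
        ← map_pow, pow_succ, pow_card_eq_one, one_mul]
    have hspec : r ∈ spectrum ℂ (ρ x * P) :=
      Matrix.mem_spectrum_iff_isRoot_charpoly.2 (isRoot_of_mem_roots hr)
    haveI : Nontrivial (Matrix (Fin m) (Fin m) ℂ) := by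
      by_contra hc'
      rw [not_nontrivial_iff_subsingleton] at hc'
      simp [spectrum.of_subsingleton] at hspec
    have h2 := spectrum.subset_polynomial_aeval (ρ x * P) (X ^ (N + 1) - X : ℂ[X]) ⟨r, hspec, rfl⟩
    simp only [map_sub, map_pow, aeval_X, hN1, sub_self, spectrum.zero_eq,
      Set.mem_singleton_iff, eval_sub, eval_pow, eval_X] at h2
    have h3 : r * (r ^ N - 1) = 0 := by rw [← h2]; ring
    rcases mul_eq_zero.1 h3 with h | h
    · exact Or.inl h
    · exact Or.inr (sub_eq_zero.1 h)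
  · intro x t ht
    have ht0 : t ≠ 0 := by
      rintro rfl
      simp [Nat.coprime_zero_left] at ht
      omega
    rw [hf, Matrix.trace_eq_sum_roots_charpoly, ← roots_charpoly_pow, (hc x).mul_pow,
      IsIdempotentElem.pow_eq (show IsIdempotentElem P from hP) ht0, map_pow]

variable [Fintype F]

theorem pairT_isRepTrace_int {A : Matrix (Fin q × F) (Fin q × F) ℂ} (hA : IsEquiv A)
    (hAA : A * A = A) {f : F → ℂ} (hf : IsRepTrace f) : ∃ k : ℕ, pairT A f = k := by
  obtain ⟨m, ρ, P, hP, hc, hf⟩ := hf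
  let B : Matrix (Fin q × Fin m) (Fin q × Fin m) ℂ :=
    fun a b => ∑ x, A (a.1, x) (b.1, 1) * (ρ x * P) a.2 b.2
  have hBB : B * B = B := by
    ext ⟨i, a⟩ ⟨j, b⟩
    calc (B * B) (i, a) (j, b)
        = ∑ k : Fin q, ∑ c : Fin m, ∑ x : F, ∑ y : F, (A (i, x) (k, 1) * (ρ x * P) a c) *
            (A (k, y) (j, 1) * (ρ y * P) c b) := by
          rw [Matrix.mul_apply, Fintype.sum_prod_type]
          refine Finset.sum_congr rfl fun k _ => Finset.sum_congr rfl fun c _ => ?_
          exact Finset.sum_mul_sum _ _ _ _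
      _ = ∑ k : Fin q, ∑ x : F, ∑ y : F, A (i, x) (k, 1) * A (k, y) (j, 1) * (ρ (x * y) * P) a b := by
          refine Finset.sum_congr rfl fun k _ => ?_
          rw [Finset.sum_comm]
          refine Finset.sum_congr rfl fun x _ => ?_
          rw [Finset.sum_comm]
          refine Finset.sum_congr rfl fun y _ => ?_
          have e : ρ (x * y) * P = (ρ x * P) * (ρ y * P) := by
            rw [map_mul, mul_assoc (ρ x) P, ← mul_assoc P, ← (hc y).eq, mul_assoc (ρ y) P, hP,
              mul_assoc]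
          rw [e, Matrix.mul_apply, Finset.mul_sum]
          exact Finset.sum_congr rfl fun c _ => by ring
      _ = ∑ k : Fin q, ∑ y : F, ∑ z : F, A (i, z) (k, y) * A (k, y) (j, 1) * (ρ z * P) a b := by
          refine Finset.sum_congr rfl fun k _ => ?_
          rw [Finset.sum_comm]
          refine Finset.sum_congr rfl fun y _ => ?_
          rw [← Equiv.sum_comp (Equiv.mulRight y) (fun z =>
            A (i, z) (k, y) * A (k, y) (j, 1) * (ρ z * P) a b)]
          refine Finset.sum_congr rfl fun x _ => ?_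
          have := hA y i x k 1
          rw [one_mul] at this
          simp only [Equiv.coe_mulRight, this]
      _ = ∑ z, (A * A) (i, z) (j, 1) * (ρ z * P) a b := by
          simp only [Matrix.mul_apply, Fintype.sum_prod_type, Finset.sum_mul]
          rw [Finset.sum_comm (s := Finset.univ (α := F))]
          refine Finset.sum_congr rfl fun k _ => ?_
          rw [Finset.sum_comm]
      _ = B (i, a) (j, b) := by rw [hAA]
  obtain ⟨k, hk⟩ := exists_nat_trace_eq B hBB
  refine ⟨k, ?_⟩
  rw [← hk]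
  simp only [pairT, hf, Matrix.trace, Matrix.diag, B, Fintype.sum_prod_type, Finset.mul_sum]
  refine Finset.sum_congr rfl fun i _ => ?_
  rw [Finset.sum_comm]

theorem pairT_isIntegral {A : Matrix (Fin q × F) (Fin q × F) ℂ} (hA : IsEquiv A)
    (hAA : A * A = A) {f : F → ℂ} (hf : f ∈ VA F) : IsIntegral ℤ (pairT A f) := by
  refine Submodule.span_induction ?_ ?_ ?_ ?_ hf
  · intro g hg
    obtain ⟨k, hk⟩ := pairT_isRepTrace_int hA hAA hg
    rw [hk]
    exact isIntegral_natCast k
  · simpa [pairT] using isIntegral_zero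
  · intro g₁ g₂ _ _ h₁ h₂
    have : pairT A (g₁ + g₂) = pairT A g₁ + pairT A g₂ := by
      simp [pairT, mul_add, Finset.sum_add_distrib]
    rw [this]
    exact h₁.add h₂
  · intro a g _ h
    have : pairT A (a • g) = (a : ℂ) * pairT A g := by
      simp only [pairT, Finset.mul_sum, Pi.smul_apply, Subalgebra.smul_def, smul_eq_mul]
      exact Finset.sum_congr rfl fun i _ => Finset.sum_congr rfl fun x _ => by ring
    rw [this]
    exact a.2.mul h

omit [Fintype F] in
/-- An integer polynomial taking one value at all primitive `N`th roots takes an integer value. -/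
theorem exists_int_of_invariant {N : ℕ} (hN : N ≠ 0) (Q : ℤ[X]) (v : ℂ)
    (h : ∀ t : ℕ, t.Coprime N → aeval (zeta N ^ t) Q = v) : ∃ z : ℤ, v = z := by
  have hmonic := cyclotomic.monic N ℤ
  set R := Q %ₘ cyclotomic N ℤ with hR
  have hval : ∀ r ∈ primitiveRoots N ℂ, aeval r R = v := by
    intro r hr
    rw [mem_primitiveRoots (Nat.pos_of_ne_zero hN)] at hr
    haveI : NeZero N := ⟨hN⟩
    obtain ⟨t, -, htc, rfl⟩ := (zeta_primitive hN).isPrimitiveRoot_iff.1 hr
    have h0 : aeval (zeta N ^ t) (cyclotomic N ℤ) = 0 := by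
      rw [aeval_def, eval₂_eq_eval_map, map_cyclotomic]
      exact (IsPrimitiveRoot.isRoot_cyclotomic (Nat.pos_of_ne_zero hN) hr)
    have e := modByMonic_add_div Q (cyclotomic N ℤ)
    rw [← hR] at e
    rw [← h t htc, ← e, map_add, map_mul, h0, zero_mul, add_zero]
  have hcard : (primitiveRoots N ℂ).card = N.totient := (zeta_primitive hN).card_primitiveRoots
  set S : ℂ[X] := R.map (Int.castRingHom ℂ) - C v with hS
  have hdegR : R.degree < N.totient := by
    rw [← degree_cyclotomic N ℤ]
    exact degree_modByMonic_lt Q hmonic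
  have hdeg : S.degree < (primitiveRoots N ℂ).card := by
    rw [hcard]
    refine (degree_sub_le _ _).trans_lt (max_lt ?_ ?_)
    · exact degree_map_le.trans_lt hdegR
    · refine degree_C_le.trans_lt ?_
      exact_mod_cast Nat.totient_pos.2 (Nat.pos_of_ne_zero hN)
  have hS0 : S = 0 := eq_zero_of_degree_lt_of_eval_finset_eq_zero _ hdeg fun r hr => by
    rw [hS, eval_sub, eval_map, eval_C, sub_eq_zero]
    exact hval r hr
  refine ⟨R.coeff 0, ?_⟩
  have := congrArg (fun p : ℂ[X] => p.coeff 0) hS0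
  simp [hS, sub_eq_zero] at this
  exact this.symm

/-- The conjugation-averaged trace is a representation trace. -/
theorem isRepTrace_classAvg {A : Matrix (Fin q × F) (Fin q × F) ℂ} (hA : IsEquiv A)
    (hAA : A * A = A) :
    IsRepTrace fun x => ∑ i, ∑ w, A (i, w * x * w⁻¹) (i, 1) := by
  classical
  let R₀ : F → Matrix (Fin q × F) (Fin q × F) ℂ :=
    fun x a b => if b.1 = a.1 ∧ b.2 = a.2 * x then 1 else 0
  have hR₀ : ∀ x a b, R₀ x a b = if b.1 = a.1 ∧ b.2 = a.2 * x then 1 else 0 := fun _ _ _ => rfl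
  have hl₀ : ∀ x (M : Matrix (Fin q × F) (Fin q × F) ℂ) i w b,
      (R₀ x * M) (i, w) b = M (i, w * x) b := by
    intro x M i w b
    rw [Matrix.mul_apply, Finset.sum_eq_single (i, w * x)]
    · simp [hR₀]
    · rintro ⟨k, v⟩ _ hne
      simp only [Prod.mk.injEq, ne_eq] at hne
      simp [hR₀, hne]
    · simp
  let R : F →* Matrix (Fin q × F) (Fin q × F) ℂ :=
    { toFun := R₀
      map_one' := by
        ext ⟨i, w⟩ ⟨j, u⟩
        simp [hR₀, Matrix.one_apply, eq_comm]
      map_mul' := fun x y => by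
        ext ⟨i, w⟩ b
        rw [hl₀, hR₀, hR₀]
        simp [mul_assoc] }
  have hl : ∀ x i w (b : Fin q × F), (R x * A) (i, w) b = A (i, w * x) b := fun x i w b =>
    hl₀ x A i w b
  have hRapp : ∀ x a b, R x a b = if b.1 = a.1 ∧ b.2 = a.2 * x then 1 else 0 := hR₀
  have hcomm : ∀ x, Commute (R x) A := by
    intro x
    ext ⟨i, w⟩ ⟨j, u⟩
    rw [hl, Matrix.mul_apply, Finset.sum_eq_single (j, u * x⁻¹)]
    · have := hA x i w j (u * x⁻¹)
      simpa [hRapp] using this
    · rintro ⟨k, v⟩ _ hne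
      simp only [Prod.mk.injEq, ne_eq] at hne
      have : ¬ (j = k ∧ u = v * x) := by
        rintro ⟨rfl, rfl⟩
        simp at hne
      simp [hRapp, this]
    · simp
  have h := IsRepTrace.of_fintype R A hAA hcomm
  convert h using 2 with x
  simp only [Matrix.trace, Matrix.diag, Fintype.sum_prod_type]
  refine Finset.sum_congr rfl fun i _ => Finset.sum_congr rfl fun w _ => ?_
  rw [hl]
  simpa using (hA w i (w * x * w⁻¹) i 1).symm

theorem card_mul_pairT (A : Matrix (Fin q × F) (Fin q × F) ℂ) {f : F → ℂ}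
    (hclass : ∀ g x, f (g * x * g⁻¹) = f x) :
    (Fintype.card F : ℂ) * pairT A f =
      ∑ x, (∑ i, ∑ w, A (i, w * x * w⁻¹) (i, 1)) * f x := by
  simp only [pairT, Finset.mul_sum, Finset.sum_mul]
  rw [Finset.sum_comm (s := Finset.univ (α := F))]
  refine Finset.sum_congr rfl fun i _ => ?_
  rw [Finset.sum_comm (s := Finset.univ (α := F))]
  have : ∀ w : F, ∑ x, A (i, w * x * w⁻¹) (i, 1) * f x = ∑ x, A (i, x) (i, 1) * f x := by
    intro w
    rw [← (MulAut.conj w).toEquiv.sum_comp (fun x => A (i, x) (i, 1) * f x)]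
    exact Finset.sum_congr rfl fun x _ => by simp [hclass]
  simp only [this, Finset.sum_const, Finset.card_univ, nsmul_eq_mul, Finset.mul_sum]

/-- Integrality of the pairing. -/
theorem pairT_int {A : Matrix (Fin q × F) (Fin q × F) ℂ} (hA : IsEquiv A)
    (hAA : A * A = A) {f : F → ℂ} (hf : f ∈ VA F) (hclass : ∀ g x, f (g * x * g⁻¹) = f x)
    (hcyc : IsCyc (Fintype.card F) f) : ∃ z : ℤ, pairT A f = z := by
  classical
  set N := Fintype.card F with hN
  rcases Nat.lt_or_ge N 2 with hlt | hge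
  · have hsub : Subsingleton F := Fintype.card_le_one_iff_subsingleton.1 (by omega)
    obtain ⟨p, hp⟩ := hcyc 1
    have h1 := hp 1 (Nat.coprime_one_left N)
    have hN1 : N = 1 := by
      have : 0 < N := Fintype.card_pos
      omega
    obtain ⟨k, hk⟩ := pairT_isRepTrace_int hA hAA (isRepTrace_one (F := F))
    have hf1 : ∀ x, f x = f 1 := fun x => by rw [Subsingleton.elim x 1]
    have hz : zeta N = 1 := by
      have := (zeta_primitive (N := N) (by omega)).pow_eq_one
      rwa [hN1, pow_one, ← hN1] at this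
    rw [pow_one, hz, pow_one, show (1 : ℂ) = algebraMap ℤ ℂ 1 by simp,
      aeval_algebraMap_apply_eq_algebraMap_eval] at h1
    refine ⟨p.eval 1 * k, ?_⟩
    have : pairT A f = f 1 * pairT A (fun _ => (1 : ℂ)) := by
      simp only [pairT, Finset.mul_sum, mul_one]
      exact Finset.sum_congr rfl fun i _ => Finset.sum_congr rfl fun x _ => by rw [hf1 x]; ring
    rw [this, hk, h1]
    simp
  have hΘ := isRepTrace_classAvg hA hAA
  have hg := (hΘ.isCyc hge).mul hcyc
  choose p hp using hg
  have hinv : ∀ t : ℕ, t.Coprime N →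
      aeval (zeta N ^ t) (∑ x, p x) = (N : ℂ) * pairT A f := by
    intro t ht
    rw [card_mul_pairT A hclass, map_sum]
    refine (Finset.sum_congr rfl fun x _ => (hp x t ht).symm).trans ?_
    have hc : (Nat.card F).Coprime t := by
      rw [Nat.card_eq_fintype_card]; exact ht.symm
    exact (powCoprime hc).sum_comp (fun x => (∑ i, ∑ w, A (i, w * x * w⁻¹) (i, 1)) * f x)
  obtain ⟨z, hz⟩ := exists_int_of_invariant (by omega) _ _ hinv
  have hN0 : (N : ℂ) ≠ 0 := by exact_mod_cast (show N ≠ 0 by omega)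
  have hval : pairT A f = algebraMap ℚ ℂ ((z : ℚ) / N) := by
    rw [map_div₀, map_intCast, map_natCast, eq_div_iff hN0, mul_comm, hz]
  have hint := pairT_isIntegral hA hAA hf
  rw [hval] at hint
  have hq : IsIntegral ℤ ((z : ℚ) / N) :=
    (isIntegral_algebraMap_iff (algebraMap ℚ ℂ).injective).1 hint
  obtain ⟨k, hk⟩ := IsIntegrallyClosed.isIntegral_iff.1 hq
  refine ⟨k, ?_⟩
  rw [hval, ← hk]
  simp

end Vale.P184
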