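import Mathlib

/-!
P184: an integer valued character sum has torsion spectrum.
-/

namespace Vale.P184

open Finset

variable {Λ : Type*} [CommGroup Λ]

/-- The hom `AddCircle 1 → Circle`. -/
noncomputable def circleHom : AddCircle (1 : ℝ) →+ Additive Circle where
  toFun x := Additive.ofMul (AddCircle.toCircle x)
  map_zero' := by simp
  map_add' x y := by rw [AddCircle.toCircle_add]; rfl

/-- Characters separate points. -/
theorem exists_char_ne_one {x : Λ} (hx : x ≠ 1) : ∃ χ : Λ →* Circle, χ x ≠ 1 := by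
  obtain ⟨c, hc⟩ := CharacterModule.exists_character_apply_ne_zero_of_ne_zero
    (a := Additive.ofMul x) (by simpa using hx)
  let ψ : AddCircle (1 : ℚ) →+ AddCircle (1 : ℝ) :=
    QuotientAddGroup.map _ _ (Rat.castHom ℝ).toAddMonoidHom (by
      intro q hq
      obtain ⟨k, rfl⟩ := AddSubgroup.mem_zmultiples_iff.1 hq
      exact AddSubgroup.mem_comap.2 (AddSubgroup.mem_zmultiples_iff.2 ⟨k, by simp⟩))
  refine ⟨MonoidHom.toAdditive.symm (circleHom.comp (ψ.comp c)), ?_⟩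
  intro h
  apply hc
  have h1 : ψ (c (Additive.ofMul x)) = 0 := by
    apply AddCircle.injective_toCircle (one_ne_zero (α := ℝ))
    rw [AddCircle.toCircle_zero]
    exact h
  obtain ⟨q, hq⟩ := QuotientAddGroup.mk_surjective (c (Additive.ofMul x))
  rw [← hq] at h1 ⊢
  rw [QuotientAddGroup.map_mk] at h1
  obtain ⟨k, hk⟩ := AddSubgroup.mem_zmultiples_iff.1 ((QuotientAddGroup.eq_zero_iff _).1 h1)
  refine (QuotientAddGroup.eq_zero_iff _).2 (AddSubgroup.mem_zmultiples_iff.2 ⟨k, ?_⟩)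
  simp only [zsmul_one, RingHom.toAddMonoidHom_eq_coe, AddMonoidHom.coe_coe, Rat.coe_castHom] at hk
  rw [zsmul_one]
  exact_mod_cast hk

/-- A character trivial on a subgroup and not at `x`. -/
theorem exists_char_trivial_on (H : Subgroup Λ) {x : Λ} (hx : x ∉ H) :
    ∃ χ : Λ →* Circle, (∀ h ∈ H, χ h = 1) ∧ χ x ≠ 1 := by
  obtain ⟨χ, hχ⟩ := exists_char_ne_one (Λ := Λ ⧸ H) (x := (x : Λ ⧸ H))
    (by rwa [ne_eq, QuotientGroup.eq_one_iff])
  refine ⟨χ.comp (QuotientGroup.mk' H), fun h hh => ?_, hχ⟩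
  have : (QuotientGroup.mk' H) h = 1 := (QuotientGroup.eq_one_iff h).2 hh
  simp [MonoidHom.comp_apply, this]

/-- An element of infinite order is detected by characters close to `1` on any finite set. -/
theorem exists_char_near (D : Finset Λ) {x : Λ} (hx : ¬ IsOfFinOrder x) {δ : ℝ} (hδ : 0 < δ) :
    ∃ χ : Λ →* Circle, (∀ d ∈ D, ‖(χ d : ℂ) - 1‖ ≤ δ) ∧ χ x ≠ 1 := by
  have hx' : ∀ k : ℤ, k • Additive.ofMul x = 0 → k = 0 := by
    intro k hk
    by_contra hk0
    exact hx (isOfFinOrder_iff_zpow_eq_one.2 ⟨k, hk0, hk⟩)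
  let f : ℤ →+ Additive Λ := zmultiplesHom _ (Additive.ofMul x)
  have hf : Function.Injective f := (injective_iff_map_eq_zero f).2 hx'
  obtain ⟨Lf, hL⟩ : ∃ Lf : Additive Λ →+ ℝ, Lf (Additive.ofMul x) = 1 := by
    obtain ⟨h, hh⟩ := (Module.Baer.of_divisible ℝ).extension_property_addMonoidHom f hf
      (zmultiplesHom ℝ (1 : ℝ))
    refine ⟨h, ?_⟩
    have := DFunLike.congr_fun hh 1
    simpa [f] using this
  set B := ∑ d ∈ D, |Lf (Additive.ofMul d)| with hB
  have hB0 : 0 ≤ B := Finset.sum_nonneg fun _ _ => abs_nonneg _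
  set t := min 1 (δ / (B + 1)) with ht
  have ht0 : 0 < t := lt_min one_pos (by positivity)
  let χ : Λ →* Circle :=
    { toFun := fun y => Circle.exp (t * Lf (Additive.ofMul y))
      map_one' := by simp
      map_mul' := fun a b => by simp [mul_add, Circle.exp_add] }
  refine ⟨χ, fun d hd => ?_, ?_⟩
  · show ‖((Circle.exp (t * Lf (Additive.ofMul d)) : Circle) : ℂ) - 1‖ ≤ δ
    rw [Circle.coe_exp, mul_comm _ Complex.I]
    refine Real.norm_exp_I_mul_ofReal_sub_one_le.trans ?_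
    rw [Real.norm_eq_abs, abs_mul, abs_of_pos ht0]
    calc t * |Lf (Additive.ofMul d)| ≤ δ / (B + 1) * B :=
          mul_le_mul (min_le_right _ _)
            (Finset.single_le_sum (f := fun d => |Lf (Additive.ofMul d)|)
              (fun _ _ => abs_nonneg _) hd) (abs_nonneg _) (by positivity)
      _ ≤ δ := by
          rw [div_mul_eq_mul_div, div_le_iff₀ (by positivity)]
          nlinarith
  · show Circle.exp (t * Lf (Additive.ofMul x)) ≠ 1
    rw [hL, mul_one, ne_eq, Circle.exp_eq_one]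
    rintro ⟨k, hk⟩
    have ht1 : t ≤ 1 := min_le_left _ _
    have h3 := Real.pi_gt_three
    rcases lt_trichotomy k 0 with hk0 | hk0 | hk0
    · have : (k : ℝ) ≤ -1 := by exact_mod_cast (show k ≤ -1 by omega)
      nlinarith
    · rw [hk0, Int.cast_zero, zero_mul] at hk
      linarith
    · have : (1 : ℝ) ≤ k := by exact_mod_cast (show 1 ≤ k by omega)
      nlinarith

/-- Finite averages of characters which nearly vanish on prescribed nontrivial elements. -/
theorem exists_avg (W : Finset Λ) (hW : (1 : Λ) ∉ W) {δ : ℝ} (hδ : 0 < δ) :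
    ∃ (κ : ℕ) (θ : Fin (κ + 1) → Λ →* Circle),
      ∀ w ∈ W, ‖((κ + 1 : ℕ) : ℂ)⁻¹ * ∑ s, (θ s w : ℂ)‖ ≤ δ := by
  classical
  have hchar : ∀ w : W, ∃ χ : Λ →* Circle, χ (w : Λ) ≠ 1 := fun w =>
    exists_char_ne_one fun h => hW (h ▸ w.2)
  choose χ hχ using hchar
  let T : ℝ := ∑ w : W, 2 / ‖(χ w w : ℂ) - 1‖
  obtain ⟨N, hN⟩ := exists_nat_gt (T / δ)
  let ι := W → Fin (N + 1)
  obtain ⟨κ, hκ⟩ : ∃ κ, Fintype.card ι = κ + 1 :=
    ⟨Fintype.card ι - 1, (Nat.succ_pred_eq_of_pos Fintype.card_pos).symm⟩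
  let E : Fin (κ + 1) ≃ ι := (finCongr hκ.symm).trans (Fintype.equivFin ι).symm
  refine ⟨κ, fun s => ∏ w, (χ w) ^ (E s w : ℕ), fun w hw => ?_⟩
  have hsum : ∑ s : Fin (κ + 1), (((∏ v, (χ v) ^ (E s v : ℕ)) w : Circle) : ℂ) =
      ∏ v : W, ∑ a : Fin (N + 1), (χ v w : ℂ) ^ (a : ℕ) := by
    rw [Fintype.prod_sum, ← E.sum_comp]
    refine Finset.sum_congr rfl fun s _ => ?_
    simp only [MonoidHom.finsetProd_apply, MonoidHom.pow_apply]
    exact map_prod Circle.coeHom _ _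
  rw [hsum, norm_mul, norm_inv, Complex.norm_natCast, norm_prod, ← hκ, Fintype.card_fun,
    Fintype.card_fin, Nat.cast_pow, ← Finset.card_univ, ← Finset.prod_const, ← Finset.prod_inv_distrib,
    ← Finset.prod_mul_distrib]
  have hN1 : (0 : ℝ) < ((N + 1 : ℕ) : ℝ) := by positivity
  have hle : ∀ v : W, ((N + 1 : ℕ) : ℝ)⁻¹ * ‖∑ a : Fin (N + 1), (χ v w : ℂ) ^ (a : ℕ)‖ ≤ 1 := by
    intro v
    rw [inv_mul_le_iff₀ hN1, mul_one]
    refine (norm_sum_le _ _).trans ?_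
    simp [Circle.norm_coe]
  rw [← Finset.mul_prod_erase Finset.univ _ (Finset.mem_univ (⟨w, hw⟩ : W))]
  have hrest : ∏ v ∈ Finset.univ.erase (⟨w, hw⟩ : W),
      ((N + 1 : ℕ) : ℝ)⁻¹ * ‖∑ a : Fin (N + 1), (χ v w : ℂ) ^ (a : ℕ)‖ ≤ 1 :=
    Finset.prod_le_one (fun v _ => by positivity) fun v _ => hle v
  refine (mul_le_of_le_one_right (by positivity) hrest).trans ?_
  set z : ℂ := (χ ⟨w, hw⟩ w : ℂ) with hz
  have hz1 : z ≠ 1 := fun h => hχ ⟨w, hw⟩ (Circle.coe_eq_one.1 h)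
  rw [Fin.sum_univ_eq_sum_range (fun a => z ^ a), geom_sum_eq hz1, norm_div,
    inv_mul_le_iff₀ hN1]
  have h2 : ‖z ^ (N + 1) - 1‖ ≤ 2 := by
    refine (norm_sub_le _ _).trans ?_
    rw [norm_pow, hz, Circle.norm_coe, one_pow, norm_one]
    norm_num
  have hT : 2 / ‖z - 1‖ ≤ T :=
    Finset.single_le_sum (f := fun v : W => 2 / ‖(χ v v : ℂ) - 1‖)
      (fun _ _ => by positivity) (Finset.mem_univ (⟨w, hw⟩ : W))
  have hTN : T ≤ ((N + 1 : ℕ) : ℝ) * δ := by
    rw [div_lt_iff₀ hδ] at hN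
    push_cast
    nlinarith
  exact (div_le_div_of_nonneg_right h2 (norm_nonneg _)).trans (hT.trans hTN)

end Vale.P184
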