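import Vale.Agent.P184.FiniteInt

/-!
P184: a nearly idempotent element of `M_q(ℂ[F])` pairs to nearly an integer.
-/

namespace Vale.P184

open Matrix Filter Topology

open scoped Matrix.Norms.Operator

/-- An almost idempotent element of a closed subring of a complete normed ring is close to an
idempotent of that subring. -/
theorem exists_idem_near {R : Type*} [NormedRing R] [CompleteSpace R] (S : NonUnitalSubring R)
    (hS : IsClosed (S : Set R)) {a : R} (ha : a ∈ S) {ε B : ℝ} (hε : ‖a * a - a‖ ≤ ε)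
    (hB : ‖a‖ ≤ B) (h1 : 14 * ε ≤ 1) (h2 : 2 * ε * (3 + 2 * B) ≤ 1) :
    ∃ e ∈ S, e * e = e ∧ ‖e - a‖ ≤ 2 * ε * (3 + 2 * B) := by
  have hε0 : 0 ≤ ε := (norm_nonneg _).trans hε
  have hB0 : 0 ≤ B := (norm_nonneg _).trans hB
  set K := 3 + 2 * B with hK
  let step : R → R := fun x => x + ((x * x - x) - 2 • ((x * x - x) * x))
  let u : ℕ → R := fun k => step^[k] a
  have hu : ∀ k, u (k + 1) = step (u k) := fun k => Function.iterate_succ_apply' step k a
  have hmem : ∀ k, u k ∈ S := by
    intro k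
    induction k with
    | zero => exact ha
    | succ k ih =>
      rw [hu]
      have hd : u k * u k - u k ∈ S := S.sub_mem (S.mul_mem ih ih) ih
      exact S.add_mem ih (S.sub_mem hd (nsmul_mem (S.mul_mem hd ih) 2))
  have key : ∀ k, ‖u k * u k - u k‖ ≤ ε * (1 / 2) ^ k ∧
      ‖u k - a‖ ≤ 2 * ε * K * (1 - (1 / 2) ^ k) := by
    intro k
    induction k with
    | zero => exact ⟨by simpa [u] using hε, by simp [u]⟩
    | succ k ih =>
      obtain ⟨ihd, iha⟩ := ih
      set x := u k with hx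
      set d := x * x - x with hd
      have hpow0 : (0 : ℝ) ≤ (1 / 2) ^ k := by positivity
      have hpow1 : (1 / 2 : ℝ) ^ k ≤ 1 := pow_le_one₀ (by norm_num) (by norm_num)
      have hxB : ‖x‖ ≤ B + 1 := by
        calc ‖x‖ = ‖a + (x - a)‖ := by rw [add_sub_cancel]
          _ ≤ ‖a‖ + ‖x - a‖ := norm_add_le _ _
          _ ≤ B + 2 * ε * K * (1 - (1 / 2) ^ k) := add_le_add hB iha
          _ ≤ B + 1 := by nlinarith [mul_nonneg (mul_nonneg hε0 (show (0 : ℝ) ≤ K by positivity)) hpow0]
      have hdiff : ‖u (k + 1) - x‖ ≤ ε * (1 / 2) ^ k * K := by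
        have : u (k + 1) - x = d - 2 • (d * x) := by rw [hu]; simp [step, hd, hx]
        rw [this]
        have hdx : ‖d * x‖ ≤ (ε * (1 / 2) ^ k) * (B + 1) :=
          (norm_mul_le d x).trans (mul_le_mul ihd hxB (norm_nonneg _) (by positivity))
        have h2dx : ‖2 • (d * x)‖ ≤ 2 * ‖d * x‖ := by
          have := norm_nsmul_le (n := 2) (a := d * x)
          push_cast at this
          exact this
        refine (norm_sub_le _ _).trans ?_
        rw [hK]
        nlinarith
      refine ⟨?_, ?_⟩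
      · have e1 : u (k + 1) * u (k + 1) - u (k + 1) = 4 • (d * d * d) - 3 • (d * d) := by
          rw [hu]
          simp only [step, hd, hx]
          noncomm_ring
        rw [e1, pow_succ]
        have hd2 : ‖d * d‖ ≤ ‖d‖ * ‖d‖ := norm_mul_le _ _
        have hd3 : ‖d * d * d‖ ≤ ‖d‖ * ‖d‖ * ‖d‖ :=
          (norm_mul_le _ _).trans (mul_le_mul_of_nonneg_right hd2 (norm_nonneg _))
        have h4 : ‖4 • (d * d * d)‖ ≤ 4 * ‖d * d * d‖ := by
          have := norm_nsmul_le (n := 4) (a := d * d * d)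
          push_cast at this
          exact this
        have h3 : ‖3 • (d * d)‖ ≤ 3 * ‖d * d‖ := by
          have := norm_nsmul_le (n := 3) (a := d * d)
          push_cast at this
          exact this
        refine (norm_sub_le _ _).trans ?_
        have hd1 : ‖d‖ ≤ 1 / 14 := by nlinarith
        nlinarith [norm_nonneg d, mul_nonneg (norm_nonneg d) (norm_nonneg d)]
      · have := norm_sub_le_norm_sub_add_norm_sub (u (k + 1)) x a
        rw [pow_succ]
        nlinarith
  have hcauchy : CauchySeq u := by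
    refine cauchySeq_of_le_geometric (1 / 2) (2 * ε * K) (by norm_num) fun k => ?_
    rw [dist_comm, dist_eq_norm]
    have hk := key k
    set x := u k
    set d := x * x - x
    have : u (k + 1) - x = d - 2 • (d * x) := by rw [hu]; simp [step, d, x]
    rw [this]
    have hpow0 : (0 : ℝ) ≤ (1 / 2) ^ k := by positivity
    have hxB : ‖x‖ ≤ B + 1 := by
      calc ‖x‖ = ‖a + (x - a)‖ := by rw [add_sub_cancel]
        _ ≤ ‖a‖ + ‖x - a‖ := norm_add_le _ _
        _ ≤ B + 2 * ε * K * (1 - (1 / 2) ^ k) := add_le_add hB hk.2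
        _ ≤ B + 1 := by nlinarith [mul_nonneg (mul_nonneg hε0 (show (0 : ℝ) ≤ K by positivity)) hpow0]
    have hdx : ‖d * x‖ ≤ (ε * (1 / 2) ^ k) * (B + 1) :=
      (norm_mul_le d x).trans (mul_le_mul hk.1 hxB (norm_nonneg _) (by positivity))
    have h2dx : ‖2 • (d * x)‖ ≤ 2 * ‖d * x‖ := by
      have := norm_nsmul_le (n := 2) (a := d * x)
      push_cast at this
      exact this
    refine (norm_sub_le _ _).trans ?_
    rw [hK]
    nlinarith [hk.1, mul_nonneg hε0 hpow0]
  obtain ⟨e, he⟩ := cauchySeq_tendsto_of_complete hcauchy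
  refine ⟨e, hS.mem_of_tendsto he (Eventually.of_forall hmem), ?_, ?_⟩
  · have h0 : Tendsto (fun k => u k * u k - u k) atTop (𝓝 0) := by
      refine squeeze_zero_norm (fun k => (key k).1) ?_
      simpa using (tendsto_pow_atTop_nhds_zero_of_lt_one (by norm_num : (0 : ℝ) ≤ 1 / 2)
        (by norm_num)).const_mul ε
    exact sub_eq_zero.1 (tendsto_nhds_unique ((he.mul he).sub he) h0)
  · refine le_of_tendsto ((he.sub_const a).norm) (Eventually.of_forall fun k => ?_)
    have hpow0 : (0 : ℝ) ≤ (1 / 2) ^ k := by positivity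
    have := (key k).2
    nlinarith [mul_nonneg (mul_nonneg hε0 (show (0 : ℝ) ≤ K by positivity)) hpow0]

variable {F : Type*} [Group F] [Fintype F] {q : ℕ}

/-- The translation-invariant matrices form a closed subring. -/
def equivSubring (F : Type*) [Group F] [Fintype F] (q : ℕ) :
    NonUnitalSubring (Matrix (Fin q × F) (Fin q × F) ℂ) where
  carrier := {A | IsEquiv A}
  zero_mem' := fun _ _ _ _ _ => rfl
  add_mem' := fun hA hB g i w j u => by simp [hA g i w j u, hB g i w j u]
  neg_mem' := fun hA g i w j u => by simp [hA g i w j u]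
  mul_mem' := fun {A B} hA hB g i w j u => by
    simp only [Matrix.mul_apply, Fintype.sum_prod_type]
    refine Finset.sum_congr rfl fun k _ => ?_
    rw [← Equiv.sum_comp (Equiv.mulRight g) (fun v => A (i, w * g) (k, v) * B (k, v) (j, u * g))]
    exact Finset.sum_congr rfl fun v _ => by simp [hA g i w k v, hB g k v j u]

theorem equivSubring_isClosed :
    IsClosed (equivSubring F q : Set (Matrix (Fin q × F) (Fin q × F) ℂ)) := by
  have : (equivSubring F q : Set (Matrix (Fin q × F) (Fin q × F) ℂ)) =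
      ⋂ (g : F) (i : Fin q) (w : F) (j : Fin q) (u : F),
        {A | A (i, w * g) (j, u * g) = A (i, w) (j, u)} := by
    ext A
    simp only [Set.mem_iInter]
    rfl
  rw [this]
  refine isClosed_iInter fun g => isClosed_iInter fun i => isClosed_iInter fun w =>
    isClosed_iInter fun j => isClosed_iInter fun u => ?_
  exact isClosed_eq ((continuous_apply _).comp (continuous_apply _))
    ((continuous_apply _).comp (continuous_apply _))

/-- An almost idempotent element of `M_q(ℂ[F])` pairs with a class function of `VA` with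
Galois-equivariant values to almost an integer. -/
theorem exists_int_near (b : Fin q → Fin q → F → ℂ) {f : F → ℂ} (hf : f ∈ VA F)
    (hclass : ∀ g x, f (g * x * g⁻¹) = f x) (hcyc : IsCyc (Fintype.card F) f)
    {M : ℝ} (hM : ∀ x, ‖f x‖ ≤ M) {ε B : ℝ}
    (hB : ∑ i, ∑ j, ∑ x, ‖b i j x‖ ≤ B)
    (hε : ∑ i, ∑ j, ∑ x, ‖(∑ k, ∑ y, b i k (x * y⁻¹) * b k j y) - b i j x‖ ≤ ε)
    (h1 : 14 * ε ≤ 1) (h2 : 2 * ε * (3 + 2 * B) ≤ 1) :
    ∃ z : ℤ, ‖∑ i, ∑ x, b i i x * f x - z‖ ≤ q * M * (2 * ε * (3 + 2 * B)) := by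
  classical
  let A : Matrix (Fin q × F) (Fin q × F) ℂ := fun a c => b a.1 c.1 (a.2 * c.2⁻¹)
  have hAmem : A ∈ equivSubring F q := fun g i w j u => by simp [A, mul_assoc]
  have hrow : ∀ (c : Fin q → Fin q → F → ℂ) (r : ℝ), (∑ i, ∑ j, ∑ x, ‖c i j x‖ ≤ r) →
      ∀ i w, ∑ a : Fin q × F, ‖c i a.1 (w * a.2⁻¹)‖ ≤ r := by
    intro c r hc i w
    refine le_trans ?_ hc
    rw [Fintype.sum_prod_type]
    refine le_trans (le_of_eq ?_) (Finset.single_le_sum
      (f := fun i => ∑ j, ∑ x, ‖c i j x‖) (fun _ _ => by positivity) (Finset.mem_univ i))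
    refine Finset.sum_congr rfl fun j _ => ?_
    exact Equiv.sum_comp ((Equiv.inv F).trans (Equiv.mulLeft w)) (fun x => ‖c i j x‖)
  have hnorm : ∀ (X : Matrix (Fin q × F) (Fin q × F) ℂ) (r : ℝ), 0 ≤ r →
      (∀ a, ∑ c, ‖X a c‖ ≤ r) → ‖X‖ ≤ r := by
    intro X r hr hX
    lift r to NNReal using hr
    rw [← coe_nnnorm, NNReal.coe_le_coe, Matrix.linfty_opNNNorm_def]
    refine Finset.sup_le fun a _ => ?_
    rw [← NNReal.coe_le_coe, NNReal.coe_sum]
    simpa using hX a
  have hB0 : 0 ≤ B := le_trans (by positivity) hB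
  have hε0 : 0 ≤ ε := le_trans (by positivity) hε
  have hA : ‖A‖ ≤ B := hnorm A B hB0 fun ⟨i, w⟩ => hrow b B hB i w
  have hAA : ‖A * A - A‖ ≤ ε := by
    refine hnorm _ ε hε0 fun ⟨i, w⟩ => le_trans (le_of_eq ?_) (hrow _ ε hε i w)
    refine Finset.sum_congr rfl fun ⟨j, u⟩ _ => ?_
    congr 1
    rw [Matrix.sub_apply, Matrix.mul_apply, Fintype.sum_prod_type]
    simp only [A]
    congr 1
    refine Finset.sum_congr rfl fun k _ => ?_
    rw [← Equiv.sum_comp (Equiv.mulRight u) (fun v => b i k (w * v⁻¹) * b k j (v * u⁻¹))]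
    exact Finset.sum_congr rfl fun y _ => by simp [mul_assoc]
  obtain ⟨e, he, hee, hea⟩ := exists_idem_near (equivSubring F q) equivSubring_isClosed hAmem
    hAA hA h1 h2
  obtain ⟨z, hz⟩ := pairT_int he hee hf hclass hcyc
  refine ⟨z, ?_⟩
  have hA' : ∑ i, ∑ x, b i i x * f x = pairT A f := by simp [pairT, A]
  have hD : e - A ∈ equivSubring F q := (equivSubring F q).sub_mem he hAmem
  have hrowD : ∀ i, ∑ x, ‖(e - A) (i, x) (i, 1)‖ ≤ ‖e - A‖ := by
    intro i
    have h := fun x => hD x i 1 i x⁻¹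
    simp only [one_mul, inv_mul_cancel] at h
    simp only [h]
    have hr : ∑ a : Fin q × F, ‖(e - A) (i, 1) a‖ ≤ ‖e - A‖ := by
      rw [← coe_nnnorm, Matrix.linfty_opNNNorm_def]
      refine le_trans ?_ (NNReal.coe_le_coe.2 (Finset.le_sup (Finset.mem_univ (i, (1 : F)))))
      simp
    refine le_trans ?_ hr
    rw [Fintype.sum_prod_type]
    refine le_trans (le_of_eq ?_) (Finset.single_le_sum
      (f := fun j => ∑ y, ‖(e - A) (i, 1) (j, y)‖) (fun _ _ => by positivity) (Finset.mem_univ i))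
    exact Equiv.sum_comp (Equiv.inv F) (fun y => ‖(e - A) (i, 1) (i, y)‖)
  rw [hA', ← hz, norm_sub_rev]
  calc ‖pairT e f - pairT A f‖
      = ‖∑ i, ∑ x, (e - A) (i, x) (i, 1) * f x‖ := by
        simp only [pairT, ← Finset.sum_sub_distrib, Matrix.sub_apply, sub_mul]
    _ ≤ ∑ i, ∑ x, ‖(e - A) (i, x) (i, 1)‖ * M := by
        refine (norm_sum_le _ _).trans (Finset.sum_le_sum fun i _ => ?_)
        refine (norm_sum_le _ _).trans (Finset.sum_le_sum fun x _ => ?_)
        rw [norm_mul]
        exact mul_le_mul_of_nonneg_left (hM x) (norm_nonneg _)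
    _ ≤ ∑ _i : Fin q, (2 * ε * (3 + 2 * B)) * M := by
        refine Finset.sum_le_sum fun i _ => ?_
        rw [← Finset.sum_mul]
        exact mul_le_mul_of_nonneg_right ((hrowD i).trans hea)
          ((norm_nonneg _).trans (hM 1))
    _ = q * M * (2 * ε * (3 + 2 * B)) := by
        rw [Finset.sum_const, Finset.card_univ, Fintype.card_fin, nsmul_eq_mul]
        ring

end Vale.P184
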