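import Mathlib

/-!
P184: the statement of the ℓ¹-Bass property.

An element of `M_q(ℓ¹ G)` is a matrix of absolutely summable functions `G → ℂ`; the product is
convolution. `hsCoeff e C` is the Hattori–Stallings coefficient at the set `C`.
-/

namespace Vale.P184

/-- `e` is an idempotent matrix over `ℓ¹(G)`. -/
def IsL1Idempotent {G : Type*} [Group G] {q : ℕ} (e : Fin q → Fin q → G → ℂ) : Prop :=
  (∀ i j, Summable fun g => ‖e i j g‖) ∧
    ∀ i j g, ∑ k, ∑' h, e i k h * e k j (h⁻¹ * g) = e i j g

/-- The Hattori–Stallings coefficient of `e` at a set of group elements. -/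
noncomputable def hsCoeff {G : Type*} {q : ℕ} (e : Fin q → Fin q → G → ℂ) (s : Set G) : ℂ :=
  ∑' g : s, ∑ i, e i i g

/-- The ℓ¹-Bass property: the Hattori–Stallings trace of every idempotent matrix over `ℓ¹(G)`
is supported on finitely many conjugacy classes, all of elements of finite order. -/
def L1Bass (G : Type*) [Group G] : Prop :=
  ∀ (q : ℕ) (e : Fin q → Fin q → G → ℂ), IsL1Idempotent e →
    ∃ F : Finset (ConjClasses G), ∀ C : ConjClasses G, hsCoeff e C.carrier ≠ 0 →
      C ∈ F ∧ ∀ g ∈ C.carrier, IsOfFinOrder g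

end Vale.P184
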