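import Vale.Agent.P184.Idem
import Vale.Agent.P184.Statement

/-!
P184: pairings of an ℓ¹ idempotent with functions approximable by finite test functions are
integers.
-/

namespace Vale.P184

open Finset

variable {G : Type*} [Group G] {q : ℕ}

/-- `u` is approximated on every finite set by test functions on finite groups. -/
def IsTestable.{w} {G : Type*} [Group G] (u : G → ℂ) (U : ℝ) : Prop :=
  ∀ (S : Finset G) (η : ℝ), 0 < η →
    ∃ (F : Type w) (_ : Group F) (_ : Fintype F) (π : Subgroup.closure (S : Set G) →* F)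
      (f : F → ℂ), f ∈ VA F ∧ (∀ g x, f (g * x * g⁻¹) = f x) ∧ IsCyc (Fintype.card F) f ∧
      (∀ x, ‖f x‖ ≤ U) ∧
      ∀ g : Subgroup.closure (S : Set G), (g : G) ∈ S → ‖f (π g) - u g‖ ≤ η

/-- Sum of the norms of all entries. -/
noncomputable def entryNorm (e : Fin q → Fin q → G → ℂ) (g : G) : ℝ := ∑ i, ∑ j, ‖e i j g‖

theorem entryNorm_nonneg (e : Fin q → Fin q → G → ℂ) (g : G) : 0 ≤ entryNorm e g :=
  Finset.sum_nonneg fun _ _ => Finset.sum_nonneg fun _ _ => norm_nonneg _

theorem norm_le_entryNorm (e : Fin q → Fin q → G → ℂ) (g : G) (i j : Fin q) :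
    ‖e i j g‖ ≤ entryNorm e g :=
  (Finset.single_le_sum (f := fun j => ‖e i j g‖) (fun _ _ => norm_nonneg _) (mem_univ j)).trans
    (Finset.single_le_sum (f := fun i => ∑ j, ‖e i j g‖)
      (fun _ _ => Finset.sum_nonneg fun _ _ => norm_nonneg _) (mem_univ i))

theorem norm_trace_le (e : Fin q → Fin q → G → ℂ) (g : G) :
    ‖∑ i, e i i g‖ ≤ entryNorm e g :=
  (norm_sum_le _ _).trans (Finset.sum_le_sum fun i _ =>
    Finset.single_le_sum (f := fun j => ‖e i j g‖) (fun _ _ => norm_nonneg _) (mem_univ i))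

theorem sum_mul_norm_le (e : Fin q → Fin q → G → ℂ) (g h : G) (i j : Fin q) :
    ∑ k, ‖e i k g * e k j h‖ ≤ entryNorm e g * entryNorm e h := by
  calc ∑ k, ‖e i k g * e k j h‖ ≤ ∑ k, ‖e i k g‖ * entryNorm e h :=
        Finset.sum_le_sum fun k _ => by
          rw [norm_mul]
          exact mul_le_mul_of_nonneg_left (norm_le_entryNorm e h k j) (norm_nonneg _)
    _ ≤ _ := by
        rw [← Finset.sum_mul]
        exact mul_le_mul_of_nonneg_right
          (Finset.single_le_sum (f := fun i => ∑ j, ‖e i j g‖)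
            (fun _ _ => Finset.sum_nonneg fun _ _ => norm_nonneg _) (mem_univ i))
          (entryNorm_nonneg e h)

theorem exists_int_pairing.{w} {G : Type*} [Group G] {q : ℕ} {e : Fin q → Fin q → G → ℂ}
    (he : IsL1Idempotent e) {u : G → ℂ} {U : ℝ} (hu : IsTestable.{w} u U)
    (hU : ∀ g, ‖u g‖ ≤ U) :
    ∃ z : ℤ, ∑' g, (∑ i, e i i g) * u g = z := by
  classical
  obtain ⟨hsum, hidem⟩ := he
  set N := entryNorm e with hN
  have hNsum : Summable N := summable_sum fun i _ => summable_sum fun j _ => hsum i j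
  have hN0 := entryNorm_nonneg e
  set Sig := ∑' g, N g with hSig
  have hSig0 : 0 ≤ Sig := tsum_nonneg hN0
  have hU0 : 0 ≤ U := (norm_nonneg _).trans (hU 1)
  set v := ∑' g, (∑ i, e i i g) * u g with hv
  have hvsum : Summable fun g => (∑ i, e i i g) * u g := by
    refine Summable.of_norm_bounded (hNsum.mul_right U) fun g => ?_
    rw [norm_mul]
    exact mul_le_mul (norm_trace_le e g) (hU g) (norm_nonneg _) (hN0 g)
  suffices key : ∀ δ : ℝ, 0 < δ →
      14 * ((q : ℝ) ^ 2 * (2 * δ * Sig + δ)) ≤ 1 →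
      2 * ((q : ℝ) ^ 2 * (2 * δ * Sig + δ)) * (3 + 2 * Sig) ≤ 1 →
      ∃ z : ℤ, ‖v - z‖ ≤ q * U * (2 * ((q : ℝ) ^ 2 * (2 * δ * Sig + δ)) * (3 + 2 * Sig)) +
        δ * Sig + δ * U by
    set A := (q : ℝ) ^ 2 * (2 * Sig + 1) with hA
    have hA0 : 0 ≤ A := by positivity
    set C := q * U * (2 * A * (3 + 2 * Sig)) + Sig + U with hC
    have hC0 : 0 ≤ C := by positivity
    have hsmall : ∀ ε : ℝ, 0 < ε → ∃ z : ℤ, ‖v - z‖ ≤ ε := by
      intro ε hε
      set δ := min (ε / (C + 1)) (1 / (14 * A + 2 * A * (3 + 2 * Sig) + 1)) with hδ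
      have hd0 : 0 < δ := lt_min (by positivity) (by positivity)
      have hd1 : δ * (14 * A + 2 * A * (3 + 2 * Sig) + 1) ≤ 1 :=
        (le_div_iff₀ (by positivity)).1 (min_le_right _ _)
      have hd2 : δ * (C + 1) ≤ ε := (le_div_iff₀ (by positivity)).1 (min_le_left _ _)
      have e1 : (q : ℝ) ^ 2 * (2 * δ * Sig + δ) = δ * A := by rw [hA]; ring
      obtain ⟨z, hz⟩ := key δ hd0 (by rw [e1]; nlinarith [mul_nonneg hd0.le hA0])
        (by rw [e1]; nlinarith [mul_nonneg hd0.le hA0])
      refine ⟨z, hz.trans ?_⟩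
      rw [e1]
      refine le_trans ?_ hd2
      rw [hC]
      nlinarith [hd0.le]
    obtain ⟨z, hz⟩ := hsmall (1 / 4) (by norm_num)
    refine ⟨z, ?_⟩
    by_contra hne
    have hpos : 0 < ‖v - z‖ := norm_pos_iff.2 (sub_ne_zero.2 hne)
    obtain ⟨z', hz'⟩ := hsmall (‖v - z‖ / 2) (by positivity)
    have hzz : ‖((z : ℂ) - z')‖ < 1 := by
      have := norm_sub_le_norm_sub_add_norm_sub (z : ℂ) v z'
      rw [norm_sub_rev (z : ℂ) v] at this
      linarith
    have : z = z' := by
      rw [← Int.cast_sub, Complex.norm_intCast] at hzz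
      have h1 : |z - z'| < 1 := by exact_mod_cast hzz
      rw [Int.abs_lt_one_iff] at h1
      omega
    subst this
    linarith
  intro δ hδ h14 h2
  obtain ⟨S, hS⟩ : ∃ S : Finset G, ∀ T : Finset G, Disjoint T S → ∑ g ∈ T, N g ≤ δ := by
    obtain ⟨S, hS⟩ := hNsum.vanishing (Metric.ball_mem_nhds (0 : ℝ) hδ)
    refine ⟨S, fun T hT => ?_⟩
    have := hS T hT
    rw [Metric.mem_ball, dist_zero_right, Real.norm_eq_abs] at this
    exact ((le_abs_self _).trans this.le)
  let Nb : G → ℝ := fun g => if g ∈ S then 0 else N g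
  have hNb0 : ∀ g, 0 ≤ Nb g := fun g => by
    by_cases h : g ∈ S <;> simp [Nb, h] <;> exact hN0 g
  have hNbsum : Summable Nb := Summable.of_nonneg_of_le hNb0 (fun g => by
    by_cases h : g ∈ S <;> simp [Nb, h] <;> exact hN0 g) hNsum
  have hNbT : ∀ T : Finset G, ∑ g ∈ T, Nb g ≤ δ := by
    intro T
    have e : ∑ g ∈ T, Nb g = ∑ g ∈ T.filter (fun g => g ∉ S), N g := by
      rw [Finset.sum_filter]
      exact Finset.sum_congr rfl fun g _ => by by_cases h : g ∈ S <;> simp [Nb, h]
    rw [e]
    exact hS _ (Finset.disjoint_left.2 fun g hg => (Finset.mem_filter.1 hg).2)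
  obtain ⟨F, _, _, π, f, hf, hclass, hcyc, hfU, hfu⟩ := hu S δ hδ
  let π' : G → F := fun g => if h : g ∈ Subgroup.closure (S : Set G) then π ⟨g, h⟩ else 1
  have hmemS : ∀ g ∈ S, g ∈ Subgroup.closure (S : Set G) := fun g hg => Subgroup.subset_closure hg
  have hπmul : ∀ g ∈ S, ∀ h ∈ S, π' (g * h) = π' g * π' h := by
    intro g hg h hh
    simp only [π', dif_pos (hmemS g hg), dif_pos (hmemS h hh),
      dif_pos (mul_mem (hmemS g hg) (hmemS h hh))]
    exact map_mul π ⟨g, hmemS g hg⟩ ⟨h, hmemS h hh⟩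
  let b : Fin q → Fin q → F → ℂ := fun i j x => ∑ g ∈ S with π' g = x, e i j g
  have hB : ∑ i, ∑ j, ∑ x, ‖b i j x‖ ≤ Sig := by
    calc ∑ i, ∑ j, ∑ x, ‖b i j x‖ ≤ ∑ i, ∑ j, ∑ g ∈ S, ‖e i j g‖ := by
          refine Finset.sum_le_sum fun i _ => Finset.sum_le_sum fun j _ => ?_
          rw [← Finset.sum_fiberwise S π' fun g => ‖e i j g‖]
          exact Finset.sum_le_sum fun x _ => norm_sum_le _ _
      _ = ∑ g ∈ S, N g := by
          simp only [hN, entryNorm]
          rw [Finset.sum_comm (s := S)]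
          exact Finset.sum_congr rfl fun i _ => Finset.sum_comm
      _ ≤ Sig := hNsum.sum_le_tsum S fun g _ => hN0 g
  -- the defect of idempotency
  have hdef : ∀ i j, ∑ x, ‖(∑ k, ∑ y, b i k (x * y⁻¹) * b k j y) - b i j x‖ ≤ 2 * δ * Sig + δ := by
    intro i j
    let pairs : G → Finset (G × G) := fun t => (S ×ˢ S).filter fun p => p.1 * p.2 = t
    let T : Finset G := (S ×ˢ S).image (fun p => p.1 * p.2) ∪ S
    let D : G → ℂ := fun t =>
      (∑ p ∈ pairs t, ∑ k, e i k p.1 * e k j p.2) - if t ∈ S then e i j t else 0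
    have hconv : ∀ x, (∑ k, ∑ y, b i k (x * y⁻¹) * b k j y) - b i j x =
        ∑ t ∈ T with π' t = x, D t := by
      intro x
      rw [Finset.sum_sub_distrib]
      congr 1
      · have e1 : ∀ k, ∑ y, b i k (x * y⁻¹) * b k j y =
            ∑ p ∈ (S ×ˢ S) with π' (p.1 * p.2) = x, e i k p.1 * e k j p.2 := by
          intro k
          simp only [b, Finset.mul_sum]
          rw [Finset.sum_filter, Finset.sum_product_right]
          rw [← Finset.sum_fiberwise S π' fun h => ∑ g ∈ S,
            if π' (g * h) = x then e i k g * e k j h else 0]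
          refine Finset.sum_congr rfl fun y _ => Finset.sum_congr rfl fun h hh => ?_
          rw [Finset.sum_mul, Finset.sum_filter]
          refine Finset.sum_congr rfl fun g hg => ?_
          rw [Finset.mem_filter] at hh
          simp only [hπmul g hg h hh.1, hh.2, eq_mul_inv_iff_mul_eq]
        simp only [e1]
        rw [Finset.sum_comm, Finset.sum_filter, Finset.sum_filter,
          ← Finset.sum_fiberwise_of_maps_to (t := T) (g := fun p : G × G => p.1 * p.2)
            (fun p hp => Finset.mem_union_left _ (Finset.mem_image_of_mem _ hp))]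
        refine Finset.sum_congr rfl fun t _ => ?_
        by_cases ht : π' t = x
        · rw [if_pos ht]
          refine Finset.sum_congr rfl fun p hp => ?_
          rw [Finset.mem_filter] at hp
          rw [if_pos (by rw [hp.2]; exact ht)]
        · rw [if_neg ht]
          refine Finset.sum_eq_zero fun p hp => ?_
          rw [Finset.mem_filter] at hp
          rw [if_neg (by rw [hp.2]; exact ht)]
      · simp only [b]
        rw [← Finset.sum_filter, Finset.filter_filter]
        refine Finset.sum_congr ?_ fun _ _ => rfl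
        ext t
        simp only [Finset.mem_filter]
        exact ⟨fun h => ⟨Finset.mem_union_right _ h.1, h.2, h.1⟩, fun h => ⟨h.2.2, h.2.1⟩⟩
    have hsum_t : ∀ t, Summable fun g => N g * Nb (g⁻¹ * t) := fun t =>
      Summable.of_nonneg_of_le (fun g => mul_nonneg (hN0 g) (hNb0 _))
        (fun g => mul_le_mul_of_nonneg_left (hNbsum.le_tsum (g⁻¹ * t) fun h _ => hNb0 h) (hN0 g))
        (hNsum.mul_right _)
    have hsum_t' : ∀ t, Summable fun g => Nb g * N (g⁻¹ * t) := fun t =>
      Summable.of_nonneg_of_le (fun g => mul_nonneg (hNb0 g) (hN0 _))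
        (fun g => mul_le_mul_of_nonneg_left (hNsum.le_tsum (g⁻¹ * t) fun h _ => hN0 h) (hNb0 g))
        (hNbsum.mul_right _)
    have hDt : ∀ t, ‖D t‖ ≤ (∑' g, (Nb g * N (g⁻¹ * t) + N g * Nb (g⁻¹ * t))) + Nb t := by
      intro t
      let c : G → ℂ := fun g => ∑ k, e i k g * e k j (g⁻¹ * t)
      have hck : ∀ k, Summable fun g => e i k g * e k j (g⁻¹ * t) := fun k =>
        Summable.of_norm_bounded (hNsum.mul_right Sig) fun g => by
          rw [norm_mul]
          exact mul_le_mul (norm_le_entryNorm e g i k) ((norm_le_entryNorm e _ k j).trans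
            (hNsum.le_tsum _ fun h _ => hN0 h)) (norm_nonneg _) (hN0 g)
      have hc : Summable c := summable_sum fun k _ => hck k
      have he' : e i j t = ∑' g, c g := by
        rw [← hidem i j t]
        exact (Summable.tsum_finsetSum fun k _ => hck k).symm
      let K : Finset G := S.filter fun g => g⁻¹ * t ∈ S
      have hpairs : ∑ p ∈ pairs t, ∑ k, e i k p.1 * e k j p.2 = ∑ g ∈ K, c g := by
        refine Finset.sum_nbij' (fun p => p.1) (fun g => (g, g⁻¹ * t)) ?_ ?_ ?_ ?_ ?_
        · rintro ⟨g, h⟩ hp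
          simp only [pairs, Finset.mem_filter, Finset.mem_product] at hp
          simp [K, ← hp.2, hp.1.1, hp.1.2]
        · intro g hg
          simp only [K, Finset.mem_filter] at hg
          simp [pairs, hg.1, hg.2]
        · rintro ⟨g, h⟩ hp
          simp only [pairs, Finset.mem_filter] at hp
          simp [← hp.2]
        · intro g _
          rfl
        · rintro ⟨g, h⟩ hp
          simp only [pairs, Finset.mem_filter] at hp
          simp [c, ← hp.2]
      let c' : G → ℂ := fun g => if g ∈ K then 0 else c g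
      have hc' : Summable c' := by
        refine Summable.of_norm_bounded hc.norm fun g => ?_
        by_cases h : g ∈ K <;> simp [c', h]
      have hsplit : ∑' g, c g = (∑ g ∈ K, c g) + ∑' g, c' g := by
        have h1 : Summable fun g => if g ∈ K then c g else 0 :=
          summable_of_ne_finset_zero (s := K) fun g hg => by simp [hg]
        have h2 : c = fun g => (if g ∈ K then c g else 0) + c' g := by
          funext g
          by_cases h : g ∈ K <;> simp [c', h]
        conv_lhs => rw [h2]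
        rw [h1.tsum_add hc', tsum_eq_sum (s := K) fun g hg => by simp [hg]]
        congr 1
        exact Finset.sum_congr rfl fun g hg => by simp [hg]
      have hbound : ‖∑' g, c' g‖ ≤ ∑' g, (Nb g * N (g⁻¹ * t) + N g * Nb (g⁻¹ * t)) := by
        refine (norm_tsum_le_tsum_norm hc'.norm).trans
          (hc'.norm.tsum_le_tsum (fun g => ?_) ((hsum_t' t).add (hsum_t t)))
        by_cases h : g ∈ K
        · simp only [c', if_pos h, norm_zero]
          exact add_nonneg (mul_nonneg (hNb0 _) (hN0 _)) (mul_nonneg (hN0 _) (hNb0 _))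
        · have hcg : ‖c g‖ ≤ N g * N (g⁻¹ * t) :=
            (norm_sum_le _ _).trans (sum_mul_norm_le e g _ i j)
          simp only [c', if_neg h]
          refine hcg.trans ?_
          simp only [K, Finset.mem_filter, not_and] at h
          by_cases hg : g ∈ S
          · simp [Nb, hg, h hg]
          · simp only [Nb, if_neg hg]
            exact le_add_of_nonneg_right (mul_nonneg (hN0 _) (hNb0 _))
      simp only [D, hpairs]
      by_cases ht : t ∈ S
      · rw [if_pos ht, he', hsplit, sub_add_cancel_left, norm_neg]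
        exact hbound.trans (le_add_of_nonneg_right (hNb0 t))
      · rw [if_neg ht, sub_zero]
        have h3 : ∑ g ∈ K, c g = e i j t - ∑' g, c' g := by rw [he', hsplit]; ring
        rw [h3]
        refine (norm_sub_le _ _).trans ?_
        rw [add_comm]
        exact add_le_add hbound (by simpa [Nb, ht] using norm_le_entryNorm e t i j)
    calc ∑ x, ‖(∑ k, ∑ y, b i k (x * y⁻¹) * b k j y) - b i j x‖
        ≤ ∑ t ∈ T, ‖D t‖ := by
          simp only [hconv]
          rw [← Finset.sum_fiberwise T π' fun t => ‖D t‖]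
          exact Finset.sum_le_sum fun x _ => norm_sum_le _ _
      _ ≤ ∑ t ∈ T, ((∑' g, (Nb g * N (g⁻¹ * t) + N g * Nb (g⁻¹ * t))) + Nb t) :=
          Finset.sum_le_sum fun t _ => hDt t
      _ ≤ 2 * δ * Sig + δ := by
          rw [Finset.sum_add_distrib, ← Summable.tsum_finsetSum
            (fun t _ => (hsum_t' t).add (hsum_t t))]
          refine add_le_add ?_ (hNbT T)
          have hshift : ∀ (w : G → ℝ) (g : G), ∑ t ∈ T, w (g⁻¹ * t) =
              ∑ h ∈ T.image (fun t => g⁻¹ * t), w h := fun w g =>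
            (Finset.sum_image (f := w) fun a _ a' _ h => mul_left_cancel h).symm
          have hle : ∀ g, ∑ t ∈ T, (Nb g * N (g⁻¹ * t) + N g * Nb (g⁻¹ * t)) ≤
              Nb g * Sig + N g * δ := by
            intro g
            rw [Finset.sum_add_distrib, ← Finset.mul_sum, ← Finset.mul_sum, hshift N, hshift Nb]
            exact add_le_add
              (mul_le_mul_of_nonneg_left (hNsum.sum_le_tsum _ fun h _ => hN0 h) (hNb0 g))
              (mul_le_mul_of_nonneg_left (hNbT _) (hN0 g))
          have hs1 : Summable fun g => ∑ t ∈ T, (Nb g * N (g⁻¹ * t) + N g * Nb (g⁻¹ * t)) :=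
            summable_sum fun t _ => (hsum_t' t).add (hsum_t t)
          refine (hs1.tsum_le_tsum hle ((hNbsum.mul_right Sig).add (hNsum.mul_right δ))).trans ?_
          rw [(hNbsum.mul_right Sig).tsum_add (hNsum.mul_right δ), tsum_mul_right, tsum_mul_right,
            ← hSig]
          have h4 : ∑' g, Nb g ≤ δ := hNbsum.tsum_le_of_sum_le hNbT
          nlinarith
  have hε : ∑ i, ∑ j, ∑ x, ‖(∑ k, ∑ y, b i k (x * y⁻¹) * b k j y) - b i j x‖ ≤
      (q : ℝ) ^ 2 * (2 * δ * Sig + δ) := by
    refine (Finset.sum_le_sum fun i _ => Finset.sum_le_sum fun j _ => hdef i j).trans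
      (le_of_eq ?_)
    simp [pow_two, mul_assoc]
    ring
  obtain ⟨z, hz⟩ := exists_int_near b hf hclass hcyc hfU hB hε h14 h2
  refine ⟨z, ?_⟩
  have hb : ∑ i, ∑ x, b i i x * f x = ∑ g ∈ S, (∑ i, e i i g) * f (π' g) := by
    simp only [b, Finset.sum_mul]
    rw [Finset.sum_comm (s := S)]
    refine Finset.sum_congr rfl fun i _ => ?_
    rw [← Finset.sum_fiberwise S π' fun g => e i i g * f (π' g)]
    refine Finset.sum_congr rfl fun x _ => Finset.sum_congr rfl fun g hg => ?_
    rw [(Finset.mem_filter.1 hg).2]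
  have hclose : ‖v - ∑ i, ∑ x, b i i x * f x‖ ≤ δ * Sig + δ * U := by
    let w : G → ℂ := fun g => (∑ i, e i i g) * if g ∈ S then f (π' g) else 0
    have hw : ∑ i, ∑ x, b i i x * f x = ∑' g, w g := by
      rw [hb, tsum_eq_sum (s := S) fun g hg => by simp [w, hg]]
      exact Finset.sum_congr rfl fun g hg => by simp [w, hg]
    have hwsum : Summable w := summable_of_ne_finset_zero (s := S) fun g hg => by simp [w, hg]
    rw [hw, hv, ← hvsum.tsum_sub hwsum]
    have hpt : ∀ g, ‖(∑ i, e i i g) * u g - w g‖ ≤ N g * δ + Nb g * U := by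
      intro g
      by_cases hg : g ∈ S
      · simp only [w, if_pos hg, ← mul_sub, norm_mul]
        refine le_add_of_le_of_nonneg (mul_le_mul (norm_trace_le e g) ?_ (norm_nonneg _) (hN0 g))
          (mul_nonneg (hNb0 g) hU0)
        rw [norm_sub_rev]
        simp only [π', dif_pos (hmemS g hg)]
        exact hfu ⟨g, hmemS g hg⟩ hg
      · simp only [w, if_neg hg, mul_zero, sub_zero, norm_mul, Nb]
        refine le_add_of_nonneg_of_le (mul_nonneg (hN0 g) hδ.le) ?_
        exact mul_le_mul (norm_trace_le e g) (hU g) (norm_nonneg _) (hN0 g)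
    have hs : Summable fun g => ‖(∑ i, e i i g) * u g - w g‖ := (hvsum.sub hwsum).norm
    refine (norm_tsum_le_tsum_norm hs).trans ((hs.tsum_le_tsum hpt
      ((hNsum.mul_right δ).add (hNbsum.mul_right U))).trans ?_)
    rw [(hNsum.mul_right δ).tsum_add (hNbsum.mul_right U), tsum_mul_right, tsum_mul_right, ← hSig]
    have h4 : ∑' g, Nb g ≤ δ := hNbsum.tsum_le_of_sum_le hNbT
    nlinarith
  calc ‖v - z‖ ≤ ‖v - ∑ i, ∑ x, b i i x * f x‖ + ‖(∑ i, ∑ x, b i i x * f x) - z‖ :=
        norm_sub_le_norm_sub_add_norm_sub _ _ _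
    _ ≤ _ := by linarith

end Vale.P184
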