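import Vale.Agent.P184.Rep

/-!
P184 [helper1]: lifting of representations of groups of order prime to `p`.
-/

namespace Vale.P184

open Polynomial Cardinal

/-- Divisibility by a power of a central element passes to products on the left. -/
lemma dvd_mul_of_central {R : Type*} [Monoid R] {c x : R} (hc : ∀ y, Commute c y) (m : ℕ)
    (h : c ^ m ∣ x) (y : R) : c ^ m ∣ y * x := by
  obtain ⟨z, rfl⟩ := h
  exact ⟨y * z, by rw [← mul_assoc, ← ((hc y).pow_left m).eq, mul_assoc]⟩

lemma dvd_mul_mul_of_central {R : Type*} [Monoid R] {c x y : R} (hc : ∀ y, Commute c y)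
    (a b : ℕ) (hx : c ^ a ∣ x) (hy : c ^ b ∣ y) : c ^ (a + b) ∣ x * y := by
  obtain ⟨u, rfl⟩ := hx
  obtain ⟨v, rfl⟩ := hy
  refine ⟨u * v, ?_⟩
  rw [pow_add, mul_assoc (c ^ a) u, ← mul_assoc u, ← ((hc u).pow_left b).eq]
  simp only [mul_assoc]

/-- One step of lifting a homomorphism along the powers of a central element. -/
lemma lift_step {R H : Type*} [Ring R] [Group H] [Fintype H] (c u : R) (hc : ∀ y, Commute c y)
    (hcu : ∀ y, Commute u y) (hu : u * (Fintype.card H : R) = 1) {m : ℕ} (hm : 1 ≤ m)
    (f : H → R) (h1 : c ∣ f 1 - 1) (hf : ∀ g h, c ^ m ∣ f g * f h - f (g * h)) :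
    ∃ f' : H → R, (∀ g, c ^ m ∣ f' g - f g) ∧
      ∀ g h, c ^ (m + 1) ∣ f' g * f' h - f' (g * h) := by
  set d : H → H → R := fun g h => f g * f h - f (g * h) with hd
  set U : H → R := fun g => ∑ k, d g k * f k⁻¹ with hUdef
  have hU : ∀ g, c ^ m ∣ U g := fun g => Finset.dvd_sum fun k _ => (hf g k).mul_right _
  have hle : m + 1 ≤ m + m := by omega
  refine ⟨fun g => f g - u * U g, fun g => ?_, fun g h => ?_⟩
  · rw [show f g - u * U g - f g = -(u * U g) by abel]
    exact dvd_neg.2 (dvd_mul_of_central hc m (hU g) u)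
  have key : c ^ (m + 1) ∣
      f g * U h - U (g * h) + U g * f h - (Fintype.card H : R) * d g h := by
    have hcard : (Fintype.card H : R) * d g h = ∑ _k : H, d g h := by simp
    have hre : U g * f h = ∑ k, d g (h * k) * f (h * k)⁻¹ * f h := by
      rw [hUdef]
      simp only [Finset.sum_mul]
      exact (Fintype.sum_equiv (Equiv.mulLeft h) _ (fun k => d g k * f k⁻¹ * f h) fun k => rfl).symm
    rw [hcard, hre, hUdef]
    simp only [Finset.mul_sum, ← Finset.sum_sub_distrib, ← Finset.sum_add_distrib]
    refine Finset.dvd_sum fun k _ => ?_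
    have coc : f g * d h k - d (g * h) k + d g (h * k) - d g h * f k = 0 := by
      simp only [hd, mul_assoc g h k]
      noncomm_ring
    have e1 : c ^ (m + 1) ∣ d g h * (f k * f k⁻¹ - 1) := by
      refine dvd_mul_mul_of_central hc m 1 (hf g h) ?_
      rw [pow_one, show f k * f k⁻¹ - 1 = d k k⁻¹ + (f 1 - 1) by simp [hd]]
      exact dvd_add ((dvd_pow_self c (by omega)).trans (hf k k⁻¹)) h1
    have e2 : c ^ (m + 1) ∣ d g (h * k) * (f (h * k)⁻¹ * f h - f k⁻¹) := by
      have := dvd_mul_mul_of_central hc m m (hf g (h * k)) (hf (h * k)⁻¹ h)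
      rw [show (h * k)⁻¹ * h = k⁻¹ by group] at this
      exact (pow_dvd_pow c hle).trans this
    have eq : f g * (d h k * f k⁻¹) - d (g * h) k * f k⁻¹
        + d g (h * k) * f (h * k)⁻¹ * f h - d g h
        = (f g * d h k - d (g * h) k + d g (h * k) - d g h * f k) * f k⁻¹
          + d g h * (f k * f k⁻¹ - 1) + d g (h * k) * (f (h * k)⁻¹ * f h - f k⁻¹) := by
      noncomm_ring
    rw [eq, coc, zero_mul, zero_add]
    exact dvd_add e1 e2
  have e3 : f g * (u * U h) = u * (f g * U h) := by
    rw [← mul_assoc, ← (hcu (f g)).eq, mul_assoc]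
  have e : (f g - u * U g) * (f h - u * U h) - (f (g * h) - u * U (g * h))
      = (u * U g) * (u * U h)
        - u * (f g * U h - U (g * h) + U g * f h - (Fintype.card H : R) * d g h) := by
    have e4 : u * ((Fintype.card H : R) * d g h) = d g h := by rw [← mul_assoc, hu, one_mul]
    calc (f g - u * U g) * (f h - u * U h) - (f (g * h) - u * U (g * h))
        = d g h - f g * (u * U h) - u * (U g * f h) + (u * U g) * (u * U h)
            + u * U (g * h) := by simp only [hd]; noncomm_ring
      _ = (u * U g) * (u * U h) - u * (f g * U h - U (g * h) + U g * f h)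
            + u * ((Fintype.card H : R) * d g h) := by rw [e4, e3]; noncomm_ring
      _ = _ := by noncomm_ring
  rw [e]
  exact dvd_sub ((pow_dvd_pow c hle).trans
    (dvd_mul_mul_of_central hc m m (dvd_mul_of_central hc m (hU g) u)
      (dvd_mul_of_central hc m (hU h) u))) (dvd_mul_of_central hc (m + 1) key u)

section Witt

variable (p : ℕ) [Fact p.Prime]

local instance : CharP (AlgebraicClosure (ZMod p)) p :=
  charP_of_injective_algebraMap (algebraMap (ZMod p) (AlgebraicClosure (ZMod p))).injective p

lemma exists_witt_embedding :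
    ∃ ι : WittVector p (AlgebraicClosure (ZMod p)) →+* ℂ, Function.Injective ι := by
  set k := AlgebraicClosure (ZMod p)
  set W := WittVector p k
  set L := AlgebraicClosure (FractionRing W)
  have hk : #k = ℵ₀ := le_antisymm
    ((Algebra.IsAlgebraic.cardinalMk_le_max (ZMod p) k).trans
      (max_le (lt_aleph0_of_finite _).le le_rfl)) (aleph0_le_mk k)
  have hW : #W = continuum := by
    have e : W ≃ (ℕ → k) := ⟨fun x => x.coeff, fun f => WittVector.mk p f, fun x => rfl, fun f => rfl⟩
    rw [e.cardinal_eq, mk_arrow, mk_nat, hk]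
    simp
  have hWL : Function.Injective
      ((algebraMap (FractionRing W) L).comp (algebraMap W (FractionRing W))) :=
    (algebraMap (FractionRing W) L).injective.comp (IsFractionRing.injective W (FractionRing W))
  have hL : #L = continuum := by
    refine le_antisymm ((Algebra.IsAlgebraic.cardinalMk_le_max (FractionRing W) L).trans ?_)
      (hW ▸ mk_le_of_injective hWL)
    rw [IsFractionRing.cardinalMk W (FractionRing W), hW]
    exact max_le le_rfl aleph0_le_continuum
  have : CharZero W := by
    obtain ⟨q, hq⟩ := CharP.exists W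
    rcases CharP.char_is_prime_or_zero W q with hprime | rfl
    · exfalso
      have h0 : (q : k) = 0 := by
        rw [← map_natCast (WittVector.constantCoeff (p := p) (R := k)) q, CharP.cast_eq_zero W q,
          map_zero]
      have hqp : q = p := ((Nat.prime_dvd_prime_iff_eq (Fact.out : p.Prime) hprime).1
        ((CharP.cast_eq_zero_iff k p q).1 h0)).symm
      subst hqp
      exact WittVector.p_nonzero q k (CharP.cast_eq_zero W q)
    · exact CharP.charP_to_charZero W
  have : CharZero L := charZero_of_injective_ringHom hWL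
  obtain ⟨e⟩ := IsAlgClosed.ringEquiv_of_equiv_of_charZero (K := L) (L := ℂ)
    (by rw [hL]; exact aleph0_lt_continuum) (Cardinal.eq.1 (by rw [hL, mk_complex]))
  exact ⟨e.toRingHom.comp _, e.injective.comp hWL⟩

lemma natCast_pow_dvd_matrix_iff {W ι : Type*} [CommRing W] [Fintype ι] [DecidableEq ι]
    (q m : ℕ) (X : Matrix ι ι W) :
    (q : Matrix ι ι W) ^ m ∣ X ↔ ∀ i j, (q : W) ^ m ∣ X i j := by
  rw [← Nat.cast_pow]
  constructor
  · rintro ⟨C, rfl⟩ i j
    exact ⟨C i j, by rw [← nsmul_eq_mul, Matrix.smul_apply, nsmul_eq_mul, Nat.cast_pow]⟩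
  · intro h
    choose C hC using h
    refine ⟨Matrix.of C, Matrix.ext fun i j => ?_⟩
    rw [← nsmul_eq_mul, Matrix.smul_apply, nsmul_eq_mul, Nat.cast_pow, Matrix.of_apply, hC]

lemma exists_rep_lift {H : Type*} [Group H] [Fintype H] (hp : ¬ p ∣ Fintype.card H) {n : ℕ}
    (ρ : H →* Matrix (Fin n) (Fin n) (AlgebraicClosure (ZMod p))) :
    ∃ f : H →* Matrix (Fin n) (Fin n) (WittVector p (AlgebraicClosure (ZMod p))),
      ∀ h, (f h).map WittVector.constantCoeff = ρ h := by
  set k := AlgebraicClosure (ZMod p)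
  set R := Matrix (Fin n) (Fin n) (WittVector p k)
  set π : R →+* Matrix (Fin n) (Fin n) k := WittVector.constantCoeff.mapMatrix with hπ
  set c : R := (p : R) with hcdef
  have hc : ∀ y : R, Commute c y := fun y => Nat.cast_commute p y
  have hker : ∀ X : R, c ∣ X ↔ π X = 0 := by
    intro X
    have h := natCast_pow_dvd_matrix_iff p 1 X
    rw [pow_one] at h
    rw [hcdef, h, ← Matrix.ext_iff]
    refine forall₂_congr fun i j => ?_
    rw [pow_one, ← Ideal.mem_span_singleton, ← WittVector.ker_constantCoeff, RingHom.mem_ker]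
    rfl
  have hunit : ∀ x : WittVector p k, WittVector.constantCoeff x ≠ 0 → IsUnit x := fun x hx =>
    WittVector.isUnit_of_coeff_zero_ne_zero x hx
  have hcard : (Fintype.card H : k) ≠ 0 := fun h => hp ((CharP.cast_eq_zero_iff k p _).1 h)
  obtain ⟨w, hw⟩ := (hunit (Fintype.card H : WittVector p k) (by rw [map_natCast]; exact hcard)).exists_left_inv
  set u : R := Matrix.scalar (Fin n) w with hu
  have hcu : ∀ y : R, Commute u y := fun y => Matrix.scalar_commute w (fun r => Commute.all w r) y
  have hu1 : u * (Fintype.card H : R) = 1 := by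
    rw [hu, ← map_natCast (Matrix.scalar (Fin n) : WittVector p k →+* R), ← map_mul, hw, map_one]
  let f₀ : H → R := fun g => (ρ g).map (WittVector.teichmuller p)
  have hf₀ : ∀ g, π (f₀ g) = ρ g := by
    intro g
    ext i j
    exact WittVector.teichmuller_coeff_zero p _
  let S := fun m : ℕ => {f : H → R // (∀ g, π (f g) = ρ g) ∧
      ∀ g h, c ^ (m + 1) ∣ f g * f h - f (g * h)}
  let s₀ : S 0 := ⟨f₀, hf₀, fun g h => by
    rw [zero_add, pow_one, hker]
    simp [map_sub, map_mul, hf₀]⟩
  have step : ∀ m, ∀ f : S m, ∃ f' : S (m + 1), ∀ g, c ^ (m + 1) ∣ f'.1 g - f.1 g := by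
    intro m f
    obtain ⟨f', h1, h2⟩ := lift_step c u hc hcu hu1 (Nat.le_add_left 1 m) f.1
      ((hker _).2 (by simp [map_sub, f.2.1])) f.2.2
    refine ⟨⟨f', fun g => ?_, h2⟩, h1⟩
    have := (hker _).1 ((dvd_pow_self c (Nat.succ_ne_zero m)).trans (h1 g))
    rw [map_sub, f.2.1, sub_eq_zero] at this
    exact this
  choose next hnext using step
  let F : ∀ m, S m := fun m => Nat.rec s₀ next m
  have hF : ∀ m j g, c ^ (m + 1) ∣ (F (m + j)).1 g - (F m).1 g := by
    intro m j g
    induction j with
    | zero => simp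
    | succ j ih =>
      have h := (pow_dvd_pow c (by omega : m + 1 ≤ m + j + 1)).trans (hnext (m + j) (F (m + j)) g)
      rw [show (F (m + (j + 1))).1 g - (F m).1 g
        = ((next (m + j) (F (m + j))).1 g - (F (m + j)).1 g) + ((F (m + j)).1 g - (F m).1 g) by
          rw [sub_add_sub_cancel]; rfl]
      exact dvd_add h ih
  set I := Ideal.span {(p : WittVector p k)} with hI
  have hmod : ∀ (m : ℕ) (x y : WittVector p k),
      x ≡ y [SMOD (I ^ m • ⊤ : Submodule (WittVector p k) (WittVector p k))] ↔
        (p : WittVector p k) ^ m ∣ x - y := by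
    intro m x y
    rw [SModEq.sub_mem, smul_eq_mul, Ideal.mul_top, hI, Ideal.span_singleton_pow,
      Ideal.mem_span_singleton]
  have hlim : ∀ g (i j : Fin n), ∃ L : WittVector p k, ∀ m,
      (p : WittVector p k) ^ m ∣ (F m).1 g i j - L := by
    intro g i j
    obtain ⟨L, hL⟩ := IsPrecomplete.prec (I := I) inferInstance
      (f := fun m => (F m).1 g i j) (fun {a b} hab => by
        obtain ⟨t, rfl⟩ := Nat.exists_eq_add_of_le hab
        rw [SModEq.comm, hmod]
        exact ((natCast_pow_dvd_matrix_iff p a _).1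
          ((pow_dvd_pow c (Nat.le_succ a)).trans (hF a t g))) i j)
    exact ⟨L, fun m => (hmod m _ _).1 (hL m)⟩
  choose L hL using hlim
  let f : H → R := fun g => Matrix.of (L g)
  have hf : ∀ m g, c ^ m ∣ f g - (F m).1 g := fun m g =>
    (natCast_pow_dvd_matrix_iff p m _).2 fun i j => (dvd_sub_comm).1 (hL g i j m)
  have hfρ : ∀ g, π (f g) = ρ g := by
    intro g
    have h := hf 1 g
    rw [pow_one, hker, map_sub, (F 1).2.1, sub_eq_zero] at h
    exact h
  have hmul : ∀ g h, f g * f h = f (g * h) := by
    intro g h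
    have key : ∀ m, c ^ m ∣ f g * f h - f (g * h) := by
      intro m
      have e : f g * f h - f (g * h) = (f g - (F m).1 g) * f h
          + (F m).1 g * (f h - (F m).1 h) + ((F m).1 g * (F m).1 h - (F m).1 (g * h))
          - (f (g * h) - (F m).1 (g * h)) := by simp only [mul_sub, sub_mul]; abel
      rw [e]
      exact dvd_sub (dvd_add (dvd_add ((hf m g).mul_right _) (dvd_mul_of_central hc m (hf m h) _))
        ((pow_dvd_pow c (Nat.le_succ m)).trans ((F m).2.2 g h))) (hf m _)
    rw [← sub_eq_zero]
    refine Matrix.ext fun i j => ?_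
    refine IsHausdorff.haus (I := I) inferInstance _ fun m => ?_
    rw [hmod, sub_zero]
    exact (natCast_pow_dvd_matrix_iff p m _).1 (key m) i j
  have hone : f 1 = 1 := by
    have hdet : IsUnit (f 1).det := hunit _ (by
      rw [RingHom.map_det, ← hπ, hfρ, map_one, Matrix.det_one]; exact one_ne_zero)
    exact ((Matrix.isUnit_iff_isUnit_det _).2 hdet).mul_left_cancel (by rw [mul_one, hmul, one_mul])
  exact ⟨⟨⟨f, hone⟩, fun g h => (hmul g h).symm⟩, hfρ⟩

lemma exists_map_eq_of_forall_mem {α β : Type*} {ω : α → β} (m : Multiset β)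
    (h : ∀ z ∈ m, ∃ b, ω b = z) : ∃ s : Multiset α, s.map ω = m := by
  induction m using Multiset.induction_on with
  | empty => exact ⟨0, rfl⟩
  | cons z m ih =>
    obtain ⟨b, rfl⟩ := h z (Multiset.mem_cons_self z m)
    obtain ⟨s, hs⟩ := ih fun y hy => h y (Multiset.mem_cons_of_mem hy)
    exact ⟨b ::ₘ s, by rw [Multiset.map_cons, hs]⟩

/-- The characteristic polynomial of the lift of an element of finite order prime to `p` has the
Teichmüller lifts of the eigenvalues as roots. -/
lemma trace_lift {ι : WittVector p (AlgebraicClosure (ZMod p)) →+* ℂ} (hι : Function.Injective ι)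
    {n N : ℕ} (A : Matrix (Fin n) (Fin n) (WittVector p (AlgebraicClosure (ZMod p))))
    (hN : ¬ p ∣ N) (hA : A ^ N = 1) :
    (A.map ι).trace =
      ((A.map WittVector.constantCoeff).charpoly.roots.map
        fun b => ι (WittVector.teichmuller p b)).sum := by
  set ω : AlgebraicClosure (ZMod p) → ℂ := fun b => ι (WittVector.teichmuller p b) with hω
  have hN0 : 0 < N := Nat.pos_of_ne_zero fun h => hN (h ▸ dvd_zero p)
  have hAC : (A.map ι) ^ N = 1 := by
    rw [← RingHom.mapMatrix_apply, ← map_pow, hA, map_one]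
  have hroot : ∀ z ∈ (A.map ι).charpoly.roots, ∃ b : (AlgebraicClosure (ZMod p)), ω b = z := by
    intro z hz
    have hz' : z ∈ spectrum ℂ (A.map ι) :=
      Matrix.mem_spectrum_iff_isRoot_charpoly.2 (mem_roots'.1 hz).2
    have : Nonempty (Fin n) := by
      by_contra hne
      rw [not_nonempty_iff] at hne
      rw [Matrix.charpoly_isEmpty, roots_one] at hz
      exact Multiset.notMem_zero _ hz
    have hzN : z ^ N = 1 := by
      have := spectrum.pow_mem_pow (A.map ι) N hz'
      rwa [hAC, spectrum.one_eq, Set.mem_singleton_iff] at this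
    have : NeZero (N : (AlgebraicClosure (ZMod p))) := ⟨fun h => hN ((CharP.cast_eq_zero_iff (AlgebraicClosure (ZMod p)) p N).1 h)⟩
    obtain ⟨ζ, hζ⟩ := HasEnoughRootsOfUnity.exists_primitiveRoot (AlgebraicClosure (ZMod p)) N
    have hωinj : Function.Injective ω := hι.comp fun a b h => by
      simpa [WittVector.teichmuller_coeff_zero] using congrArg (fun x => x.coeff 0) h
    have hωζ : IsPrimitiveRoot (ω ζ) N :=
      hζ.map_of_injective (f := (ι : _ →* ℂ).comp (WittVector.teichmuller p)) hωinj
    have : NeZero N := ⟨hN0.ne'⟩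
    obtain ⟨i, -, hi⟩ := hωζ.eq_pow_of_pow_eq_one hzN
    exact ⟨ζ ^ i, by rw [hω] at hi ⊢; simpa using hi⟩
  obtain ⟨s, hs⟩ : ∃ s : Multiset (AlgebraicClosure (ZMod p)), s.map ω = (A.map ι).charpoly.roots :=
    exists_map_eq_of_forall_mem _ hroot
  set P : (WittVector p (AlgebraicClosure (ZMod p)))[X] := (s.map fun b => X - C (WittVector.teichmuller p b)).prod
  have hP : A.charpoly = P := by
    refine Polynomial.map_injective ι hι ?_
    rw [← Matrix.charpoly_map, Polynomial.map_multiset_prod, Multiset.map_map,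
      (IsAlgClosed.splits (A.map ι).charpoly).eq_prod_roots_of_monic (Matrix.charpoly_monic _),
      ← hs, Multiset.map_map]
    refine congrArg Multiset.prod (Multiset.map_congr rfl fun b _ => ?_)
    simp [hω]
  have hB : (A.map WittVector.constantCoeff).charpoly.roots = s := by
    rw [Matrix.charpoly_map, hP, Polynomial.map_multiset_prod, Multiset.map_map]
    have e : (fun b => Polynomial.map (WittVector.constantCoeff (p := p) (R := (AlgebraicClosure (ZMod p))))
        (X - C (WittVector.teichmuller p b))) = fun b => X - C b := by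
      funext b
      simp only [Polynomial.map_sub, map_X, map_C]
      exact congrArg (fun t => X - C t) (WittVector.teichmuller_coeff_zero p b)
    rw [show (Polynomial.map WittVector.constantCoeff ∘ fun b => X - C (WittVector.teichmuller p b))
      = fun b : (AlgebraicClosure (ZMod p)) => X - C b from e, roots_multiset_prod_X_sub_C]
  rw [Matrix.trace_eq_sum_roots_charpoly, ← hs, hB]

end Witt

/-- There is an injective multiplicative lift `ω` of the algebraic closure of `ZMod p` to `ℂ`
such that, for groups of order prime to `p`, the lifted sum of eigenvalues of a representation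
in characteristic `p` is the trace of a complex representation. -/
theorem exists_lift (p : ℕ) [Fact p.Prime] :
    ∃ ω : AlgebraicClosure (ZMod p) →* ℂ, Function.Injective ω ∧
      ∀ (H : Type*) [Group H] [Fintype H], ¬ p ∣ Fintype.card H →
        ∀ (n : ℕ) (ρ : H →* Matrix (Fin n) (Fin n) (AlgebraicClosure (ZMod p))),
          IsRepTrace (fun h => ((ρ h).charpoly.roots.map ω).sum) := by
  have : CharP (AlgebraicClosure (ZMod p)) p :=
    charP_of_injective_algebraMap (algebraMap (ZMod p) (AlgebraicClosure (ZMod p))).injective p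
  obtain ⟨ι, hι⟩ := exists_witt_embedding p
  refine ⟨(ι : _ →* ℂ).comp (WittVector.teichmuller p), hι.comp fun a b h => ?_, ?_⟩
  · simpa [WittVector.teichmuller_coeff_zero] using congrArg (fun x => x.coeff 0) h
  · intro H _ _ hp n ρ
    obtain ⟨f, hf⟩ := exists_rep_lift p hp ρ
    have h := IsRepTrace.of_hom
      (((ι.mapMatrix : _ →+* Matrix (Fin n) (Fin n) ℂ) : _ →* Matrix (Fin n) (Fin n) ℂ).comp f)
    refine Eq.mp (congrArg IsRepTrace (funext fun h => ?_)) h
    have := trace_lift p hι (f h) (N := orderOf h)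
      (fun hd => hp (hd.trans orderOf_dvd_card)) (by rw [← map_pow, pow_orderOf_eq_one, map_one])
    rw [hf] at this
    exact this

end Vale.P184
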