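import Vale.Agent.P184.Reduce
import Vale.Agent.P184.L1
import Vale.Agent.P184.Extract

/-!
P184: main theorem.
-/

namespace Vale.P184

open Matrix Polynomial

universe uG uK uQ

section

variable {G : Type uG} [Group G] {L : Type uK} [Field L] [IsAlgClosed L] {n : ℕ}

/-- Eigenvalues as units, with multiplicity. -/
noncomputable def eigUnits (ρ : G →* GL (Fin n) L) (g : G) : Multiset Lˣ :=
  (ρ g : Matrix (Fin n) (Fin n) L).charpoly.roots.pmap Units.mk0 fun _ hx => root_ne_zero (ρ g) hx

theorem card_eigUnits (ρ : G →* GL (Fin n) L) (g : G) : Multiset.card (eigUnits ρ g) = n := by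
  rw [eigUnits, Multiset.card_pmap, ← (IsAlgClosed.splits _).natDegree_eq_card_roots,
    charpoly_natDegree_eq_dim, Fintype.card_fin]

theorem map_val_eigUnits (ρ : G →* GL (Fin n) L) (g : G) :
    (eigUnits ρ g).map (fun u : Lˣ => (u : L)) = (ρ g : Matrix (Fin n) (Fin n) L).charpoly.roots := by
  simp [eigUnits, Multiset.map_pmap, Multiset.pmap_eq_map]

variable {Q : Type uQ} [Group Q] [Fintype Q] (ρ : G →* GL (Fin n) L) (ι : G →* Q)

theorem testable {ψ : Q → ℂ} (hψ : ψ ∈ VA Q) (hψclass : ∀ g x, ψ (g * x * g⁻¹) = ψ x)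
    (hψcyc : IsCyc (Fintype.card Q) ψ) {Mψ : ℝ} (hMψ : ∀ x, ‖ψ x‖ ≤ Mψ) {m : ℕ}
    (θ : Fin m → Lˣ →* Circle) :
    IsTestable.{max uK uQ} (fun g => charSum (eigUnits ρ) θ g * ψ (ι g))
      (((n : ℝ) + 1) ^ m * Mψ) := by
  intro S η hη
  obtain ⟨F, i1, i2, π, f, h1, h2, h3, h4, h5⟩ :=
    exists_finite_test ρ ι hψ hψclass hψcyc hMψ S θ hη
  refine ⟨F, i1, i2, π, f, h1, h2, h3, h4, fun g hg => ?_⟩
  have e : charSum (eigUnits ρ) θ (g : G) =
      ∏ a, ((ρ g : Matrix (Fin n) (Fin n) L).charpoly.roots.map (extZero (θ a))).sum := by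
    refine Finset.prod_congr rfl fun a _ => ?_
    rw [← map_val_eigUnits, Multiset.map_map]
    exact congrArg Multiset.sum (Multiset.map_congr rfl fun u _ => (extZero_coe (θ a) u).symm)
  simp only [e]
  exact h5 g hg

open Classical in
/-- The finite support statement for one test function on the finite quotient. -/
theorem exists_support_of_test {q : ℕ} {e : Fin q → Fin q → G → ℂ} (he : IsL1Idempotent e)
    {ψ : Q → ℂ} (hψ : ψ ∈ VA Q) (hψclass : ∀ g x, ψ (g * x * g⁻¹) = ψ x)
    (hψcyc : IsCyc (Fintype.card Q) ψ) {Mψ : ℝ} (hMψ : ∀ x, ‖ψ x‖ ≤ Mψ) :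
    ∃ U : Finset Lˣ, (∀ u ∈ U, IsOfFinOrder u) ∧ ∀ R₀ : Multiset Lˣ,
      (∑' g, if eigUnits ρ g = R₀ then (∑ i, e i i g) * ψ (ι g) else 0) ≠ 0 →
        ∀ u ∈ R₀, u ∈ U := by
  classical
  have hMψ0 : 0 ≤ Mψ := (norm_nonneg _).trans (hMψ 1)
  have hb : Summable fun g => ‖(∑ i, e i i g) * ψ (ι g)‖ := by
    have hN : Summable (entryNorm e) := summable_sum fun i _ => summable_sum fun j _ => he.1 i j
    refine Summable.of_nonneg_of_le (fun g => norm_nonneg _) (fun g => ?_) (hN.mul_right Mψ)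
    rw [norm_mul]
    exact mul_le_mul (norm_trace_le e g) (hMψ _) (norm_nonneg _) (entryNorm_nonneg e g)
  refine exists_finite_support hb (eigUnits ρ) (card_eigUnits ρ) fun m θ => ?_
  obtain ⟨z, hz⟩ := exists_int_pairing he (testable ρ ι hψ hψclass hψcyc hMψ θ) fun g => by
    rw [norm_mul]
    exact mul_le_mul (norm_charSum_le _ (fun g => (card_eigUnits ρ g).le) θ g) (hMψ _)
      (norm_nonneg _) (by positivity)
  refine ⟨z, ?_⟩
  rw [← hz]
  exact tsum_congr fun g => by ring

end

section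

variable {Q : Type uQ} [Group Q] [Fintype Q]

open Classical in
/-- Galois symmetrised class indicator. -/
noncomputable def symInd (d : Q) (j : ℕ) (x : Q) : ℂ :=
  ∑ t : (ZMod (Fintype.card Q))ˣ, zeta (Fintype.card Q) ^ (j * (t : ZMod (Fintype.card Q)).val) *
    (if IsConj x (d ^ (t : ZMod (Fintype.card Q)).val) then (Fintype.card Q : ℂ) else 0)

theorem symInd_class (d : Q) (j : ℕ) (g x : Q) : symInd d j (g * x * g⁻¹) = symInd d j x := by
  classical
  have h : IsConj x (g * x * g⁻¹) := isConj_iff.2 ⟨g, rfl⟩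
  refine Finset.sum_congr rfl fun t _ => ?_
  congr 1
  exact if_congr ⟨h.trans, h.symm.trans⟩ rfl rfl

theorem symInd_mem_VA (d : Q) (j : ℕ) : symInd d j ∈ VA Q := by
  classical
  have h1 : ∀ c : Q, (fun x => if IsConj x c then (Fintype.card Q : ℂ) else 0) ∈ VA Q := by
    intro c
    have h := card_smul_mem (φ := fun _ : Q => (1 : ℂ)) (fun _ _ => rfl) (fun _ => isIntegral_one)
      (fun x => if IsConj x c then 1 else 0) ?_
    · convert h using 1
      funext x
      by_cases hx : IsConj x c <;> simp [hx]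
    · intro g x
      have hc : IsConj x (g * x * g⁻¹) := isConj_iff.2 ⟨g, rfl⟩
      exact if_congr ⟨hc.trans, hc.symm.trans⟩ rfl rfl
  have : symInd d j = ∑ t : (ZMod (Fintype.card Q))ˣ, fun x =>
      zeta (Fintype.card Q) ^ (j * (t : ZMod (Fintype.card Q)).val) *
        (if IsConj x (d ^ (t : ZMod (Fintype.card Q)).val) then (Fintype.card Q : ℂ) else 0) := by
    funext x
    simp [symInd, Finset.sum_apply]
  rw [this]
  refine Submodule.sum_mem _ fun t _ => VA.smul_mem' (h1 _) ?_
  exact ((zeta_primitive Fintype.card_ne_zero).isIntegral Fintype.card_pos).pow _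

theorem pow_val_mul (d : Q) (a b : ZMod (Fintype.card Q)) :
    d ^ (a * b).val = (d ^ b.val) ^ a.val := by
  rw [ZMod.val_mul, pow_mod_card, ← pow_mul, mul_comm b.val]

theorem symInd_isCyc (d : Q) (j : ℕ) : IsCyc (Fintype.card Q) (symInd d j) := by
  classical
  set N := Fintype.card Q with hN
  intro x
  refine ⟨∑ t : (ZMod N)ˣ, if IsConj x (d ^ (t : ZMod N).val) then
    (C (N : ℤ)) * X ^ (j * (t : ZMod N).val) else 0, fun s hs => ?_⟩
  let u : (ZMod N)ˣ := ZMod.unitOfCoprime s hs
  have hu : (u : ZMod N).val = s % N := by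
    simp [u, ZMod.val_natCast]
  have hpow : ∀ y : Q, y ^ (u : ZMod N).val = y ^ s := fun y => by rw [hu, hN, pow_mod_card]
  have hinv : ∀ y : Q, (y ^ s) ^ (((u⁻¹ : (ZMod N)ˣ) : ZMod N)).val = y := by
    intro y
    rw [← hpow, ← pow_val_mul, ← Units.val_mul, inv_mul_cancel, Units.val_one,
      ZMod.val_one_eq_one_mod, ← hN, hN, pow_mod_card, pow_one]
  have hz : ∀ a : ℕ, zeta N ^ (a % N) = zeta N ^ a := fun a =>
    (pow_eq_pow_mod a (zeta_primitive (N := N) Fintype.card_ne_zero).pow_eq_one).symm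
  simp only [symInd, map_sum, ← hN]
  rw [← Equiv.sum_comp (Equiv.mulLeft u)]
  refine Finset.sum_congr rfl fun t _ => ?_
  simp only [Equiv.coe_mulLeft, Units.val_mul]
  have hd' : d ^ ((u : ZMod N) * (t : ZMod N)).val = (d ^ (t : ZMod N).val) ^ s := by
    rw [← hpow]; exact pow_val_mul d _ _
  simp only [hd']
  have hiff : IsConj (x ^ s) ((d ^ (t : ZMod N).val) ^ s) ↔ IsConj x (d ^ (t : ZMod N).val) := by
    refine ⟨fun h => ?_, fun h => h.pow s⟩
    have := h.pow (((u⁻¹ : (ZMod N)ˣ) : ZMod N)).val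
    rwa [hinv, hinv] at this
  have he : zeta N ^ (j * ((u : ZMod N) * (t : ZMod N)).val) =
      (zeta N ^ s) ^ (j * (t : ZMod N).val) := by
    rw [ZMod.val_mul, hu, ← hz, Nat.mul_mod_mod, ← pow_mul,
      ← hz (s * (j * (t : ZMod N).val))]
    congr 1
    rw [mul_left_comm, Nat.mod_mul_mod]
  by_cases hc : IsConj x (d ^ (t : ZMod N).val)
  · rw [if_pos hc, if_pos (hiff.2 hc), he, map_mul, map_pow, aeval_X, aeval_C]
    simp [mul_comm]
  · rw [if_neg hc, if_neg (hiff.not.2 hc), mul_zero, map_zero]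

theorem norm_symInd_le (d : Q) (j : ℕ) (x : Q) :
    ‖symInd d j x‖ ≤ (Fintype.card Q : ℝ) * (Fintype.card (ZMod (Fintype.card Q))ˣ) := by
  classical
  refine (norm_sum_le _ _).trans ?_
  refine (Finset.sum_le_sum (g := fun _ => (Fintype.card Q : ℝ)) fun t _ => ?_).trans
    (le_of_eq (by simp [mul_comm]))
  have h1 : ‖zeta (Fintype.card Q)‖ = 1 := Complex.norm_eq_one_of_pow_eq_one
    (zeta_primitive Fintype.card_ne_zero).pow_eq_one Fintype.card_ne_zero
  rw [norm_mul, norm_pow, h1, one_pow, one_mul]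
  by_cases hx : IsConj x (d ^ (t : ZMod (Fintype.card Q)).val)
  · rw [if_pos hx, Complex.norm_natCast]
  · rw [if_neg hx, norm_zero]; positivity

open Classical in
theorem sum_symInd (d x : Q) :
    ∑ j ∈ Finset.range (Fintype.card Q), ((zeta (Fintype.card Q))⁻¹) ^ j * symInd d j x =
      (Fintype.card Q : ℂ) * (if IsConj x d then (Fintype.card Q : ℂ) else 0) := by
  set N := Fintype.card Q with hN
  have hN0 : N ≠ 0 := Fintype.card_ne_zero
  haveI : NeZero N := ⟨hN0⟩
  have hz := zeta_primitive hN0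
  simp only [symInd, Finset.mul_sum, ← hN]
  rw [Finset.sum_comm, Finset.sum_eq_single (1 : (ZMod N)ˣ)]
  · have h1 : d ^ ((1 : (ZMod N)ˣ) : ZMod N).val = d := by
      rw [Units.val_one, ZMod.val_one_eq_one_mod, hN, pow_mod_card, pow_one]
    have h2 : zeta N ^ ((1 : (ZMod N)ˣ) : ZMod N).val = zeta N := by
      rw [Units.val_one, ZMod.val_one_eq_one_mod, ← pow_eq_pow_mod 1 hz.pow_eq_one, pow_one]
    rw [h1]
    simp only [mul_comm _ ((1 : (ZMod N)ˣ) : ZMod N).val, pow_mul, h2, ← mul_assoc, ← mul_pow,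
      inv_mul_cancel₀ (hz.ne_zero hN0), one_pow, one_mul]
    simp [mul_comm]
  · intro t _ ht
    simp only [← mul_assoc, ← Finset.sum_mul]
    refine mul_eq_zero_of_left ?_ _
    simp only [mul_comm _ (t : ZMod N).val, pow_mul, ← mul_pow]
    have hw1 : (zeta N)⁻¹ * zeta N ^ (t : ZMod N).val ≠ 1 := by
      intro h
      rw [inv_mul_eq_one₀ (hz.ne_zero hN0)] at h
      have h' : zeta N ^ (1 % N) = zeta N ^ (t : ZMod N).val := by
        rw [← pow_eq_pow_mod 1 hz.pow_eq_one, pow_one]; exact h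
      have := hz.pow_inj (Nat.mod_lt _ (Nat.pos_of_ne_zero hN0)) (ZMod.val_lt _) h'
      apply ht
      ext
      apply ZMod.val_injective N
      rw [← this, Units.val_one, ZMod.val_one_eq_one_mod]
    rw [geom_sum_eq hw1]
    rw [mul_pow, inv_pow, hz.pow_eq_one, ← pow_mul, mul_comm _ N, pow_mul, hz.pow_eq_one, one_pow]
    simp
  · simp

end

/-- **Main theorem**: the Hattori–Stallings trace of an ℓ¹ idempotent, pushed to (characteristic
polynomial, class in a finite quotient), lives on finitely many polynomials all whose roots are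
roots of unity. -/
theorem main {G : Type uG} [Group G] {K : Type uK} [Field K] {n : ℕ} (ρ : G →* GL (Fin n) K)
    {Q : Type uQ} [Group Q] [Finite Q] (π : G →* Q) {q : ℕ} (e : Fin q → Fin q → G → ℂ)
    (he : IsL1Idempotent e) :
    ∃ S : Finset K[X], (∀ f ∈ S, ∀ r ∈ f.aroots (AlgebraicClosure K), IsOfFinOrder r) ∧
      ∀ (f : K[X]) (d : Q),
        hsCoeff e {g | (ρ g : Matrix (Fin n) (Fin n) K).charpoly = f ∧ IsConj (π g) d} ≠ 0 →
          f ∈ S := by
  classical
  haveI : Fintype Q := Fintype.ofFinite Q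
  set L := AlgebraicClosure K
  set N := Fintype.card Q with hN
  let ρL : G →* GL (Fin n) L := (Matrix.GeneralLinearGroup.map (algebraMap K L)).comp ρ
  have hρL : ∀ g, (ρL g : Matrix (Fin n) (Fin n) L).charpoly =
      (ρ g : Matrix (Fin n) (Fin n) K).charpoly.map (algebraMap K L) := fun g => by
    rw [← Matrix.charpoly_map]
    rfl
  choose U hU using fun (p : Q × ℕ) => exists_support_of_test ρL π he (symInd_mem_VA p.1 p.2)
    (symInd_class p.1 p.2) (symInd_isCyc p.1 p.2) (norm_symInd_le p.1 p.2)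
  let V : Finset Lˣ := ((Finset.univ : Finset Q) ×ˢ Finset.range N).biUnion U
  have hVfin : ∀ u ∈ V, IsOfFinOrder u := by
    intro u hu
    obtain ⟨p, -, hp⟩ := Finset.mem_biUnion.1 hu
    exact (hU p).1 u hp
  -- polynomials with all roots in `V`
  let T : Finset (Multiset L) :=
    (V.sym n).image fun s : Sym Lˣ n => (s : Multiset Lˣ).map fun u : Lˣ => (u : L)
  let P : Set K[X] := {f | f.Monic ∧ f.aroots L ∈ T}
  have hPfin : P.Finite := by
    refine Set.Finite.of_finite_image (f := fun f : K[X] => f.aroots L)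
      (T.finite_toSet.subset (by rintro _ ⟨f, hf, rfl⟩; exact hf.2)) ?_
    intro f hf g hg hfg
    apply Polynomial.map_injective (algebraMap K L) (algebraMap K L).injective
    rw [(IsAlgClosed.splits _).eq_prod_roots_of_monic (hf.1.map _),
      (IsAlgClosed.splits _).eq_prod_roots_of_monic (hg.1.map _)]
    simp only [aroots_def] at hfg
    rw [hfg]
  refine ⟨hPfin.toFinset, fun f hf r hr => ?_, fun f d hne => ?_⟩
  · obtain ⟨s, hs, hsr⟩ := Finset.mem_image.1 (hPfin.mem_toFinset.1 hf).2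
    rw [← hsr] at hr
    obtain ⟨u, hu, rfl⟩ := Multiset.mem_map.1 hr
    exact Units.coeHom L |>.isOfFinOrder (hVfin u ((Finset.mem_sym_iff.1 hs) u (Sym.mem_coe.1 hu)))
  set s := {g | (ρ g : Matrix (Fin n) (Fin n) K).charpoly = f ∧ IsConj (π g) d} with hs
  obtain ⟨g₀, hg₀⟩ : s.Nonempty := by
    by_contra h
    rw [Set.not_nonempty_iff_eq_empty] at h
    rw [hsCoeff, h] at hne
    exact hne (by simp)
  set R₀ := eigUnits ρL g₀ with hR₀
  have hiff : ∀ g, eigUnits ρL g = R₀ ↔ (ρ g : Matrix (Fin n) (Fin n) K).charpoly = f := by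
    intro g
    have hval : ∀ g, (eigUnits ρL g).map (fun u : Lˣ => (u : L)) =
        (ρ g : Matrix (Fin n) (Fin n) K).charpoly.aroots L := fun g => by
      rw [map_val_eigUnits, hρL, aroots_def]
    constructor
    · intro h
      have h1 := hval g
      rw [h, hR₀, hval g₀, hg₀.1] at h1
      apply Polynomial.map_injective (algebraMap K L) (algebraMap K L).injective
      have hm : f.Monic := hg₀.1 ▸ charpoly_monic _
      simp only [aroots_def] at h1
      rw [(IsAlgClosed.splits ((ρ g : Matrix (Fin n) (Fin n) K).charpoly.map (algebraMap K L))).eq_prod_roots_of_monic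
          ((charpoly_monic _).map _),
        (IsAlgClosed.splits (f.map (algebraMap K L))).eq_prod_roots_of_monic (hm.map _), h1]
    · intro h
      apply Multiset.map_injective (f := fun u : Lˣ => (u : L)) fun a b hab => Units.ext hab
      rw [hR₀, hval, hval, h, hg₀.1]
  have hall : ∀ u ∈ R₀, u ∈ V := by
    by_contra hcon
    push_neg at hcon
    obtain ⟨u, hu, huV⟩ := hcon
    apply hne
    have hz : ∀ j ∈ Finset.range N,
        (∑' g, if eigUnits ρL g = R₀ then (∑ i, e i i g) * symInd d j (π g) else 0) = 0 := by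
      intro j hj
      by_contra h
      exact huV (Finset.mem_biUnion.2 ⟨(d, j),
        Finset.mem_product.2 ⟨Finset.mem_univ _, hj⟩, (hU (d, j)).2 R₀ h u hu⟩)
    have hsum : ∀ j, Summable fun g =>
        if eigUnits ρL g = R₀ then (∑ i, e i i g) * symInd d j (π g) else 0 := by
      intro j
      have hN : Summable (entryNorm e) := summable_sum fun i _ => summable_sum fun j _ => he.1 i j
      refine Summable.of_norm_bounded (hN.mul_right ((Fintype.card Q : ℝ) * (Fintype.card (ZMod (Fintype.card Q))ˣ))) fun g => ?_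
      by_cases h : eigUnits ρL g = R₀
      · rw [if_pos h, norm_mul]
        exact mul_le_mul (norm_trace_le e g) (norm_symInd_le d j _) (norm_nonneg _)
          (entryNorm_nonneg e g)
      · rw [if_neg h, norm_zero]
        exact mul_nonneg (entryNorm_nonneg e g) (by positivity)
    have h0 : ∑ j ∈ Finset.range N, ((zeta N)⁻¹) ^ j *
        (∑' g, if eigUnits ρL g = R₀ then (∑ i, e i i g) * symInd d j (π g) else 0) = 0 :=
      Finset.sum_eq_zero fun j hj => by rw [hz j hj, mul_zero]
    simp only [← tsum_mul_left] at h0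
    rw [← Summable.tsum_finsetSum fun j _ => (hsum j).mul_left _] at h0
    have hpt : (fun g => ∑ j ∈ Finset.range N, ((zeta N)⁻¹) ^ j *
        if eigUnits ρL g = R₀ then (∑ i, e i i g) * symInd d j (π g) else 0) =
        fun g => ((N : ℂ) * N) * s.indicator (fun g => ∑ i, e i i g) g := by
      funext g
      by_cases h : eigUnits ρL g = R₀
      · simp only [if_pos h, mul_left_comm _ (∑ i, e i i g)]
        rw [← Finset.mul_sum, sum_symInd, ← hN]
        by_cases hd : IsConj (π g) d
        · rw [Set.indicator_of_mem (show g ∈ s from ⟨(hiff g).1 h, hd⟩), if_pos hd]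
          ring
        · rw [Set.indicator_of_notMem (fun hg : g ∈ s => hd hg.2), if_neg hd]
          simp
      · simp only [if_neg h, mul_zero, Finset.sum_const_zero]
        rw [Set.indicator_of_notMem (fun hg : g ∈ s => h ((hiff g).2 hg.1)), mul_zero]
    rw [hpt, tsum_mul_left] at h0
    rw [hsCoeff, tsum_subtype s fun g => ∑ i, e i i g]
    exact (mul_eq_zero.1 h0).resolve_left (by simp [hN, Fintype.card_ne_zero])
  rw [Set.Finite.mem_toFinset]
  refine ⟨hg₀.1 ▸ charpoly_monic _, ?_⟩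
  refine Finset.mem_image.2 ⟨(⟨R₀, card_eigUnits ρL g₀⟩ : Sym Lˣ n), Finset.mem_sym_iff.2 hall, ?_⟩
  show R₀.map (fun u : Lˣ => (u : L)) = f.aroots L
  rw [hR₀, map_val_eigUnits, hρL, hg₀.1, aroots_def]

end Vale.P184
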