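import Vale.Agent.P184.Rep

/-!
P184: `VA` is stable under the Adams operations `f ↦ (x ↦ f (x ^ k))`
(cyclic tensor power trick).
-/

namespace Vale.P184

open Matrix

section Cyclic

variable {m : Type*} [Fintype m] [DecidableEq m]

private theorem pow_apply_paths (M : Matrix m m ℂ) : ∀ (k : ℕ) (u v : m),
    (M ^ (k + 1)) u v = ∑ a : Fin k → m,
      ∏ i : Fin (k + 1), M (Fin.cons (α := fun _ => m) u a i) (Fin.snoc (α := fun _ => m) a v i) := by
  intro k
  induction k with
  | zero =>
    intro u v
    simp [Fin.snoc]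
  | succ k ih =>
    intro u v
    rw [pow_succ', Matrix.mul_apply, ← (Fin.consEquiv fun _ => m).sum_comp,
      Fintype.sum_prod_type]
    refine Finset.sum_congr rfl fun w _ => ?_
    rw [ih, Finset.mul_sum]
    refine Finset.sum_congr rfl fun a _ => ?_
    rw [Fin.prod_univ_succ (n := k + 1)]
    have e : Fin.snoc (α := fun _ => m) (Fin.cons (α := fun _ => m) w a) v =
        Fin.cons (α := fun _ => m) w (Fin.snoc (α := fun _ => m) a v) :=
      (Fin.cons_snoc_eq_snoc_cons (β := m) w a v).symm
    show _ = M (Fin.cons (α := fun _ => m) u (Fin.cons (α := fun _ => m) w a) 0)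
        (Fin.snoc (α := fun _ => m) (Fin.cons (α := fun _ => m) w a) v 0) *
      ∏ x : Fin (k + 1), M (Fin.cons (α := fun _ => m) u (Fin.cons (α := fun _ => m) w a) x.succ)
        (Fin.snoc (α := fun _ => m) (Fin.cons (α := fun _ => m) w a) v x.succ)
    simp only [e, Fin.cons_zero, Fin.cons_succ]

private theorem trace_pow_cycle (M : Matrix m m ℂ) (k : ℕ) :
    (M ^ (k + 1)).trace = ∑ a : Fin (k + 1) → m, ∏ i, M (a i) (a (i + 1)) := by
  rw [← (Fin.consEquiv fun _ => m).sum_comp, Fintype.sum_prod_type]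
  refine Finset.sum_congr rfl fun u _ => ?_
  show (M ^ (k + 1)) u u = _
  rw [pow_apply_paths]
  refine Finset.sum_congr rfl fun a _ => Finset.prod_congr rfl fun i _ => ?_
  simp only [Fin.consEquiv_apply]
  congr 1
  refine Fin.lastCases ?_ (fun j => ?_) i
  · simp
  · simp [Fin.coeSucc_eq_succ]

variable (r : ℕ) [NeZero r]

/-- Tensor power, indexed by `ZMod r`. -/
private noncomputable def tPow (M : Matrix m m ℂ) : Matrix (ZMod r → m) (ZMod r → m) ℂ :=
  fun a b => ∏ i, M (a i) (b i)

private theorem tPow_mul (A B : Matrix m m ℂ) : tPow r (A * B) = tPow r A * tPow r B := by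
  ext a c
  simp only [tPow, Matrix.mul_apply, ← Finset.prod_mul_distrib]
  exact Fintype.prod_sum fun i b => A (a i) b * B b (c i)

private theorem tPow_one : tPow r (1 : Matrix m m ℂ) = 1 := by
  ext a b
  by_cases h : a = b
  · subst h
    simp [tPow]
  · obtain ⟨i, hi⟩ := Function.ne_iff.1 h
    rw [Matrix.one_apply_ne h]
    exact Finset.prod_eq_zero (Finset.mem_univ i) (Matrix.one_apply_ne hi)

/-- Cyclic shift by `j`. -/
private def shiftMat (j : ZMod r) : Matrix (ZMod r → m) (ZMod r → m) ℂ :=
  fun a b => if b = (fun i => a (i + j)) then 1 else 0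

private theorem shiftMat_zero : shiftMat (m := m) r 0 = 1 := by
  ext a b
  simp [shiftMat, Matrix.one_apply, eq_comm]

private theorem shiftMat_mul (i j : ZMod r) :
    shiftMat (m := m) r i * shiftMat r j = shiftMat r (i + j) := by
  ext a c
  simp only [shiftMat, Matrix.mul_apply, ite_mul, one_mul, zero_mul]
  rw [Finset.sum_ite_eq' Finset.univ (fun l => a (l + i))]
  simp [add_comm i j, add_assoc]

private theorem tPow_mul_shift (M : Matrix m m ℂ) (j : ZMod r) (a c : ZMod r → m) :
    (tPow r M * shiftMat (m := m) r j) a c = ∏ i, M (a i) (c (i - j)) := by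
  rw [Matrix.mul_apply, Finset.sum_eq_single (fun i => c (i - j))]
  · simp [shiftMat, tPow]
  · intro b _ hb
    have : c ≠ fun i => b (i + j) := by
      intro hc
      apply hb
      funext i
      simp [hc]
    simp [shiftMat, this]
  · simp

private theorem tPow_shift_comm (M : Matrix m m ℂ) (j : ZMod r) :
    tPow r M * shiftMat (m := m) r j = shiftMat (m := m) r j * tPow r M := by
  ext a c
  rw [tPow_mul_shift, Matrix.mul_apply, Finset.sum_eq_single (fun i => a (i + j))]
  · simp only [shiftMat, tPow, if_true, one_mul]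
    rw [← Equiv.prod_comp (Equiv.addRight j)]
    simp
  · intro b _ hb
    simp [shiftMat, hb]
  · simp

private theorem trace_tPow (M : Matrix m m ℂ) : (tPow r M).trace = M.trace ^ r := by
  simp only [Matrix.trace, Matrix.diag, tPow]
  rw [← Fintype.prod_sum fun (_ : ZMod r) l => M l l]
  simp [ZMod.card]

end Cyclic

variable {F : Type*} [Group F]

theorem IsRepTrace.comp_pow_prime {f : F → ℂ} (hf : IsRepTrace f) {r : ℕ} (hr : r.Prime) :
    (fun x => f (x ^ r)) ∈ VA F := by
  classical
  haveI : Fact r.Prime := ⟨hr⟩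
  obtain ⟨m, ρ, P, hP, hc, hf⟩ := hf
  -- trace of `tPow M * shift j` for `j ≠ 0`
  have hcyc : ∀ (M : Matrix (Fin m) (Fin m) ℂ) (j : ZMod r), j ≠ 0 →
      (tPow r M * shiftMat r j).trace = (M ^ r).trace := by
    intro M j hj
    obtain ⟨k, rfl⟩ := Nat.exists_eq_add_of_le' hr.pos
    have e1 : (tPow (k + 1) M * shiftMat (k + 1) j).trace =
        ∑ a : ZMod (k + 1) → Fin m, ∏ i, M (a i) (a (i - j)) := by
      simp only [Matrix.trace, Matrix.diag]
      exact Finset.sum_congr rfl fun a _ => tPow_mul_shift (k + 1) M j a a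
    rw [e1, trace_pow_cycle]
    let u : ZMod (k + 1) ≃ ZMod (k + 1) := Equiv.mulLeft₀ (-j) (neg_ne_zero.2 hj)
    rw [← (u.arrowCongr (Equiv.refl (Fin m))).sum_comp]
    refine Finset.sum_congr rfl fun a _ => ?_
    rw [← u.prod_comp]
    refine Finset.prod_congr rfl fun i _ => ?_
    have h1 : u.symm (u i) = i := u.symm_apply_apply i
    have h2 : u.symm (u i - j) = i + 1 := by
      rw [Equiv.symm_apply_eq]
      show -j * i - j = -j * (i + 1)
      ring
    simp only [Equiv.arrowCongr_apply, Equiv.coe_refl, Function.comp_apply, id, h1, h2]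
    rfl
  -- the two summands
  have key : ∀ (w : AddChar (ZMod r) ℂ),
      IsRepTrace fun x => (r : ℂ)⁻¹ *
        (f x ^ r + (∑ j ∈ Finset.univ.erase (0 : ZMod r), w j) * f (x ^ r)) := by
    intro w
    let τ : F →* Matrix (ZMod r → Fin m) (ZMod r → Fin m) ℂ :=
      { toFun := fun x => tPow r (ρ x)
        map_one' := by rw [map_one, tPow_one]
        map_mul' := fun x y => by rw [map_mul, tPow_mul] }
    let Q : Matrix (ZMod r → Fin m) (ZMod r → Fin m) ℂ :=
      (r : ℂ)⁻¹ • ∑ j, w j • shiftMat r j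
    have hQc : ∀ M : Matrix (Fin m) (Fin m) ℂ, Commute (tPow r M) Q := by
      intro M
      refine Commute.smul_right ?_ _
      refine Commute.sum_right _ _ _ fun j _ => ?_
      exact Commute.smul_right (tPow_shift_comm r M j) _
    have hQS : ∀ i, w i • shiftMat r i * Q = Q := by
      intro i
      simp only [Q, Matrix.mul_smul]
      congr 1
      simp only [Finset.mul_sum, smul_mul_assoc, Matrix.mul_smul, smul_smul, shiftMat_mul]
      refine Finset.sum_equiv (Equiv.addLeft i) (by simp) fun j _ => ?_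
      simp [AddChar.map_add_eq_mul]
    have hQQ : Q * Q = Q := by
      conv_lhs => arg 1; simp only [Q]
      rw [smul_mul_assoc, Finset.sum_mul, Finset.sum_congr rfl fun i _ => hQS i,
        Finset.sum_const, Finset.card_univ, ZMod.card, ← Nat.cast_smul_eq_nsmul ℂ, smul_smul,
        inv_mul_cancel₀ (by exact_mod_cast hr.ne_zero), one_smul]
    have h := IsRepTrace.of_fintype τ (tPow r P * Q)
      (by
        rw [mul_assoc, ← mul_assoc Q, ← (hQc P).eq, mul_assoc, hQQ, ← mul_assoc, ← tPow_mul,
          hP])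
      (fun x => by
        refine Commute.mul_right ?_ (hQc _)
        show tPow r (ρ x) * tPow r P = tPow r P * tPow r (ρ x)
        rw [← tPow_mul, ← tPow_mul, (hc x).eq])
    convert h using 2 with x
    show _ = (tPow r (ρ x) * (tPow r P * Q)).trace
    rw [← mul_assoc, ← tPow_mul]
    simp only [Q, Matrix.mul_smul, Finset.mul_sum, Matrix.trace_smul, Matrix.trace_sum,
      smul_eq_mul]
    rw [← Finset.mul_sum, ← Finset.add_sum_erase Finset.univ _ (Finset.mem_univ (0 : ZMod r))]
    congr 1
    simp only [shiftMat_zero, mul_one, AddChar.map_zero_eq_one, one_mul, trace_tPow, hf]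
    congr 1
    rw [Finset.sum_mul]
    refine Finset.sum_congr rfl fun j hj => ?_
    rw [hcyc _ _ (Finset.ne_of_mem_erase hj), (hc x).mul_pow,
      IsIdempotentElem.pow_eq (show IsIdempotentElem P from hP) hr.ne_zero, map_pow]
  have h0 := key 1
  have h1 := key ZMod.stdAddChar
  have hs0 : ∑ j ∈ Finset.univ.erase (0 : ZMod r), (1 : AddChar (ZMod r) ℂ) j = (r : ℂ) - 1 := by
    simp [Finset.card_erase_of_mem, ZMod.card, Nat.cast_sub hr.one_le]
  have hne : (ZMod.stdAddChar : AddChar (ZMod r) ℂ) ≠ 0 := by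
    have := ZMod.isPrimitive_stdAddChar r (a := (1 : ZMod r)) one_ne_zero
    intro h
    apply this
    ext x
    simp [h]
  have hs1 : ∑ j ∈ Finset.univ.erase (0 : ZMod r), (ZMod.stdAddChar : AddChar (ZMod r) ℂ) j = -1 := by
    rw [Finset.sum_erase_eq_sub (Finset.mem_univ _), AddChar.sum_eq_zero_iff_ne_zero.2 hne,
      AddChar.map_zero_eq_one, zero_sub]
  rw [hs0] at h0
  rw [hs1] at h1
  have hr0 : (r : ℂ) ≠ 0 := by exact_mod_cast hr.ne_zero
  convert (VA F).sub_mem h0.mem_VA h1.mem_VA using 1
  ext x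
  simp only [Pi.sub_apply]
  field_simp
  ring

theorem VA.comp_pow_mem {f : F → ℂ} (hf : f ∈ VA F) (k : ℕ) : (fun x => f (x ^ k)) ∈ VA F := by
  induction k using Nat.strong_induction_on generalizing f with
  | _ k ih =>
  rcases Nat.eq_zero_or_pos k with rfl | hk
  · simp only [pow_zero]
    exact Submodule.span_induction
      (fun g hg => by
        have := (hg.comp (1 : F →* F)).mem_VA
        simpa using this)
      (VA F).zero_mem (fun _ _ _ _ a b => (VA F).add_mem a b)
      (fun a _ _ b => (VA F).smul_mem a b) hf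
  rcases eq_or_ne k 1 with rfl | h1
  · simpa using hf
  have hp : k.minFac.Prime := Nat.minFac_prime h1
  obtain ⟨l, hl⟩ := k.minFac_dvd
  have hlt : l < k := by
    have := hp.two_le
    rcases Nat.eq_zero_or_pos l with rfl | hl0
    · omega
    · nlinarith
  have hg : (fun x => f (x ^ k.minFac)) ∈ VA F :=
    Submodule.span_induction (fun g hg => hg.comp_pow_prime hp)
      (VA F).zero_mem (fun _ _ _ _ a b => (VA F).add_mem a b)
      (fun a _ _ b => (VA F).smul_mem a b) hf
  convert ih l hlt hg using 1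
  ext x
  rw [← pow_mul, mul_comm, ← hl]

end Vale.P184
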