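import Vale.Agent.P184.TestFn
import Vale.Agent.P184.Chars

/-!
P184: reduction to finite quotients with Galois-equivariant test functions.
-/

namespace Vale.P184

universe uL uQ

open Matrix Polynomial

theorem isJacobsonRing_int : IsJacobsonRing ℤ := by
  refine isJacobsonRing_iff_prime_eq.2 fun P hP => ?_
  by_cases h : P = ⊥
  · subst h
    refine le_antisymm (fun x hx => ?_) Ideal.le_jacobson
    by_contra hx0
    rw [Ideal.mem_bot] at hx0
    obtain ⟨q, hq, hprime⟩ := Nat.exists_infinite_primes (x.natAbs + 1)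
    haveI : Fact q.Prime := ⟨hprime⟩
    have hmax : (Ideal.span {(q : ℤ)}).IsMaximal :=
      PrincipalIdealRing.isMaximal_of_irreducible (Nat.prime_iff_prime_int.1 hprime).irreducible
    have hmem : x ∈ Ideal.span {(q : ℤ)} :=
      Ideal.mem_sInf.1 hx ⟨bot_le, hmax⟩
    rw [Ideal.mem_span_singleton, Int.natCast_dvd] at hmem
    have := Nat.le_of_dvd (Int.natAbs_pos.2 hx0) hmem
    omega
  · haveI := hP.isMaximal h
    exact Ideal.jacobson_eq_self_of_isMaximal

theorem exists_embedding (k : Type*) [Field k] [Finite k] :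
    ∃ (p : ℕ) (_ : Fact p.Prime), Nonempty (k →+* AlgebraicClosure (ZMod p)) := by
  haveI : CharP k (ringChar k) := ringChar.charP k
  haveI : Fact (ringChar k).Prime := ⟨CharP.char_is_prime k (ringChar k)⟩
  letI : Algebra (ZMod (ringChar k)) k := ZMod.algebra k _
  haveI : FiniteDimensional (ZMod (ringChar k)) k := Module.Finite.of_finite
  exact ⟨ringChar k, inferInstance,
    ⟨(IsAlgClosed.lift : k →ₐ[ZMod (ringChar k)] AlgebraicClosure (ZMod (ringChar k))).toRingHom⟩⟩

/-- Finitely many ring operations suffice: a finitely generated subring of a field has, outside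
any nonzero element, a maximal ideal with finite residue field. -/
theorem exists_finite_residue {L : Type*} [Field L] (Z : Finset L)
    (a : Algebra.adjoin ℤ (Z : Set L)) (ha : a ≠ 0) :
    ∃ m : Ideal (Algebra.adjoin ℤ (Z : Set L)), m.IsMaximal ∧ a ∉ m ∧
      Finite (Algebra.adjoin ℤ (Z : Set L) ⧸ m) := by
  haveI := isJacobsonRing_int
  haveI : Algebra.FiniteType ℤ (Algebra.adjoin ℤ (Z : Set L)) :=
    (Subalgebra.fg_iff_finiteType _).1 ⟨Z, rfl⟩
  haveI : IsJacobsonRing (Algebra.adjoin ℤ (Z : Set L)) :=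
    isJacobsonRing_of_finiteType (A := ℤ)
  have hj : (⊥ : Ideal (Algebra.adjoin ℤ (Z : Set L))).jacobson = ⊥ :=
    isJacobsonRing_iff.1 inferInstance _ Ideal.isRadical_bot
  have : a ∉ (⊥ : Ideal (Algebra.adjoin ℤ (Z : Set L))).jacobson := by rw [hj]; simpa using ha
  rw [Ideal.jacobson, Ideal.mem_sInf] at this
  push_neg at this
  obtain ⟨m, ⟨-, hm⟩, ham⟩ := this
  refine ⟨m, hm, ham, ?_⟩
  haveI := hm
  letI : Field ((Algebra.adjoin ℤ (Z : Set L)) ⧸ m) := Ideal.Quotient.field m
  haveI : Algebra.FiniteType ℤ ((Algebra.adjoin ℤ (Z : Set L)) ⧸ m) :=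
    Algebra.FiniteType.of_surjective (Ideal.Quotient.mkₐ ℤ m) (Ideal.Quotient.mkₐ_surjective ℤ m)
  haveI : Module.Finite ℤ ((Algebra.adjoin ℤ (Z : Set L)) ⧸ m) := finite_of_finite_type_of_isJacobsonRing ℤ ((Algebra.adjoin ℤ (Z : Set L)) ⧸ m)
  obtain ⟨q, hq⟩ := CharP.exists ((Algebra.adjoin ℤ (Z : Set L)) ⧸ m)
  haveI := hq
  rcases Nat.eq_zero_or_pos q with rfl | hq0
  · exfalso
    haveI : CharZero ((Algebra.adjoin ℤ (Z : Set L)) ⧸ m) := CharP.charP_to_charZero _
    haveI : Algebra.IsIntegral ℤ ((Algebra.adjoin ℤ (Z : Set L)) ⧸ m) := Algebra.IsIntegral.of_finite ℤ ((Algebra.adjoin ℤ (Z : Set L)) ⧸ m)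
    exact Int.not_isField (isField_of_isIntegral_of_isField (S := (Algebra.adjoin ℤ (Z : Set L)) ⧸ m)
      (RingHom.injective_int (algebraMap ℤ ((Algebra.adjoin ℤ (Z : Set L)) ⧸ m))) (Field.toIsField _))
  · haveI : AddGroup.FG ((Algebra.adjoin ℤ (Z : Set L)) ⧸ m) := Module.Finite.iff_addGroup_fg.1 inferInstance
    refine AddCommGroup.finite_of_fg_isAddTorsion _ ?_
    intro x
    rw [isOfFinAddOrder_iff_nsmul_eq_zero]
    exact ⟨q, hq0, by rw [nsmul_eq_mul, CharP.cast_eq_zero, zero_mul]⟩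

/-- Extension of a character of `Lˣ` by zero. -/
noncomputable def extZero {L : Type*} [Field L] (θ : Lˣ →* Circle) (x : L) : ℂ :=
  open scoped Classical in if h : x = 0 then 0 else (θ (Units.mk0 x h) : ℂ)

theorem extZero_coe {L : Type*} [Field L] (θ : Lˣ →* Circle) (u : Lˣ) :
    extZero θ (u : L) = (θ u : ℂ) := by
  simp [extZero, u.ne_zero]

theorem norm_extZero_le {L : Type*} [Field L] (θ : Lˣ →* Circle) (x : L) :
    ‖extZero θ x‖ ≤ 1 := by
  by_cases h : x = 0 <;> simp [extZero, h, Circle.norm_coe]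

variable {G : Type*} [Group G] {L : Type*} [Field L] [IsAlgClosed L] {n : ℕ}

theorem root_ne_zero (u : GL (Fin n) L) {r : L}
    (hr : r ∈ (u : Matrix (Fin n) (Fin n) L).charpoly.roots) : r ≠ 0 := by
  rintro rfl
  have h := Matrix.mem_spectrum_iff_isRoot_charpoly.2 (isRoot_of_mem_roots hr)
  rw [spectrum.zero_mem_iff] at h
  exact h u.isUnit

theorem norm_sum_map_le {α : Type*} (s : Multiset α) (f : α → ℂ) {r : ℝ}
    (h : ∀ a ∈ s, ‖f a‖ ≤ r) : ‖(s.map f).sum‖ ≤ Multiset.card s * r := by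
  induction s using Multiset.induction with
  | empty => simp
  | cons a s ih =>
    simp only [Multiset.map_cons, Multiset.sum_cons, Multiset.card_cons, Nat.cast_succ]
    refine (norm_add_le _ _).trans ?_
    have h1 := ih fun b hb => h b (Multiset.mem_cons_of_mem hb)
    have h2 := h a (Multiset.mem_cons_self a s)
    linarith [add_mul (Multiset.card s : ℝ) 1 r]

theorem norm_prod_sub_prod_le {m : ℕ} (x y : Fin m → ℂ) {B δ : ℝ} (hB : 1 ≤ B)
    (hδ : 0 ≤ δ) (hx : ∀ a, ‖x a‖ ≤ B) (hy : ∀ a, ‖y a‖ ≤ B) (h : ∀ a, ‖x a - y a‖ ≤ δ) :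
    ‖∏ a, x a - ∏ a, y a‖ ≤ m * B ^ m * δ := by
  induction m with
  | zero => simp
  | succ m ih =>
    rw [Fin.prod_univ_succ, Fin.prod_univ_succ]
    set X := ∏ a : Fin m, x a.succ
    set Y := ∏ a : Fin m, y a.succ
    have hX : ‖X‖ ≤ B ^ m := by
      rw [norm_prod]
      refine (Finset.prod_le_prod (fun _ _ => norm_nonneg _) fun a _ => hx a.succ).trans ?_
      simp
    have h1 := ih (fun a => x a.succ) (fun a => y a.succ) (fun a => hx _) (fun a => hy _)
      fun a => h _
    have e : x 0 * X - y 0 * Y = (x 0 - y 0) * X + y 0 * (X - Y) := by ring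
    rw [e]
    refine (norm_add_le _ _).trans ?_
    rw [norm_mul, norm_mul]
    have hBm : B ^ m ≤ B ^ (m + 1) := pow_le_pow_right₀ hB (Nat.le_succ m)
    calc ‖x 0 - y 0‖ * ‖X‖ + ‖y 0‖ * ‖X - Y‖ ≤ δ * B ^ m + B * (m * B ^ m * δ) :=
          add_le_add (mul_le_mul (h 0) hX (norm_nonneg _) hδ)
            (mul_le_mul (hy 0) h1 (norm_nonneg _) (zero_le_one.trans hB))
      _ ≤ (m + 1 : ℕ) * B ^ (m + 1) * δ := by
          have := mul_le_mul_of_nonneg_left hBm hδ
          push_cast
          rw [pow_succ] at this ⊢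
          linarith

/-- **Finite approximation.** On a finite set `S`, the function
`g ↦ (∏ a, ∑_{λ eigenvalue of ρ g} θ a λ) * ψ (ι g)` is approximated by a test function on a
finite quotient of `⟨S⟩`. -/
theorem exists_finite_test {G : Type*} [Group G] {L : Type uL} [Field L] [IsAlgClosed L] {n : ℕ}
    (ρ : G →* GL (Fin n) L) {Q : Type uQ} [Group Q] [Fintype Q]
    (ι : G →* Q) {ψ : Q → ℂ} (hψ : ψ ∈ VA Q) (hψclass : ∀ g x, ψ (g * x * g⁻¹) = ψ x)
    (hψcyc : IsCyc (Fintype.card Q) ψ) {Mψ : ℝ} (hMψ : ∀ x, ‖ψ x‖ ≤ Mψ)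
    (S : Finset G) {m : ℕ} (θ : Fin m → Lˣ →* Circle) {η : ℝ} (hη : 0 < η) :
    ∃ (F : Type (max uL uQ)) (_ : Group F) (_ : Fintype F) (π : Subgroup.closure (S : Set G) →* F)
      (f : F → ℂ), f ∈ VA F ∧ (∀ g x, f (g * x * g⁻¹) = f x) ∧ IsCyc (Fintype.card F) f ∧
      (∀ x, ‖f x‖ ≤ (n + 1 : ℝ) ^ m * Mψ) ∧
      ∀ g : Subgroup.closure (S : Set G), (g : G) ∈ S → ‖f (π g) -
        (∏ a, ((ρ g : Matrix (Fin n) (Fin n) L).charpoly.roots.map (extZero (θ a))).sum) *
          ψ (ι g)‖ ≤ η := by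
  classical
  have hMψ0 : 0 ≤ Mψ := (norm_nonneg _).trans (hMψ 1)
  -- the eigenvalues of the elements of `S`
  set Rt : Finset L :=
    S.biUnion fun g => (ρ g : Matrix (Fin n) (Fin n) L).charpoly.roots.toFinset with hRt
  have hRt0 : ∀ x ∈ Rt, x ≠ 0 := by
    intro x hx
    obtain ⟨g, -, hg⟩ := Finset.mem_biUnion.1 hx
    exact root_ne_zero (ρ g) (Multiset.mem_toFinset.1 hg)
  set r := Rt.card
  let t : Fin r → Lˣ := fun i =>
    Units.mk0 (Rt.equivFin.symm i : L) (hRt0 _ (Rt.equivFin.symm i).2)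
  -- the subring
  set Z : Finset L := (S.biUnion fun g =>
      (Finset.univ : Finset (Fin n × Fin n)).image (fun ij => (ρ g : Matrix (Fin n) (Fin n) L) ij.1 ij.2) ∪
      (Finset.univ : Finset (Fin n × Fin n)).image (fun ij => (ρ g⁻¹ : Matrix (Fin n) (Fin n) L) ij.1 ij.2)) ∪
      Rt ∪ Rt.image (fun x => x⁻¹) with hZ
  set A := Algebra.adjoin ℤ (Z : Set L) with hA
  have hsub : ∀ x ∈ Z, x ∈ A := fun x hx => Algebra.subset_adjoin hx
  have hentry : ∀ g : Subgroup.closure (S : Set G), ∀ i j,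
      (ρ g : Matrix (Fin n) (Fin n) L) i j ∈ A ∧ (ρ (g : G)⁻¹ : Matrix (Fin n) (Fin n) L) i j ∈ A := by
    intro g
    refine Subgroup.closure_induction (p := fun (x : G) _ => ∀ i j,
      (ρ x : Matrix (Fin n) (Fin n) L) i j ∈ A ∧ (ρ x⁻¹ : Matrix (Fin n) (Fin n) L) i j ∈ A)
      ?_ ?_ ?_ ?_ g.2
    · intro x hx i j
      constructor <;> refine hsub _ ?_ <;> rw [hZ] <;>
        refine Finset.mem_union_left _ (Finset.mem_union_left _ (Finset.mem_biUnion.2 ⟨x, hx, ?_⟩))
      · exact Finset.mem_union_left _ (Finset.mem_image.2 ⟨(i, j), Finset.mem_univ _, rfl⟩)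
      · exact Finset.mem_union_right _ (Finset.mem_image.2 ⟨(i, j), Finset.mem_univ _, rfl⟩)
    · intro i j
      by_cases hij : i = j <;> simp [Matrix.one_apply, hij]
    · intro x y _ _ hx hy i j
      simp only [_root_.mul_inv_rev, map_mul, Units.val_mul, Matrix.mul_apply]
      exact ⟨sum_mem fun k _ => mul_mem (hx i k).1 (hy k j).1,
        sum_mem fun k _ => mul_mem (hy i k).2 (hx k j).2⟩
    · intro x _ hx i j
      rw [inv_inv]
      exact ⟨(hx i j).2, (hx i j).1⟩
  have htA : ∀ i, (t i : L) ∈ A ∧ ((t i)⁻¹ : Lˣ).val ∈ A := by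
    intro i
    refine ⟨hsub _ ?_, hsub _ ?_⟩ <;> rw [hZ]
    · exact Finset.mem_union_left _ (Finset.mem_union_right _ (Rt.equivFin.symm i).2)
    · refine Finset.mem_union_right _ (Finset.mem_image.2 ⟨_, (Rt.equivFin.symm i).2, ?_⟩)
      simp [t]
  let tA : Fin r → (↥A)ˣ := fun i =>
    ⟨⟨t i, (htA i).1⟩, ⟨((t i)⁻¹ : Lˣ).val, (htA i).2⟩, Subtype.ext (Units.mul_inv _),
      Subtype.ext (Units.inv_mul _)⟩
  let ιA : (↥A)ˣ →* Lˣ := Units.map A.val.toRingHom.toMonoidHom
  have hιA : ∀ i, ιA (tA i) = t i := fun i => Units.ext rfl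
  -- the exponent range
  set B : ℝ := n + 1 with hB
  have hB1 : 1 ≤ B := by rw [hB]; linarith [Nat.cast_nonneg (α := ℝ) n]
  set δ : ℝ := η / ((n + 1) * (m + 1) * B ^ m * (Mψ + 1)) with hδ
  have hδ0 : 0 < δ := by positivity
  obtain ⟨M, hM⟩ := exists_pow_near (r := r) hδ0
  -- avoid false relations
  let box : Finset (Fin r → ℤ) := Fintype.piFinset fun _ => Finset.Icc (-(M : ℤ)) M
  let a₀ : A := ∏ c ∈ box.filter (fun c => ∏ i, t i ^ c i ≠ 1),
    (((∏ i, tA i ^ c i : (↥A)ˣ) : A) - 1)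
  have ha₀ : a₀ ≠ 0 := by
    rw [Finset.prod_ne_zero_iff]
    intro c hc h
    apply (Finset.mem_filter.1 hc).2
    rw [sub_eq_zero] at h
    have h2 : (∏ i, tA i ^ c i : (↥A)ˣ) = 1 := Units.ext h
    have := congrArg ιA h2
    simpa [map_prod, map_zpow, hιA] using this
  obtain ⟨𝔪, h𝔪, ha𝔪, hfin⟩ := exists_finite_residue Z a₀ ha₀
  haveI := h𝔪
  haveI := hfin
  letI : Field (A ⧸ 𝔪) := Ideal.Quotient.field 𝔪
  haveI : Fintype (A ⧸ 𝔪) := Fintype.ofFinite _
  obtain ⟨p, hpf, ⟨emb⟩⟩ := exists_embedding (A ⧸ 𝔪)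
  let red : A →+* AlgebraicClosure (ZMod p) := emb.comp (Ideal.Quotient.mk 𝔪)
  obtain ⟨w, hwinj, hlift⟩ := exists_lift p
  -- the finite group
  let gA : Subgroup.closure (S : Set G) →* Matrix (Fin n) (Fin n) A :=
    { toFun := fun g => Matrix.of fun i j => ⟨(ρ g : Matrix (Fin n) (Fin n) L) i j, (hentry g i j).1⟩
      map_one' := by
        ext i j
        by_cases hij : i = j <;> simp [Matrix.one_apply, hij]
      map_mul' := fun g h => by
        ext i j
        simp [Matrix.mul_apply] }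
  let gk : Subgroup.closure (S : Set G) →* GL (Fin n) (A ⧸ 𝔪) :=
    (Units.map (Ideal.Quotient.mk 𝔪).mapMatrix.toMonoidHom).comp gA.toHomUnits
  let σ : GL (Fin n) (A ⧸ 𝔪) × Q →* Matrix (Fin n) (Fin n) (AlgebraicClosure (ZMod p)) :=
    (emb.mapMatrix.toMonoidHom.comp (Units.coeHom _)).comp (MonoidHom.fst _ _)
  let π : Subgroup.closure (S : Set G) →* GL (Fin n) (A ⧸ 𝔪) × Q :=
    gk.prod (ι.comp (Subgroup.closure (S : Set G)).subtype)
  -- the exponents
  have hchoice : ∀ a, ∃ e : ℕ, ∀ i, ‖w (red (tA i)) ^ e - extZero (θ a) (t i)‖ < δ := by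
    intro a
    refine hM (fun i => w (red (tA i))) (fun i => extZero (θ a) (t i))
      (Fintype.card (A ⧸ 𝔪)ˣ) Fintype.card_pos ?_ ?_ ?_
    · intro i
      have h1 : (Units.map (Ideal.Quotient.mk 𝔪).toMonoidHom (tA i)) ^ Fintype.card (A ⧸ 𝔪)ˣ = 1 :=
        pow_card_eq_one
      have h2 := congrArg (fun u : (A ⧸ 𝔪)ˣ => w (emb (u : A ⧸ 𝔪))) h1
      simpa [red, map_pow] using h2
    · intro i
      rw [extZero_coe, Circle.norm_coe]
    · intro c hc hprod
      have htrue : ∏ i, t i ^ c i = 1 := by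
        by_contra hne
        apply ha𝔪
        have hcbox : c ∈ box.filter (fun c => ∏ i, t i ^ c i ≠ 1) := by
          refine Finset.mem_filter.2 ⟨Fintype.mem_piFinset.2 fun i => ?_, hne⟩
          rw [Finset.mem_Icc]
          exact abs_le.1 (hc i)
        have hmem : (((∏ i, tA i ^ c i : (↥A)ˣ) : A) - 1) ∈ 𝔪 := by
          rw [← Ideal.Quotient.eq_zero_iff_mem, map_sub, map_one, sub_eq_zero]
          apply emb.injective
          apply hwinj
          rw [map_one, map_one]
          rw [← hprod]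
          let U : (↥A)ˣ →* ℂˣ := ((Units.map w).comp (Units.map red.toMonoidHom))
          show ((U (∏ i, tA i ^ c i) : ℂˣ) : ℂ) = _
          rw [map_prod]
          simp only [map_zpow, Units.coe_prod, Units.val_zpow_eq_zpow_val]
          rfl
        exact Ideal.prod_mem 𝔪 hcbox hmem
      have h2 : ∏ i, extZero (θ a) (t i) ^ c i = ((θ a (∏ i, t i ^ c i) : Circle) : ℂ) := by
        simp only [map_prod, map_zpow, extZero_coe]
        refine Eq.trans ?_ (map_prod Circle.coeHom _ _).symm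
        exact Finset.prod_congr rfl fun x _ => (Circle.coe_zpow _ _).symm
      rw [h2, htrue, map_one, Circle.coe_one]
  choose e he using hchoice
  -- add a factor of order two, so that the group is nontrivial
  let F := (GL (Fin n) (A ⧸ 𝔪) × Q) × Multiplicative (ZMod 2)
  have hF2 : 2 ≤ Fintype.card F := by
    have h1 : 0 < Fintype.card (GL (Fin n) (A ⧸ 𝔪) × Q) := Fintype.card_pos
    rw [Fintype.card_prod]
    simp only [Fintype.card_multiplicative, ZMod.card]
    omega
  let σF : F →* Matrix (Fin n) (Fin n) (AlgebraicClosure (ZMod p)) := σ.comp (MonoidHom.fst _ _)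
  let qF : F →* Q := (MonoidHom.snd _ _).comp (MonoidHom.fst _ _)
  let f : F → ℂ := fun x => (∏ a, eigSum (fun b => w b ^ e a) (σF x)) * ψ (qF x)
  refine ⟨F, inferInstance, inferInstance, (MonoidHom.inl _ _).comp π, f, ?_, ?_, ?_, ?_, ?_⟩
  · refine VA.mul_mem (VA.prod_mem _ _ fun a _ => ?_) (VA.comp_mem hψ qF)
    exact eigSum_mem_VA w hlift σF (e a)
  · intro g x
    simp only [f]
    congr 1
    · exact Finset.prod_congr rfl fun a _ => eigSum_class _ σF g x
    · rw [map_mul qF, map_mul qF, map_inv qF, hψclass]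
  · refine IsCyc.mul (IsCyc.prod _ _ fun a _ => eigSum_isCyc w σF (e a) hF2) ?_
    intro x
    obtain ⟨P, hP⟩ := hψcyc (qF x)
    have hdvd : Fintype.card Q ∣ Fintype.card F := by
      rw [Fintype.card_prod, Fintype.card_prod]
      exact dvd_mul_of_dvd_left (dvd_mul_left _ _) _
    obtain ⟨d, hd⟩ := hdvd
    refine ⟨P.comp (X ^ d), fun s hs => ?_⟩
    have hs' : s.Coprime (Fintype.card Q) := Nat.Coprime.coprime_dvd_right ⟨d, hd⟩ hs
    show ψ (qF (x ^ s)) = _
    have hd0 : d ≠ 0 := by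
      rintro rfl
      simp at hd
    rw [map_pow qF, hP s hs', aeval_comp, map_pow, aeval_X]
    congr 1
    have hz : zeta (Fintype.card F) ^ d = zeta (Fintype.card Q) := by
      rw [zeta, zeta, ← Complex.exp_nat_mul, hd]
      congr 1
      push_cast
      have h1 : (Fintype.card Q : ℂ) ≠ 0 := by exact_mod_cast Fintype.card_ne_zero
      have h2 : (d : ℂ) ≠ 0 := by exact_mod_cast hd0
      field_simp
    rw [← hz]
    ring
  · intro x
    rw [norm_mul]
    refine mul_le_mul ?_ (hMψ _) (norm_nonneg _) (by positivity)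
    rw [norm_prod]
    refine (Finset.prod_le_prod (g := fun _ => (n + 1 : ℝ)) (fun _ _ => norm_nonneg _) fun a _ => ?_).trans
      (le_of_eq (by simp [hB]))
    refine (norm_sum_map_le _ _ (r := 1) fun b hb => ?_).trans ?_
    · have hb1 := pow_eq_one_of_mem_roots (σF x) (N := Fintype.card F)
        (by rw [← map_pow, pow_card_eq_one, map_one]) hb
      have hn1 : ‖w b‖ = 1 := Complex.norm_eq_one_of_pow_eq_one
        (by rw [← map_pow, hb1, map_one]) Fintype.card_ne_zero
      rw [norm_pow, hn1, one_pow]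
    · rw [mul_one]
      have h1 : (Multiset.card (σF x).charpoly.roots : ℝ) ≤ n := by
        have h2 := (σF x).charpoly.card_roots'
        rw [charpoly_natDegree_eq_dim, Fintype.card_fin] at h2
        exact_mod_cast h2
      linarith
  · intro g hg
    show ‖(∏ a, eigSum (fun b => w b ^ e a) (σ (π g))) * ψ (ι g) - _‖ ≤ η
    rw [← sub_mul, norm_mul]
    -- eigenvalues upstairs and downstairs
    set rts := (ρ g : Matrix (Fin n) (Fin n) L).charpoly.roots with hrts
    have hmem : ∀ x ∈ rts, x ∈ A := fun x hx => by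
      refine hsub _ ?_
      rw [hZ]
      exact Finset.mem_union_left _ (Finset.mem_union_right _
        (Finset.mem_biUnion.2 ⟨g, hg, Multiset.mem_toFinset.2 hx⟩))
    let rtsA : Multiset A := rts.pmap (fun x hx => (⟨x, hx⟩ : A)) hmem
    have hval : rtsA.map (fun x : A => (x : L)) = rts := by
      simp [rtsA, Multiset.map_pmap, Multiset.pmap_eq_map]
    have hchar : (gA g).charpoly = (rtsA.map fun x => X - C x).prod := by
      apply Polynomial.map_injective (A.val.toRingHom) Subtype.val_injective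
      rw [Polynomial.map_multiset_prod, Multiset.map_map, ← Matrix.charpoly_map]
      have h1 : (gA g).map (A.val.toRingHom) = (ρ g : Matrix (Fin n) (Fin n) L) := by
        ext i j
        rfl
      rw [h1, (IsAlgClosed.splits _).eq_prod_roots_of_monic (charpoly_monic _), ← hrts, ← hval,
        Multiset.map_map]
      simp [Function.comp_def]
    have hroots : (σ (π g)).charpoly.roots = rtsA.map red := by
      have h1 : σ (π g) = (gA g).map red := by
        ext i j
        rfl
      rw [h1, Matrix.charpoly_map, hchar, Polynomial.map_multiset_prod, Multiset.map_map]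
      simp only [Function.comp_def, Polynomial.map_sub, map_X, map_C]
      rw [show (rtsA.map fun x => X - C (red x)) = (rtsA.map red).map (fun b => X - C b) from
        (Multiset.map_map (fun b => X - C b) red rtsA).symm, roots_multiset_prod_X_sub_C]
    have hdiff : ∀ a, ‖eigSum (fun b => w b ^ e a) (σ (π g)) - (rts.map (extZero (θ a))).sum‖
        ≤ n * δ := by
      intro a
      rw [eigSum, hroots, ← hval, Multiset.map_map, Multiset.map_map, ← Multiset.sum_map_sub]
      refine (norm_sum_map_le _ _ (r := δ) fun x hx => ?_).trans ?_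
      · have hxR : (x : L) ∈ Rt := by
          refine Finset.mem_biUnion.2 ⟨g, hg, Multiset.mem_toFinset.2 ?_⟩
          rw [← hrts, ← hval]
          exact Multiset.mem_map_of_mem _ hx
        have hi : tA (Rt.equivFin ⟨x, hxR⟩) = (x : A) := by
          apply Subtype.ext
          show (t (Rt.equivFin ⟨x, hxR⟩) : L) = (x : L)
          simp [t]
        have := (he a (Rt.equivFin ⟨x, hxR⟩)).le
        have hti : (t (Rt.equivFin ⟨x, hxR⟩) : L) = (x : L) := by simp [t]
        rw [hi, hti] at this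
        exact this
      · have h1 : Multiset.card rtsA = n := by
          rw [Multiset.card_pmap, hrts, ← (IsAlgClosed.splits _).natDegree_eq_card_roots,
            charpoly_natDegree_eq_dim, Fintype.card_fin]
        rw [h1]
    have hle : ∀ a, ‖(rts.map (extZero (θ a))).sum‖ ≤ B := by
      intro a
      refine (norm_sum_map_le _ _ (r := 1) fun x _ => norm_extZero_le _ x).trans ?_
      have h1 : Multiset.card rts ≤ n := by
        have h2 := (ρ g : Matrix (Fin n) (Fin n) L).charpoly.card_roots'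
        rwa [charpoly_natDegree_eq_dim, Fintype.card_fin, ← hrts] at h2
      have : (Multiset.card rts : ℝ) ≤ n := by exact_mod_cast h1
      rw [hB]
      linarith
    have hle' : ∀ a, ‖eigSum (fun b => w b ^ e a) (σ (π g))‖ ≤ B := by
      intro a
      refine (norm_sum_map_le _ _ (r := 1) fun b hb => ?_).trans ?_
      · have hN : (σ (π g)) ^ Fintype.card (GL (Fin n) (A ⧸ 𝔪) × Q) = 1 := by
          rw [← map_pow, pow_card_eq_one, map_one]
        have hn1 : ‖w b‖ = 1 := Complex.norm_eq_one_of_pow_eq_one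
          (by rw [← map_pow, pow_eq_one_of_mem_roots _ hN hb, map_one]) Fintype.card_ne_zero
        rw [norm_pow, hn1, one_pow]
      · have h2 := (σ (π g)).charpoly.card_roots'
        rw [charpoly_natDegree_eq_dim, Fintype.card_fin] at h2
        have : (Multiset.card (σ (π g)).charpoly.roots : ℝ) ≤ n := by exact_mod_cast h2
        rw [hB]
        linarith
    have hmain := norm_prod_sub_prod_le _ _ hB1 (by positivity) hle' hle hdiff
    calc ‖∏ a, eigSum (fun b => w b ^ e a) (σ (π g)) - ∏ a, (rts.map (extZero (θ a))).sum‖ *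
          ‖ψ (ι g)‖
        ≤ (m * B ^ m * (n * δ)) * Mψ :=
          mul_le_mul hmain (hMψ _) (norm_nonneg _) (by positivity)
      _ ≤ ((m + 1) * B ^ m * ((n + 1) * δ)) * (Mψ + 1) := by
          gcongr <;> linarith
      _ = η := by
          rw [hδ]
          field_simp

end Vale.P184
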