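import Vale.Agent.P184.Defs

/-!
P184: closure properties of `VA`.
-/

namespace Vale.P184

open Matrix

variable {F : Type*} [Group F]

theorem IsRepTrace.of_fintype {m : Type*} [Fintype m] [DecidableEq m]
    (ρ : F →* Matrix m m ℂ) (P : Matrix m m ℂ) (hP : P * P = P)
    (hc : ∀ x, Commute (ρ x) P) : IsRepTrace fun x => (ρ x * P).trace := by
  classical
  let e := Fintype.equivFin m
  let Φ := Matrix.reindexAlgEquiv ℂ ℂ e
  refine ⟨Fintype.card m, (Φ : Matrix m m ℂ →* Matrix _ _ ℂ).comp ρ, Φ P, ?_, ?_, ?_⟩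
  · rw [← map_mul, hP]
  · intro x
    exact (hc x).map Φ
  · intro x
    show _ = (Φ (ρ x) * Φ P).trace
    rw [← map_mul]
    simp only [Φ, Matrix.coe_reindexAlgEquiv, Matrix.trace, Matrix.diag,
      Matrix.reindex_apply, Matrix.submatrix_apply]
    exact (e.symm.sum_comp fun i => (ρ x * P) i i).symm

/-- The trace of an ordinary matrix representation. -/
theorem IsRepTrace.of_hom {m : Type*} [Fintype m] [DecidableEq m]
    (ρ : F →* Matrix m m ℂ) : IsRepTrace fun x => (ρ x).trace := by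
  simpa using IsRepTrace.of_fintype ρ 1 (one_mul 1) (fun x => Commute.one_right _)

theorem isRepTrace_one : IsRepTrace (fun _ : F => (1 : ℂ)) := by
  simpa using IsRepTrace.of_hom (1 : F →* Matrix Unit Unit ℂ)

theorem IsRepTrace.comp {E : Type*} [Group E] {f : F → ℂ} (hf : IsRepTrace f) (ψ : E →* F) :
    IsRepTrace fun y => f (ψ y) := by
  obtain ⟨m, ρ, P, hP, hc, hf⟩ := hf
  exact ⟨m, ρ.comp ψ, P, hP, fun y => hc (ψ y), fun y => hf (ψ y)⟩

open scoped Kronecker in
theorem IsRepTrace.mul {f g : F → ℂ} (hf : IsRepTrace f) (hg : IsRepTrace g) :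
    IsRepTrace fun x => f x * g x := by
  obtain ⟨m, ρ, P, hP, hc, hf⟩ := hf
  obtain ⟨m', σ, Q, hQ, hd, hg⟩ := hg
  let τ : F →* Matrix (Fin m × Fin m') (Fin m × Fin m') ℂ :=
    { toFun := fun x => ρ x ⊗ₖ σ x
      map_one' := by simp
      map_mul' := fun x y => by simp [Matrix.mul_kronecker_mul] }
  have h := IsRepTrace.of_fintype τ (P ⊗ₖ Q)
    (by rw [← Matrix.mul_kronecker_mul, hP, hQ])
    (fun x => by
      show ρ x ⊗ₖ σ x * (P ⊗ₖ Q) = P ⊗ₖ Q * (ρ x ⊗ₖ σ x)
      rw [← Matrix.mul_kronecker_mul, ← Matrix.mul_kronecker_mul, (hc x).eq, (hd x).eq])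
  convert h using 2 with x
  show _ = (ρ x ⊗ₖ σ x * (P ⊗ₖ Q)).trace
  rw [← Matrix.mul_kronecker_mul, Matrix.trace_kronecker, hf, hg]

theorem IsRepTrace.mem_VA {f : F → ℂ} (hf : IsRepTrace f) : f ∈ VA F :=
  Submodule.subset_span hf

theorem VA.smul_mem' {f : F → ℂ} (hf : f ∈ VA F) {a : ℂ} (ha : IsIntegral ℤ a) :
    (fun x => a * f x) ∈ VA F :=
  (VA F).smul_mem (⟨a, ha⟩ : integralClosure ℤ ℂ) hf

theorem VA.const_mem {a : ℂ} (ha : IsIntegral ℤ a) : (fun _ : F => a) ∈ VA F := by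
  simpa using VA.smul_mem' isRepTrace_one.mem_VA ha

theorem VA.mul_mem {f g : F → ℂ} (hf : f ∈ VA F) (hg : g ∈ VA F) :
    (fun x => f x * g x) ∈ VA F := by
  refine Submodule.span_induction ?_ ?_ ?_ ?_ hf
  · intro f hf
    refine Submodule.span_induction ?_ ?_ ?_ ?_ hg
    · intro g hg
      exact (IsRepTrace.mul hf hg).mem_VA
    · simp only [Pi.zero_apply, mul_zero]
      exact (VA F).zero_mem
    · intro g₁ g₂ _ _ h₁ h₂
      simp only [Pi.add_apply, mul_add]
      exact (VA F).add_mem h₁ h₂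
    · intro a g _ h
      convert (VA F).smul_mem a h using 1
      ext x
      simp only [Pi.smul_apply, Subalgebra.smul_def, smul_eq_mul]
      ring
  · simp only [Pi.zero_apply, zero_mul]
    exact (VA F).zero_mem
  · intro f₁ f₂ _ _ h₁ h₂
    simp only [Pi.add_apply, add_mul]
    exact (VA F).add_mem h₁ h₂
  · intro a f _ h
    convert (VA F).smul_mem a h using 1
    ext x
    simp only [Pi.smul_apply, Subalgebra.smul_def, smul_eq_mul]
    ring

theorem VA.comp_mem {E : Type*} [Group E] {f : F → ℂ} (hf : f ∈ VA F) (ψ : E →* F) :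
    (fun y => f (ψ y)) ∈ VA E := by
  refine Submodule.span_induction ?_ ?_ ?_ ?_ hf
  · intro f hf
    exact (hf.comp ψ).mem_VA
  · exact (VA E).zero_mem
  · intro f₁ f₂ _ _ h₁ h₂
    exact (VA E).add_mem h₁ h₂
  · intro a f _ h
    exact (VA E).smul_mem a h

theorem VA.prod_mem {ι : Type*} (s : Finset ι) (f : ι → F → ℂ)
    (hf : ∀ i ∈ s, f i ∈ VA F) : (fun x => ∏ i ∈ s, f i x) ∈ VA F := by
  classical
  induction s using Finset.induction_on with
  | empty => simpa using isRepTrace_one.mem_VA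
  | insert a s ha ih =>
    simp only [Finset.prod_insert ha]
    exact VA.mul_mem (hf a (Finset.mem_insert_self a s))
      (ih fun i hi => hf i (Finset.mem_insert_of_mem hi))

theorem VA.pow_mem {f : F → ℂ} (hf : f ∈ VA F) (k : ℕ) : (fun x => f x ^ k) ∈ VA F := by
  induction k with
  | zero => simpa using isRepTrace_one.mem_VA
  | succ k ih =>
    simp only [pow_succ]
    exact VA.mul_mem ih hf

end Vale.P184
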