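import Vale.Agent.P184.Fourier

/-!
P184: if the eigenvalue character sums of a summable function are integers then the function is,
in aggregate, carried by finitely many tuples of torsion eigenvalues.
-/

namespace Vale.P184

open Finset

theorem norm_multiset_sum_map_le {α : Type*} (s : Multiset α) (f : α → ℂ) {r : ℝ}
    (h : ∀ a ∈ s, ‖f a‖ ≤ r) : ‖(s.map f).sum‖ ≤ Multiset.card s * r := by
  induction s using Multiset.induction with
  | empty => simp
  | cons a s ih =>
    simp only [Multiset.map_cons, Multiset.sum_cons, Multiset.card_cons, Nat.cast_succ]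
    refine (norm_add_le _ _).trans ?_
    have h1 := ih fun b hb => h b (Multiset.mem_cons_of_mem hb)
    have h2 := h a (Multiset.mem_cons_self a s)
    linarith [add_mul (Multiset.card s : ℝ) 1 r]

theorem norm_prod_sub_le {m : ℕ} (x y : Fin m → ℂ) {B δ : ℝ} (hB : 1 ≤ B)
    (hx : ∀ a, ‖x a‖ ≤ B) (hy : ∀ a, ‖y a‖ ≤ B) (hδ : 0 ≤ δ) (h : ∀ a, ‖x a - y a‖ ≤ δ) :
    ‖∏ a, x a - ∏ a, y a‖ ≤ m * B ^ m * δ := by
  induction m with
  | zero => simp
  | succ m ih =>
    rw [Fin.prod_univ_succ, Fin.prod_univ_succ]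
    set X := ∏ a : Fin m, x a.succ
    set Y := ∏ a : Fin m, y a.succ
    have hX : ‖X‖ ≤ B ^ m := by
      rw [norm_prod]
      refine (Finset.prod_le_prod (fun _ _ => norm_nonneg _) fun a _ => hx a.succ).trans ?_
      simp
    have h1 := ih (fun a => x a.succ) (fun a => y a.succ) (fun a => hx _) (fun a => hy _)
      fun a => h _
    have e : x 0 * X - y 0 * Y = (x 0 - y 0) * X + y 0 * (X - Y) := by ring
    rw [e]
    refine (norm_add_le _ _).trans ?_
    rw [norm_mul, norm_mul]
    have hBm : B ^ m ≤ B ^ (m + 1) := pow_le_pow_right₀ hB (Nat.le_succ m)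
    calc ‖x 0 - y 0‖ * ‖X‖ + ‖y 0‖ * ‖X - Y‖ ≤ δ * B ^ m + B * (m * B ^ m * δ) :=
          add_le_add (mul_le_mul (h 0) hX (norm_nonneg _) hδ)
            (mul_le_mul (hy 0) h1 (norm_nonneg _) (zero_le_one.trans hB))
      _ ≤ (m + 1 : ℕ) * B ^ (m + 1) * δ := by
          have := mul_le_mul_of_nonneg_left hBm hδ
          push_cast
          rw [pow_succ] at this ⊢
          linarith

variable {Λ : Type*} [CommGroup Λ] [DecidableEq Λ] {G : Type*} {n : ℕ}

/-- Product of eigenvalue character sums. -/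
noncomputable def charSum (R : G → Multiset Λ) {m : ℕ} (θ : Fin m → Λ →* Circle) (g : G) : ℂ :=
  ∏ a, ((R g).map fun l => (θ a l : ℂ)).sum

/-- Multiplicity coefficient. -/
noncomputable def mulCoef (R : G → Multiset Λ) {m : ℕ} (μ : Fin m → Λ) (g : G) : ℂ :=
  ∏ a, ((R g).count (μ a) : ℂ)

omit [DecidableEq Λ] in
theorem norm_charSum_le (R : G → Multiset Λ) (hR : ∀ g, Multiset.card (R g) ≤ n) {m : ℕ}
    (θ : Fin m → Λ →* Circle) (g : G) : ‖charSum R θ g‖ ≤ ((n : ℝ) + 1) ^ m := by
  rw [charSum, norm_prod]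
  refine (Finset.prod_le_prod (g := fun _ => (n : ℝ) + 1) (fun _ _ => norm_nonneg _)
    fun a _ => ?_).trans (le_of_eq (by simp))
  refine (norm_multiset_sum_map_le _ _ (r := 1) fun l _ => (Circle.norm_coe _).le).trans ?_
  have : (Multiset.card (R g) : ℝ) ≤ n := by exact_mod_cast hR g
  linarith

theorem norm_mulCoef_le (R : G → Multiset Λ) (hR : ∀ g, Multiset.card (R g) ≤ n) {m : ℕ}
    (μ : Fin m → Λ) (g : G) : ‖mulCoef R μ g‖ ≤ ((n : ℝ) + 1) ^ m := by
  rw [mulCoef, norm_prod]
  refine (Finset.prod_le_prod (g := fun _ => (n : ℝ) + 1) (fun _ _ => norm_nonneg _)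
    fun a _ => ?_).trans (le_of_eq (by simp))
  rw [Complex.norm_natCast]
  have h : (R g).count (μ a) ≤ n := (Multiset.count_le_card _ _).trans (hR g)
  have : ((R g).count (μ a) : ℝ) ≤ n := by exact_mod_cast h
  linarith

omit [DecidableEq Λ] in
theorem summable_mul_bounded {b : G → ℂ} (hb : Summable fun g => ‖b g‖) (u : G → ℂ) {U : ℝ}
    (hu : ∀ g, ‖u g‖ ≤ U) : Summable fun g => b g * u g :=
  Summable.of_norm_bounded (hb.mul_right U) fun g => by
    rw [norm_mul]
    exact mul_le_mul_of_nonneg_left (hu g) (norm_nonneg _)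

omit [DecidableEq Λ] in
theorem norm_tsum_mul_sub_le {b : G → ℂ} (hb : Summable fun g => ‖b g‖) (u v : G → ℂ)
    {U : ℝ} (hU0 : 0 ≤ U) (hu : ∀ g, ‖u g‖ ≤ U) (hv : ∀ g, ‖v g‖ ≤ U) {W : Finset G} {δ τ : ℝ} (hδ : 0 ≤ δ)
    (hW : ∀ T : Finset G, Disjoint T W → ∑ g ∈ T, ‖b g‖ ≤ τ)
    (h : ∀ g ∈ W, ‖u g - v g‖ ≤ δ) :
    ‖∑' g, b g * u g - ∑' g, b g * v g‖ ≤ (∑' g, ‖b g‖) * δ + τ * (2 * U) := by
  classical
  rw [← (summable_mul_bounded hb u hu).tsum_sub (summable_mul_bounded hb v hv)]
  have hs := ((summable_mul_bounded hb u hu).sub (summable_mul_bounded hb v hv)).norm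
  refine (norm_tsum_le_tsum_norm hs).trans (hs.tsum_le_of_sum_le fun T => ?_)
  rw [← Finset.sum_filter_add_sum_filter_not T (fun g => g ∈ W)]
  refine add_le_add ?_ ?_
  · calc ∑ g ∈ T with g ∈ W, ‖b g * u g - b g * v g‖ ≤ ∑ g ∈ T with g ∈ W, ‖b g‖ * δ :=
          Finset.sum_le_sum fun g hg => by
            rw [← mul_sub, norm_mul]
            exact mul_le_mul_of_nonneg_left (h g (Finset.mem_filter.1 hg).2) (norm_nonneg _)
      _ ≤ _ := by
          rw [← Finset.sum_mul]
          exact mul_le_mul_of_nonneg_right (hb.sum_le_tsum _ fun g _ => norm_nonneg _) hδ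
  · have hU : ∀ g, ‖b g * u g - b g * v g‖ ≤ ‖b g‖ * (2 * U) := fun g => by
      rw [← mul_sub, norm_mul]
      refine mul_le_mul_of_nonneg_left ((norm_sub_le _ _).trans ?_) (norm_nonneg _)
      linarith [hu g, hv g]
    refine (Finset.sum_le_sum fun g _ => hU g).trans ?_
    rw [← Finset.sum_mul]
    exact mul_le_mul_of_nonneg_right
      (hW _ (Finset.disjoint_left.2 fun g hg => (Finset.mem_filter.1 hg).2)) (by linarith)

/-- **Torsion spectrum.** -/
theorem exists_spectrum_bound {b : G → ℂ} (hb : Summable fun g => ‖b g‖) (R : G → Multiset Λ)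
    (hR : ∀ g, Multiset.card (R g) ≤ n) (m : ℕ)
    (hint : ∀ θ : Fin m → Λ →* Circle, ∃ z : ℤ, ∑' g, b g * charSum R θ g = z) :
    ∃ D : Finset Λ, ∀ μ : Fin m → Λ, ∑' g, b g * mulCoef R μ g ≠ 0 →
      ∀ a, IsOfFinOrder (μ a) ∧ μ a ∈ Subgroup.closure (D : Set Λ) := by
  classical
  set B := ((n : ℝ) + 1) with hB
  have hB1 : 1 ≤ B := by rw [hB]; linarith [Nat.cast_nonneg (α := ℝ) n]
  set Sig := ∑' g, ‖b g‖ with hSig
  have hSig0 : 0 ≤ Sig := tsum_nonneg fun g => norm_nonneg _
  have htail : ∀ τ : ℝ, 0 < τ → ∃ W : Finset G,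
      ∀ T : Finset G, Disjoint T W → ∑ g ∈ T, ‖b g‖ ≤ τ := by
    intro τ hτ
    obtain ⟨W, hW⟩ := hb.vanishing (Metric.ball_mem_nhds (0 : ℝ) hτ)
    refine ⟨W, fun T hT => ?_⟩
    have := hW T hT
    rw [Metric.mem_ball, dist_zero_right, Real.norm_eq_abs] at this
    exact (le_abs_self _).trans this.le
  obtain ⟨W, hW⟩ := htail (1 / (8 * B ^ m + 1)) (by positivity)
  let D : Finset Λ := W.biUnion fun g => (R g).toFinset
  set δ := 1 / (4 * ((Sig + 1) * (m + 1) * B ^ m * B)) with hδ
  have hδ0 : 0 < δ := by positivity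
  refine ⟨D, fun μ hμ a => ?_⟩
  by_contra hcon
  -- a character near one on `D` and nontrivial at `μ a`
  obtain ⟨η, hηD, hημ⟩ : ∃ η : Λ →* Circle, (∀ d ∈ D, ‖(η d : ℂ) - 1‖ ≤ δ) ∧ η (μ a) ≠ 1 := by
    rw [not_and_or] at hcon
    rcases hcon with h | h
    · exact exists_char_near D h hδ0
    · obtain ⟨χ, h1, h2⟩ := exists_char_trivial_on _ h
      refine ⟨χ, fun d hd => ?_, h2⟩
      rw [h1 d (Subgroup.subset_closure hd)]
      simp [hδ0.le]
  let tw : (Fin m → Λ →* Circle) → Fin m → Λ →* Circle :=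
    fun θ => Function.update θ a (θ a * η)
  -- periodicity
  have hper : ∀ θ, ∑' g, b g * charSum R (tw θ) g = ∑' g, b g * charSum R θ g := by
    intro θ
    obtain ⟨z, hz⟩ := hint (tw θ)
    obtain ⟨z', hz'⟩ := hint θ
    have hclose : ‖∑' g, b g * charSum R (tw θ) g - ∑' g, b g * charSum R θ g‖ < 1 := by
      refine lt_of_le_of_lt (norm_tsum_mul_sub_le hb _ _ (U := B ^ m) (by positivity) (norm_charSum_le R hR _)
        (norm_charSum_le R hR _) (δ := m * B ^ m * (n * δ)) (by positivity) hW fun g hg => ?_) ?_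
      · refine norm_prod_sub_le _ _ hB1 ?_ ?_ (by positivity) ?_
        · intro c
          refine (norm_multiset_sum_map_le _ _ (r := 1) fun l _ => (Circle.norm_coe _).le).trans ?_
          have : (Multiset.card (R g) : ℝ) ≤ n := by exact_mod_cast hR g
          rw [hB]; linarith
        · intro c
          refine (norm_multiset_sum_map_le _ _ (r := 1) fun l _ => (Circle.norm_coe _).le).trans ?_
          have : (Multiset.card (R g) : ℝ) ≤ n := by exact_mod_cast hR g
          rw [hB]; linarith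
        · intro c
          rw [← Multiset.sum_map_sub]
          refine (norm_multiset_sum_map_le _ _ (r := δ) fun l hl => ?_).trans ?_
          · by_cases hc : c = a
            · subst hc
              simp only [tw, Function.update_self, MonoidHom.mul_apply, Circle.coe_mul]
              rw [show (θ c l : ℂ) * η l - θ c l = (θ c l : ℂ) * ((η l : ℂ) - 1) by ring,
                norm_mul, Circle.norm_coe, one_mul]
              exact hηD l (Finset.mem_biUnion.2 ⟨g, hg, Multiset.mem_toFinset.2 hl⟩)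
            · simp only [tw, Function.update_of_ne hc, sub_self, norm_zero]
              exact hδ0.le
          · have : (Multiset.card (R g) : ℝ) ≤ n := by exact_mod_cast hR g
            exact mul_le_mul_of_nonneg_right this hδ0.le
      · have h1 : Sig * (m * B ^ m * (n * δ)) ≤ 1 / 4 := by
          calc Sig * (m * B ^ m * (n * δ)) ≤ (Sig + 1) * ((m + 1) * B ^ m * (B * δ)) := by
                rw [hB]; gcongr <;> linarith
            _ = 1 / 4 := by rw [hδ]; field_simp
        have h2 : 1 / (8 * B ^ m + 1) * (2 * B ^ m) ≤ 1 / 4 := by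
          rw [div_mul_eq_mul_div, one_mul, div_le_iff₀ (by positivity)]
          linarith [pow_nonneg (zero_le_one.trans hB1) m]
        linarith
    rw [hz, hz', ← Int.cast_sub, Complex.norm_intCast] at hclose
    have h1 : |z - z'| < 1 := by exact_mod_cast hclose
    rw [Int.abs_lt_one_iff, sub_eq_zero] at h1
    rw [hz, hz', h1]
  -- extraction of the coefficient
  apply hμ
  have hη1 : (η (μ a) : ℂ) - 1 ≠ 0 := fun h =>
    hημ (Circle.coe_eq_one.1 (sub_eq_zero.1 h))
  suffices h : (∑' g, b g * mulCoef R μ g) * ((η (μ a) : ℂ) - 1) = 0 from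
    (mul_eq_zero.1 h).resolve_right hη1
  refine norm_le_zero_iff.1 (le_of_forall_pos_le_add fun ε hε => ?_)
  rw [zero_add]
  set ε' := ε / (2 * (Sig + 1) * (m * B ^ m * B + 1) + 4 * B ^ m + 4) with hε'
  have hε'0 : 0 < ε' := by positivity
  obtain ⟨W', hW'⟩ := htail ε' hε'0
  let Wd : Finset Λ := ((W'.biUnion fun g => (R g).toFinset).biUnion fun l =>
    Finset.univ.image fun c => l * (μ c)⁻¹).erase 1
  obtain ⟨κ, φ, hφ⟩ := exists_avg Wd (Finset.notMem_erase _ _) hε'0
  have hK : ((κ + 1 : ℕ) : ℂ) ≠ 0 := Nat.cast_ne_zero.2 (Nat.succ_ne_zero κ)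
  let av : Λ → ℂ := fun l => ((κ + 1 : ℕ) : ℂ)⁻¹ * ∑ s, (φ s l : ℂ)
  have hav1 : ∀ l, ‖av l‖ ≤ 1 := by
    intro l
    rw [norm_mul, norm_inv, Complex.norm_natCast, inv_mul_le_iff₀ (by positivity), mul_one]
    refine (norm_sum_le _ _).trans ?_
    simp [Circle.norm_coe]
  -- kernels for a twist `ξ`
  let J : (Fin m → Λ →* Circle) → G → ℂ := fun ξ g =>
    ∏ c, ((R g).map fun l => (ξ c l : ℂ) * av (l * (μ c)⁻¹)).sum
  have hJ : ∀ ξ : Fin m → Λ →* Circle, ∑' g, b g * J ξ g =
      (((κ + 1 : ℕ) : ℂ)⁻¹) ^ m * ∑ s : Fin m → Fin (κ + 1), (∏ c, (φ (s c) (μ c) : ℂ)⁻¹) *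
        ∑' g, b g * charSum R (fun c => φ (s c) * ξ c) g := by
    intro ξ
    have hpt : ∀ g, J ξ g = (((κ + 1 : ℕ) : ℂ)⁻¹) ^ m * ∑ s : Fin m → Fin (κ + 1),
        (∏ c, (φ (s c) (μ c) : ℂ)⁻¹) * charSum R (fun c => φ (s c) * ξ c) g := by
      intro g
      have hc : ∀ c, ((R g).map fun l => (ξ c l : ℂ) * av (l * (μ c)⁻¹)).sum =
          ((κ + 1 : ℕ) : ℂ)⁻¹ * ∑ s, (φ s (μ c) : ℂ)⁻¹ *
            ((R g).map fun l => ((φ s * ξ c) l : ℂ)).sum := by
        intro c
        simp only [← Multiset.sum_map_mul_left]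
        rw [← Multiset.sum_map_sum, ← Multiset.sum_map_mul_left]
        refine congrArg Multiset.sum (Multiset.map_congr rfl fun l _ => ?_)
        simp only [av, Finset.mul_sum]
        refine Finset.sum_congr rfl fun s _ => ?_
        simp only [MonoidHom.mul_apply, map_mul, map_inv, Circle.coe_mul, Circle.coe_inv]
        ring
      simp only [J, hc]
      rw [Finset.prod_mul_distrib, Finset.prod_const, Finset.card_univ, Fintype.card_fin,
        Fintype.prod_sum]
      simp only [Finset.prod_mul_distrib]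
      rfl
    simp only [hpt]
    simp only [Finset.mul_sum, ← tsum_mul_left]
    rw [← Summable.tsum_finsetSum]
    · refine tsum_congr fun g => Finset.sum_congr rfl fun s _ => ?_
      ring
    · intro s _
      exact ((summable_mul_bounded hb _ (norm_charSum_le R hR _)).mul_left _).mul_left _
  let e₁ : Fin m → Λ →* Circle := Function.update (fun _ => 1) a η
  let e₀ : Fin m → Λ →* Circle := fun _ => 1
  have heq : ∑' g, b g * J e₁ g = ∑' g, b g * J e₀ g := by
    rw [hJ, hJ]
    refine congrArg _ (Finset.sum_congr rfl fun s _ => congrArg _ ?_)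
    have h1 : (fun c => φ (s c) * e₁ c) = tw (fun c => φ (s c) * e₀ c) := by
      funext c
      by_cases hc : c = a
      · subst hc
        simp [tw, e₁, e₀]
      · simp [tw, e₁, e₀, Function.update_of_ne hc]
    rw [h1]
    exact hper _
  have hJU : ∀ ξ g, ‖J ξ g‖ ≤ B ^ m := by
    intro ξ g
    rw [norm_prod]
    refine (Finset.prod_le_prod (g := fun _ => B) (fun _ _ => norm_nonneg _) fun c _ => ?_).trans
      (le_of_eq (by simp))
    refine (norm_multiset_sum_map_le _ _ (r := 1) fun l _ => ?_).trans ?_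
    · rw [norm_mul, Circle.norm_coe, one_mul]; exact hav1 _
    · have : (Multiset.card (R g) : ℝ) ≤ n := by exact_mod_cast hR g
      rw [hB]; linarith
  have happ : ∀ ξ : Fin m → Λ →* Circle,
      ‖∑' g, b g * J ξ g - (∑' g, b g * mulCoef R μ g) * ∏ c, (ξ c (μ c) : ℂ)‖ ≤
        Sig * (m * B ^ m * (B * ε')) + ε' * (2 * B ^ m) := by
    intro ξ
    rw [← tsum_mul_right, tsum_congr fun g => mul_assoc (b g) (mulCoef R μ g) _]
    refine norm_tsum_mul_sub_le hb _ _ (U := B ^ m) (by positivity) (hJU ξ) (fun g => ?_) (by positivity) hW' fun g hg => ?_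
    · rw [norm_mul, norm_prod]
      simp only [Circle.norm_coe, Finset.prod_const_one, mul_one]
      exact norm_mulCoef_le R hR μ g
    · rw [mulCoef, ← Finset.prod_mul_distrib]
      refine norm_prod_sub_le (δ := B * ε') _ _ hB1 ?_ ?_ (by positivity) ?_
      · intro c
        refine (norm_multiset_sum_map_le _ _ (r := 1) fun l _ => ?_).trans ?_
        · rw [norm_mul, Circle.norm_coe, one_mul]; exact hav1 _
        · have : (Multiset.card (R g) : ℝ) ≤ n := by exact_mod_cast hR g
          rw [hB]; linarith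
      · intro c
        rw [norm_mul, Circle.norm_coe, mul_one, Complex.norm_natCast]
        have h : (R g).count (μ c) ≤ n := (Multiset.count_le_card _ _).trans (hR g)
        have : ((R g).count (μ c) : ℝ) ≤ n := by exact_mod_cast h
        rw [hB]; linarith
      · intro c
        have hcnt : ((R g).count (μ c) : ℂ) * (ξ c (μ c) : ℂ) =
            ((R g).map fun l => if l = μ c then (ξ c l : ℂ) else 0).sum := by
          induction R g using Multiset.induction with
          | empty => simp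
          | cons x s ih =>
            simp only [Multiset.map_cons, Multiset.sum_cons, Multiset.count_cons, Nat.cast_add,
              add_mul, ih]
            by_cases hx : x = μ c
            · subst hx; simp; ring
            · simp [hx, Ne.symm hx]
        rw [hcnt, ← Multiset.sum_map_sub]
        refine (norm_multiset_sum_map_le _ _ (r := ε') fun l hl => ?_).trans ?_
        · by_cases hlc : l = μ c
          · rw [if_pos hlc]
            have hav : av (l * (μ c)⁻¹) = 1 := by
              simp only [av, hlc, mul_inv_cancel, map_one, Circle.coe_one, Finset.sum_const,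
                Finset.card_univ, Fintype.card_fin, nsmul_eq_mul, mul_one]
              exact inv_mul_cancel₀ hK
            rw [hav, mul_one, sub_self, norm_zero]
            exact hε'0.le
          · rw [if_neg hlc, sub_zero, norm_mul, Circle.norm_coe, one_mul]
            refine hφ _ ?_
            refine Finset.mem_erase.2 ⟨fun h => hlc (mul_inv_eq_one.1 h), ?_⟩
            exact Finset.mem_biUnion.2 ⟨l,
              Finset.mem_biUnion.2 ⟨g, hg, Multiset.mem_toFinset.2 hl⟩,
              Finset.mem_image.2 ⟨c, Finset.mem_univ _, rfl⟩⟩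
        · have : (Multiset.card (R g) : ℝ) ≤ B := by
            have h : (Multiset.card (R g) : ℝ) ≤ n := by exact_mod_cast hR g
            rw [hB]; linarith
          exact mul_le_mul_of_nonneg_right this hε'0.le
  have hp1 : ∏ c, (e₁ c (μ c) : ℂ) = (η (μ a) : ℂ) := by
    rw [Finset.prod_eq_single a]
    · simp [e₁]
    · intro c _ hc
      simp [e₁, Function.update_of_ne hc]
    · simp
  have hp0 : ∏ c, (e₀ c (μ c) : ℂ) = 1 := by simp [e₀]
  have hA := happ e₁
  have hC := happ e₀
  rw [hp1, heq] at hA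
  rw [hp0, mul_one] at hC
  set X := ∑' g, b g * J e₀ g
  set c₀ := ∑' g, b g * mulCoef R μ g
  calc ‖c₀ * ((η (μ a) : ℂ) - 1)‖ = ‖(X - c₀) - (X - c₀ * (η (μ a) : ℂ))‖ := by
        congr 1; ring
    _ ≤ ‖X - c₀‖ + ‖X - c₀ * (η (μ a) : ℂ)‖ := norm_sub_le _ _
    _ ≤ 2 * (Sig * (m * B ^ m * (B * ε')) + ε' * (2 * B ^ m)) := by linarith
    _ ≤ ε' * (2 * (Sig + 1) * (m * B ^ m * B + 1) + 4 * B ^ m + 4) := by
        have h1 : 0 ≤ (m : ℝ) * B ^ m * B := by positivity
        nlinarith [mul_nonneg hSig0 hε'0.le, mul_nonneg h1 hε'0.le, hε'0.le]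
    _ = ε := by rw [hε']; field_simp

end Vale.P184
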