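import Vale.Agent.P184.Brauer
import Vale.Agent.P184.Lift
import Vale.Agent.P184.Power
import Vale.Agent.P184.FiniteInt

/-!
P184: lifted sums of powers of eigenvalues are in `VA`.
-/

namespace Vale.P184

open Matrix Polynomial

/-- The sum of `w` over the eigenvalues of `M`. -/
noncomputable def eigSum {k : Type*} [Field k] {n : ℕ} (w : k → ℂ)
    (M : Matrix (Fin n) (Fin n) k) : ℂ :=
  (M.charpoly.roots.map w).sum

variable {p : ℕ} [Fact p.Prime] {n : ℕ}

/-- Eigenvalues of a matrix of finite order are roots of unity of that order. -/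
theorem pow_eq_one_of_mem_roots {k : Type*} [Field k] [IsAlgClosed k]
    (M : Matrix (Fin n) (Fin n) k) {N : ℕ} (hM : M ^ N = 1) {r : k}
    (hr : r ∈ M.charpoly.roots) : r ^ N = 1 := by
  have h : r ^ N ∈ (M ^ N).charpoly.roots := by
    rw [roots_charpoly_pow]
    exact Multiset.mem_map_of_mem _ hr
  rw [hM, charpoly_one, roots_pow] at h
  have h1 : (X - 1 : k[X]) = X - C 1 := by simp
  rw [h1, roots_X_sub_C] at h
  exact Multiset.mem_singleton.1 (Multiset.mem_nsmul.1 h).2

universe uF

variable {F : Type uF} [Group F]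

theorem eigSum_class (w : (AlgebraicClosure (ZMod p)) → ℂ) (σ : F →* Matrix (Fin n) (Fin n) (AlgebraicClosure (ZMod p))) (g x : F) :
    eigSum w (σ (g * x * g⁻¹)) = eigSum w (σ x) := by
  let u : (Matrix (Fin n) (Fin n) (AlgebraicClosure (ZMod p)))ˣ := Units.map σ (toUnits g)
  have h : σ (g * x * g⁻¹) = u.val * σ x * u⁻¹.val := by simp [u]
  simp only [eigSum]
  rw [h, Matrix.charpoly_mul_comm, ← mul_assoc, Units.inv_mul, one_mul]

theorem eigSum_pow (w : (AlgebraicClosure (ZMod p)) →* ℂ) (σ : F →* Matrix (Fin n) (Fin n) (AlgebraicClosure (ZMod p))) (e : ℕ) (x : F) :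
    eigSum (fun a => w a ^ e) (σ x) = eigSum w (σ (x ^ e)) := by
  simp only [eigSum, map_pow σ, roots_charpoly_pow, Multiset.map_map, Function.comp_def, map_pow]

variable [Fintype F]

omit [Fintype F] in
theorem pow_of_pow_eq_one {M : Type*} [Monoid M] (y : M) {q m : ℕ} (hy : y ^ m = 1)
    (hqm : q % m = 1 % m) : y ^ q = y := by
  rw [← Nat.div_add_mod q m, pow_add, mul_comm m, pow_mul', hy, one_pow, one_mul, hqm]
  rcases eq_or_ne m 1 with h | h
  · rw [h] at hy ⊢
    simpa using hy.symm
  · rcases Nat.eq_zero_or_pos m with h0 | h0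
    · simp [h0]
    · rw [Nat.mod_eq_of_lt (by omega), pow_one]


theorem eigSum_isCyc (w : (AlgebraicClosure (ZMod p)) →* ℂ) (σ : F →* Matrix (Fin n) (Fin n) (AlgebraicClosure (ZMod p))) (e : ℕ)
    (hN : 2 ≤ Fintype.card F) :
    IsCyc (Fintype.card F) fun x => eigSum (fun a => w a ^ e) (σ x) := by
  refine isCyc_of_roots hN _ (fun x => (σ x).charpoly.roots.map fun a => w a ^ e) ?_ ?_
  · intro x r hr
    obtain ⟨a, ha, rfl⟩ := Multiset.mem_map.1 hr
    have := pow_eq_one_of_mem_roots (σ x) (N := Fintype.card F)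
      (by rw [← map_pow, pow_card_eq_one, map_one]) ha
    right
    rw [pow_right_comm, ← map_pow, this, map_one, one_pow]
  · intro x t _
    simp only [eigSum, map_pow σ, roots_charpoly_pow, Multiset.map_map, Function.comp_def,
      map_pow w]
    congr 1
    exact Multiset.map_congr rfl fun a _ => pow_right_comm _ _ _

theorem eigSum_mem_VA (w : (AlgebraicClosure (ZMod p)) →* ℂ)
    (hlift : ∀ (H : Type uF) [Group H] [Fintype H], ¬ p ∣ Fintype.card H →
      ∀ (n : ℕ) (ρ : H →* Matrix (Fin n) (Fin n) (AlgebraicClosure (ZMod p))),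
        IsRepTrace (fun h => ((ρ h).charpoly.roots.map w).sum))
    (σ : F →* Matrix (Fin n) (Fin n) (AlgebraicClosure (ZMod p))) (e : ℕ) :
    (fun x => eigSum (fun a => w a ^ e) (σ x)) ∈ VA F := by
  classical
  have hp : p.Prime := Fact.out
  suffices h1 : (fun x => eigSum w (σ x)) ∈ VA F by
    simpa only [eigSum_pow] using VA.comp_pow_mem h1 e
  refine mem_VA_of_elementary _ (eigSum_class w σ) ?_ ?_
  · intro x
    refine IsIntegral.multiset_sum fun r hr => ?_
    obtain ⟨a, ha, rfl⟩ := Multiset.mem_map.1 hr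
    refine IsIntegral.of_pow (n := Fintype.card F) Fintype.card_pos ?_
    rw [← map_pow, pow_eq_one_of_mem_roots (σ x) (N := Fintype.card F)
      (by rw [← map_pow, pow_card_eq_one, map_one]) ha, map_one]
    exact isIntegral_one
  intro ℓ hℓ c P hc hP hcomm
  set N := Nat.card (Subgroup.zpowers c × P) with hN
  have hN0 : N ≠ 0 := Nat.card_pos.ne'
  set a := N.factorization p with ha
  set m := N / p ^ a with hm
  have hNm : p ^ a * m = N := Nat.ordProj_mul_ordCompl_eq_self N p
  have hpm : p.Coprime m := Nat.coprime_ordCompl hp hN0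
  have hm0 : 0 < m := Nat.pos_of_ne_zero fun h => hN0 (by rw [← hNm, h, mul_zero])
  set q := p ^ ((a + 1) * m.totient) with hq
  have hqm : q % m = 1 % m := by
    rw [hq, mul_comm, pow_mul]
    have := (Nat.ModEq.pow_totient hpm).pow (a + 1)
    rwa [one_pow] at this
  have haq : p ^ a ∣ q := by
    refine pow_dvd_pow p ?_
    have := Nat.totient_pos.2 hm0
    nlinarith
  have hfix : ∀ (y : P), y ^ m = 1 → y ^ q = y := fun y hy => pow_of_pow_eq_one y hy hqm
  have hu : (∀ u : P, u ^ q = u) ∨ ∀ u : P, u ^ q = 1 := by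
    have hdvd : ∀ u : P, orderOf u ∣ p ^ a * m := by
      intro u
      rw [hNm, hN, Nat.card_prod]
      exact dvd_mul_of_dvd_right (orderOf_dvd_natCard u) _
    rcases eq_or_ne ℓ p with rfl | hne
    · right
      intro u
      obtain ⟨j, hj⟩ := hP u
      obtain ⟨i, -, hi⟩ := (Nat.dvd_prime_pow hℓ).1 (orderOf_dvd_of_pow_eq_one hj)
      have hd : orderOf u ∣ ℓ ^ a := by
        refine (Nat.Coprime.dvd_of_dvd_mul_right ?_ (hdvd u))
        rw [hi]
        exact hpm.pow_left i
      exact orderOf_dvd_iff_pow_eq_one.1 (hd.trans haq)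
    · left
      intro u
      refine hfix u (orderOf_dvd_iff_pow_eq_one.1 ?_)
      obtain ⟨j, hj⟩ := hP u
      obtain ⟨i, -, hi⟩ := (Nat.dvd_prime_pow hℓ).1 (orderOf_dvd_of_pow_eq_one hj)
      refine Nat.Coprime.dvd_of_dvd_mul_left ?_ (hdvd u)
      rw [hi]
      exact Nat.Coprime.pow i a ((Nat.coprime_primes hℓ hp).2 hne)
  let Φ : Subgroup.zpowers c × P →* Subgroup.zpowers c × P :=
    { toFun := fun y => y ^ q
      map_one' := one_pow q
      map_mul' := fun y z => by
        refine Prod.ext (Commute.mul_pow (Std.Commutative.comm (op := (· * ·)) y.1 z.1) q) ?_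
        show (y.2 * z.2) ^ q = y.2 ^ q * z.2 ^ q
        rcases hu with h | h <;> simp [h] }
  let mlt : Subgroup.zpowers c × P →* F :=
    MonoidHom.noncommCoprod (Subgroup.zpowers c).subtype P.subtype fun z u => by
      obtain ⟨k, hk⟩ := Subgroup.mem_zpowers_iff.1 z.2
      show Commute (z : F) (u : F)
      rw [← hk]
      exact (hcomm u u.2).zpow_left k
  have hcard : ∀ y : Subgroup.zpowers c × P, y ^ (p ^ a * m) = 1 := fun y => by
    rw [hNm, hN]
    exact pow_card_eq_one'
  have hH : ¬ p ∣ Fintype.card Φ.range := by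
    intro hd
    obtain ⟨h, hh⟩ := exists_prime_orderOf_dvd_card p hd
    obtain ⟨y, hy⟩ := h.2
    have h1 : h ^ m = 1 := by
      apply Subtype.ext
      show (h : Subgroup.zpowers c × P) ^ m = 1
      rw [← hy]
      show (y ^ q) ^ m = 1
      obtain ⟨d, hd⟩ := haq
      rw [← pow_mul, hd, mul_right_comm, pow_mul, hcard, one_pow]
    have h2 := orderOf_dvd_of_pow_eq_one h1
    rw [hh] at h2
    exact hp.ne_one (Nat.eq_one_of_dvd_coprimes hpm dvd_rfl h2)
  have hrep := hlift Φ.range hH n (σ.comp (mlt.comp Φ.range.subtype))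
  have hrep2 := (hrep.comp Φ.rangeRestrict).mem_VA
  convert hrep2 using 1
  ext y
  show eigSum w (σ (mlt y)) = eigSum w (σ (mlt (y ^ q)))
  rw [map_pow, map_pow σ]
  simp only [eigSum]
  rw [roots_charpoly_pow, Multiset.map_map]
  refine congrArg Multiset.sum (Multiset.map_congr rfl fun r hr => ?_)
  show w r = w (r ^ q)
  congr 1
  refine (pow_of_pow_eq_one r ?_ hqm).symm
  have h1 : r ^ (p ^ a * m) = 1 := pow_eq_one_of_mem_roots (σ (mlt y))
    (by rw [← map_pow, ← map_pow, hcard, map_one, map_one]) hr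
  rw [pow_mul] at h1
  exact frobenius_inj (AlgebraicClosure (ZMod p)) p |>.iterate a (by simpa [iterate_frobenius] using h1)

end Vale.P184
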