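import Mathlib

/-!
P184: in unitary and special unitary groups the characteristic polynomial determines the
conjugacy class (Cayley transform + spectral theorem for Hermitian matrices).
-/

namespace Vale.P184

open Matrix Polynomial

variable {n : ℕ}

theorem exists_unit_scalar_not_root (U : Matrix (Fin n) (Fin n) ℂ) :
    ∃ c : ℂ, ‖c‖ = 1 ∧ IsUnit (1 + c • U).det := by
  classical
  have hfin : ({z : ℂ | z ∈ spectrum ℂ U}).Finite := Matrix.finite_spectrum U
  have hinf : (Set.range fun t : Set.Ioo (0 : ℝ) 1 => (Circle.exp t : ℂ)).Infinite := by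
    haveI : Infinite (Set.Ioo (0 : ℝ) 1) := (Set.Ioo_infinite one_pos).to_subtype
    refine Set.infinite_range_of_injective fun a b h => ?_
    have h' : Circle.exp (a : ℝ) = Circle.exp (b : ℝ) := Subtype.ext h
    obtain ⟨m, hm⟩ := Circle.exp_eq_exp.1 h'
    have h3 := Real.pi_gt_three
    have ha := a.2
    have hb := b.2
    rw [Set.mem_Ioo] at ha hb
    rcases lt_trichotomy m 0 with hm0 | hm0 | hm0
    · have : (m : ℝ) ≤ -1 := by exact_mod_cast (show m ≤ -1 by omega)
      nlinarith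
    · rw [hm0, Int.cast_zero, zero_mul, add_zero] at hm
      exact Subtype.ext hm
    · have : (1 : ℝ) ≤ m := by exact_mod_cast (show 1 ≤ m by omega)
      nlinarith
  obtain ⟨_, ⟨t, rfl⟩, ht⟩ := hinf.exists_notMem_finite hfin
  set z : ℂ := (Circle.exp (t : ℝ) : ℂ)
  have hz : z ≠ 0 := Circle.coe_ne_zero _
  refine ⟨-z⁻¹, by simp [z, Circle.norm_coe], ?_⟩
  have hu : IsUnit (algebraMap ℂ (Matrix (Fin n) (Fin n) ℂ) z - U) := spectrum.notMem_iff.1 ht
  rw [← Matrix.isUnit_iff_isUnit_det]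
  have h1 : (1 : Matrix (Fin n) (Fin n) ℂ) + (-z⁻¹) • U =
      algebraMap ℂ (Matrix (Fin n) (Fin n) ℂ) z⁻¹ * (algebraMap ℂ _ z - U) := by
    rw [mul_sub, ← map_mul, inv_mul_cancel₀ hz, map_one, Algebra.smul_def, map_neg, neg_mul,
      ← sub_eq_add_neg]
  rw [h1]
  exact ((isUnit_iff_ne_zero.2 (inv_ne_zero hz)).map _).mul hu

/-- A unitary matrix is unitarily diagonalisable. -/
theorem exists_unitary_diag (U : Matrix.unitaryGroup (Fin n) ℂ) :
    ∃ (W : Matrix.unitaryGroup (Fin n) ℂ) (d : Fin n → ℂ),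
      (U : Matrix (Fin n) (Fin n) ℂ) = W * diagonal d * star (W : Matrix (Fin n) (Fin n) ℂ) := by
  classical
  obtain ⟨c, hc, hdet⟩ := exists_unit_scalar_not_root (U : Matrix (Fin n) (Fin n) ℂ)
  have hc0 : c ≠ 0 := fun h => by simp [h] at hc
  set V : Matrix (Fin n) (Fin n) ℂ := c • (U : Matrix (Fin n) (Fin n) ℂ) with hV
  have hU : star (U : Matrix (Fin n) (Fin n) ℂ) * U = 1 := Unitary.coe_star_mul_self U
  have hcc : star c * c = 1 := by
    rw [Complex.star_def, ← Complex.normSq_eq_conj_mul_self, Complex.normSq_eq_norm_sq, hc]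
    simp
  have hVV : Vᴴ * V = 1 := by
    rw [hV, conjTranspose_smul, smul_mul_smul_comm, hcc, one_smul, ← star_eq_conjTranspose, hU]
  have hVV' : V * Vᴴ = 1 := mul_eq_one_comm.1 hVV
  obtain ⟨P, hP⟩ := (Matrix.isUnit_iff_isUnit_det _).2 hdet
  set Pi : Matrix (Fin n) (Fin n) ℂ := (P⁻¹).val with hPi
  have hPV : (1 + V) * Pi = 1 := by rw [← hP]; exact P.mul_inv
  have hPV' : Pi * (1 + V) = 1 := by rw [← hP]; exact P.inv_mul
  have hcomm : Commute Pi V := by
    have h1 : Commute (1 + V) V := (Commute.one_left V).add_left (Commute.refl V)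
    show Pi * V = V * Pi
    calc Pi * V = Pi * (V * ((1 + V) * Pi)) := by rw [hPV, mul_one]
      _ = Pi * ((1 + V) * (V * Pi)) := by rw [← mul_assoc V, ← h1.eq, mul_assoc]
      _ = V * Pi := by rw [← mul_assoc, hPV', one_mul]
  set H : Matrix (Fin n) (Fin n) ℂ := Complex.I • ((1 - V) * Pi) with hHdef
  -- the conjugate transpose of `Pi`
  have hPiH : Piᴴ = V * Pi := by
    have h1 : (1 + Vᴴ) * (V * Pi) = 1 := by
      rw [← mul_assoc, add_mul, one_mul, hVV, add_comm, hPV]
    have h2 : Piᴴ * (1 + Vᴴ) = 1 := by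
      rw [← conjTranspose_one, ← conjTranspose_add, ← conjTranspose_mul, hPV]
    calc Piᴴ = Piᴴ * ((1 + Vᴴ) * (V * Pi)) := by rw [h1, mul_one]
      _ = V * Pi := by rw [← mul_assoc, h2, one_mul]
  have hH : H.IsHermitian := by
    show Hᴴ = H
    rw [hHdef, conjTranspose_smul, conjTranspose_mul, hPiH, conjTranspose_sub, conjTranspose_one]
    rw [Complex.star_def, Complex.conj_I, neg_smul, ← smul_neg]
    congr 1
    have h3 : V * Pi * (1 - Vᴴ) = V * Pi - Pi := by
      rw [mul_sub, mul_one, ← hcomm.eq, mul_assoc, hVV', mul_one]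
    rw [h3, sub_mul, one_mul]
    abel
  set W := hH.eigenvectorUnitary with hW
  set Wm : Matrix (Fin n) (Fin n) ℂ := (W : Matrix (Fin n) (Fin n) ℂ)
  set d : Fin n → ℂ := fun i => (hH.eigenvalues i : ℂ)
  have hspec : H = Wm * diagonal d * star Wm := by
    conv_lhs => rw [hH.spectral_theorem]
    rfl
  have hW1 : star Wm * Wm = 1 := Unitary.coe_star_mul_self W
  have hW2 : Wm * star Wm = 1 := Unitary.coe_mul_star_self W
  have hrel : V * (1 - Complex.I • H) = 1 + Complex.I • H := by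
    have hI : Complex.I • H = -((1 - V) * Pi) := by
      rw [hHdef, smul_smul, Complex.I_mul_I, neg_one_smul]
    rw [hI]
    have h1 : 1 - -((1 - V) * Pi) = 2 • Pi := by
      have : (1 : Matrix (Fin n) (Fin n) ℂ) = Pi + V * Pi := by
        rw [← hPV, add_mul, one_mul]
      rw [sub_mul, one_mul]
      conv_lhs => arg 1; rw [this]
      rw [two_nsmul]
      abel
    have h2 : 1 + -((1 - V) * Pi) = 2 • (V * Pi) := by
      have : (1 : Matrix (Fin n) (Fin n) ℂ) = Pi + V * Pi := by
        rw [← hPV, add_mul, one_mul]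
      rw [sub_mul, one_mul]
      conv_lhs => arg 1; rw [this]
      rw [two_nsmul]
      abel
    rw [h1, h2, mul_smul_comm]
  set V' := star Wm * V * Wm with hV'
  have hdiag : V' * diagonal (fun i => 1 - Complex.I * d i) =
      diagonal (fun i => 1 + Complex.I * d i) := by
    have e1 : diagonal (fun i => 1 - Complex.I * d i) = star Wm * (1 - Complex.I • H) * Wm := by
      rw [hspec, mul_sub, sub_mul, mul_one, hW1, mul_smul_comm, smul_mul_assoc]
      simp only [← mul_assoc, hW1, one_mul]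
      rw [mul_assoc, hW1, mul_one, ← diagonal_one, ← diagonal_smul, diagonal_sub]
      rfl
    have e2 : diagonal (fun i => 1 + Complex.I * d i) = star Wm * (1 + Complex.I • H) * Wm := by
      rw [hspec, mul_add, add_mul, mul_one, hW1, mul_smul_comm, smul_mul_assoc]
      simp only [← mul_assoc, hW1, one_mul]
      rw [mul_assoc, hW1, mul_one, ← diagonal_one, ← diagonal_smul, diagonal_add]
      rfl
    rw [e1, e2, hV', ← hrel]
    simp only [mul_assoc]
    rw [← mul_assoc Wm (star Wm), hW2, one_mul]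
  have hne : ∀ i, 1 - Complex.I * d i ≠ 0 := by
    intro i h
    have := congrArg Complex.re h
    simp [d] at this
  have hV'd : V' = diagonal (fun i => (1 + Complex.I * d i) / (1 - Complex.I * d i)) := by
    ext i j
    have h := congrFun (congrFun hdiag i) j
    rw [mul_diagonal] at h
    by_cases hij : i = j
    · subst hij
      rw [diagonal_apply_eq] at h ⊢
      rw [eq_div_iff (hne i)]
      exact h
    · rw [diagonal_apply_ne _ hij] at h ⊢
      exact (mul_eq_zero.1 h).resolve_right (hne j)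
  refine ⟨W, fun i => c⁻¹ * ((1 + Complex.I * d i) / (1 - Complex.I * d i)), ?_⟩
  show (U : Matrix (Fin n) (Fin n) ℂ) = Wm * diagonal _ * star Wm
  have h4 : diagonal (fun i => c⁻¹ * ((1 + Complex.I * d i) / (1 - Complex.I * d i))) = c⁻¹ • V' := by
    rw [hV'd, ← diagonal_smul]
    rfl
  rw [h4, hV', mul_smul_comm, smul_mul_assoc]
  simp only [← mul_assoc]
  rw [hW2, one_mul, mul_assoc, hW2, mul_one, hV, smul_smul, inv_mul_cancel₀ hc0, one_smul]

theorem exists_perm_of_map_eq {α : Type*} [DecidableEq α] (d d' : Fin n → α)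
    (h : (Finset.univ.val.map d) = (Finset.univ.val.map d')) :
    ∃ σ : Equiv.Perm (Fin n), ∀ i, d' i = d (σ i) := by
  have hfib : ∀ x, Fintype.card {i // d' i = x} = Fintype.card {i // d i = x} := by
    intro x
    have := congrArg (Multiset.count x) h
    simp only [Multiset.count_map] at this
    rw [Fintype.card_subtype, Fintype.card_subtype, Finset.card_def, Finset.card_def,
      Finset.filter_val, Finset.filter_val]
    simpa [eq_comm] using this.symm
  refine ⟨Equiv.ofFiberEquiv (f := d') (g := d) (fun x => Fintype.equivOfCardEq (hfib x)), fun i => ?_⟩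
  exact (Equiv.ofFiberEquiv_map (f := d') (g := d) _ i).symm

theorem charpoly_conj_diag (W : Matrix.unitaryGroup (Fin n) ℂ) (d : Fin n → ℂ) :
    ((W : Matrix (Fin n) (Fin n) ℂ) * diagonal d * star (W : Matrix (Fin n) (Fin n) ℂ)).charpoly.roots =
      Finset.univ.val.map d := by
  rw [Matrix.charpoly_mul_comm, ← mul_assoc, Unitary.coe_star_mul_self, one_mul, charpoly_diagonal,
    Polynomial.roots_prod _ _ (Finset.prod_ne_zero_iff.2 fun i _ => X_sub_C_ne_zero _)]
  simp

theorem unitary_conjugator (g h : Matrix.unitaryGroup (Fin n) ℂ)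
    (hgh : (g : Matrix (Fin n) (Fin n) ℂ).charpoly = (h : Matrix (Fin n) (Fin n) ℂ).charpoly) :
    ∃ C : Matrix.unitaryGroup (Fin n) ℂ, C * g * C⁻¹ = h := by
  classical
  obtain ⟨W, d, hg⟩ := exists_unitary_diag g
  obtain ⟨W', d', hh⟩ := exists_unitary_diag h
  obtain ⟨σ, hσ⟩ := exists_perm_of_map_eq d d' (by
    rw [← charpoly_conj_diag W d, ← charpoly_conj_diag W' d', ← hg, ← hh, hgh])
  let Pm : Matrix (Fin n) (Fin n) ℂ := Matrix.of fun i j => if σ i = j then 1 else 0
  have hPm : Pm ∈ Matrix.unitaryGroup (Fin n) ℂ := by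
    rw [Matrix.mem_unitaryGroup_iff]
    ext i j
    simp [Pm, Matrix.mul_apply, star_eq_conjTranspose, Matrix.one_apply]
  let P : Matrix.unitaryGroup (Fin n) ℂ := ⟨Pm, hPm⟩
  refine ⟨W' * P * W⁻¹, ?_⟩
  apply Subtype.ext
  have hPd : Pm * diagonal d * star Pm = diagonal d' := by
    ext i j
    by_cases hij : i = j
    · subst hij
      simp [Pm, Matrix.mul_apply, star_eq_conjTranspose, diagonal, hσ]
    · simp [Pm, Matrix.mul_apply, star_eq_conjTranspose, diagonal, hσ, hij]
  have hgD : (W⁻¹ * g * W : Matrix.unitaryGroup (Fin n) ℂ).val = diagonal d := by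
    show star (W : Matrix (Fin n) (Fin n) ℂ) * (g : Matrix (Fin n) (Fin n) ℂ) * W = diagonal d
    rw [hg]
    simp only [← mul_assoc, Unitary.coe_star_mul_self, one_mul]
    rw [mul_assoc, Unitary.coe_star_mul_self, mul_one]
  rw [hh, ← hPd, ← hgD]
  have e : W' * P * W⁻¹ * g * (W' * P * W⁻¹)⁻¹ = W' * (P * (W⁻¹ * g * W) * P⁻¹) * W'⁻¹ := by
    group
  rw [e]
  rfl

theorem unitary_isConj_of_charpoly (g h : Matrix.unitaryGroup (Fin n) ℂ)
    (hgh : (g : Matrix (Fin n) (Fin n) ℂ).charpoly = (h : Matrix (Fin n) (Fin n) ℂ).charpoly) :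
    IsConj g h :=
  isConj_iff.2 (unitary_conjugator g h hgh)

theorem specialUnitary_isConj_of_charpoly (g h : Matrix.specialUnitaryGroup (Fin n) ℂ)
    (hgh : (g : Matrix (Fin n) (Fin n) ℂ).charpoly = (h : Matrix (Fin n) (Fin n) ℂ).charpoly) :
    IsConj g h := by
  rcases Nat.eq_zero_or_pos n with rfl | hn
  · have : g = h := Subtype.ext (Subsingleton.elim _ _)
    exact this ▸ IsConj.refl g
  obtain ⟨C, hC⟩ := unitary_conjugator
    ⟨g.val, (Matrix.mem_specialUnitaryGroup_iff.1 g.2).1⟩ ⟨h.val, (Matrix.mem_specialUnitaryGroup_iff.1 h.2).1⟩ hgh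
  set δ : ℂ := (C : Matrix (Fin n) (Fin n) ℂ).det
  have hδ : ‖δ‖ = 1 := by
    have h1 := congrArg Matrix.det (Unitary.coe_star_mul_self C)
    rw [det_mul, star_eq_conjTranspose, det_conjTranspose, det_one] at h1
    have h2 := congrArg norm h1
    rw [norm_mul, norm_star, norm_one] at h2
    nlinarith [norm_nonneg δ]
  have hδ0 : δ ≠ 0 := fun h => by simp [h] at hδ
  obtain ⟨s, hs⟩ := IsAlgClosed.exists_pow_nat_eq δ⁻¹ hn
  have hs1 : ‖s‖ = 1 := by
    have h1 := congrArg norm hs
    rw [norm_pow, norm_inv, hδ, inv_one] at h1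
    exact (pow_eq_one_iff_of_nonneg (norm_nonneg _) hn.ne').1 h1
  have hss : star s * s = 1 := by
    rw [Complex.star_def, ← Complex.normSq_eq_conj_mul_self, Complex.normSq_eq_norm_sq, hs1]
    simp
  let C' : Matrix (Fin n) (Fin n) ℂ := s • (C : Matrix (Fin n) (Fin n) ℂ)
  have hC'u : C' ∈ Matrix.unitaryGroup (Fin n) ℂ := by
    rw [Matrix.mem_unitaryGroup_iff', star_smul, smul_mul_smul_comm, hss, one_smul]
    exact Unitary.coe_star_mul_self C
  have hC'd : C'.det = 1 := by
    rw [det_smul, Fintype.card_fin, hs]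
    exact inv_mul_cancel₀ hδ0
  refine isConj_iff.2 ⟨⟨C', Matrix.mem_specialUnitaryGroup_iff.2 ⟨hC'u, hC'd⟩⟩, ?_⟩
  rw [mul_inv_eq_iff_eq_mul]
  apply Subtype.ext
  show C' * (g : Matrix (Fin n) (Fin n) ℂ) = (h : Matrix (Fin n) (Fin n) ℂ) * C'
  have h1 := congrArg Subtype.val (mul_inv_eq_iff_eq_mul.1 hC)
  change (C : Matrix (Fin n) (Fin n) ℂ) * (g : Matrix (Fin n) (Fin n) ℂ) =
    (h : Matrix (Fin n) (Fin n) ℂ) * C at h1
  simp only [C', smul_mul_assoc, mul_smul_comm, h1]

end Vale.P184
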